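import Crest.Agent.N207.K.Hd1
import Crest.Agent.N207.A.Co1
import Mathlib.Analysis.Calculus.DerivativeTest

/-!
# Row 207, gauge block (helper50): the maximum principle on annuli of `ℝ⁴` with power barriers
-/

set_option autoImplicit false
open Set Filter Topology Metric
open scoped ContDiff
open Crest.GeometryTopology.CoordMetric

noncomputable section

namespace Crest.Agent.N207.M

open Hd

/-- the flat Laplacian -/
def lap0 (w : E4 → ℝ) (x : E4) : ℝ := ∑ i, pderiv i (pderiv i w) x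

/-- the two sided profile `P (r/b)^g + Q (a/r)^g` -/
def prof (a b g P Q r : ℝ) : ℝ := P * (r / b) ^ g + Q * (a / r) ^ g

variable {U : Set E4} {w v : E4 → ℝ} {x : E4} {a b g P Q : ℝ}

theorem dAt_pd (hw : ContDiffAt ℝ 2 w x) (i : Fin 4) : DifferentiableAt ℝ (pderiv i w) x :=
  ((hw.fderiv_right (m := 1) (by norm_num)).clm_apply contDiffAt_const).differentiableAt
    (by norm_num)

theorem ev_dAt (hw : ContDiffAt ℝ 2 w x) : ∀ᶠ y in 𝓝 x, DifferentiableAt ℝ w y :=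
  (hw.eventually (by simp)).mono fun _ h => h.differentiableAt (by norm_num)

theorem lap0_add (hw : ContDiffAt ℝ 2 w x) (hv : ContDiffAt ℝ 2 v x) :
    lap0 (fun y => w y + v y) x = lap0 w x + lap0 v x := by
  unfold lap0
  rw [← Finset.sum_add_distrib]
  refine Finset.sum_congr rfl fun i _ => ?_
  rw [← pd_add i (dAt_pd hw i) (dAt_pd hv i)]
  refine pd_congr i ?_
  filter_upwards [ev_dAt hw, ev_dAt hv] with y h1 h2 using pd_add i h1 h2

theorem lap0_cmul (c : ℝ) : lap0 (fun y => c * w y) x = c * lap0 w x := by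
  unfold lap0
  rw [Finset.mul_sum]
  refine Finset.sum_congr rfl fun i _ => ?_
  rw [← pd_cmul]
  exact congrArg (fun f => pderiv i f x) (funext fun y => pd_cmul i c)

theorem lap0_const (c : ℝ) : lap0 (fun _ => c) x = 0 := by
  have h : ∀ i : Fin 4, pderiv i (fun _ : E4 => c) = fun _ => 0 := fun i =>
    funext fun y => pd_const i c
  simp only [lap0, h, pd_const, Finset.sum_const_zero]

theorem pd_pd_nonpos (hw : ContDiffAt ℝ 2 w x) (hm : IsLocalMax w x) (i : Fin 4) :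
    pderiv i (pderiv i w) x ≤ 0 := by
  set e : E4 := EuclideanSpace.single i 1 with he
  have hl : ∀ t : ℝ, HasDerivAt (fun s : ℝ => x + s • e) e t := fun t => by
    simpa using ((hasDerivAt_id t).smul_const e).const_add x
  have ht : Tendsto (fun s : ℝ => x + s • e) (𝓝 0) (𝓝 x) := by
    simpa using (hl 0).continuousAt.tendsto
  have h1 : deriv (fun s : ℝ => w (x + s • e)) =ᶠ[𝓝 0] fun s => pderiv i w (x + s • e) := by
    filter_upwards [ht.eventually (ev_dAt hw)] with s hs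
    exact (hs.hasFDerivAt.comp_hasDerivAt s (hl s)).deriv
  have h2 : HasDerivAt (fun s : ℝ => pderiv i w (x + s • e)) (pderiv i (pderiv i w) x) 0 := by
    have h := dAt_pd hw i
    have h' : HasFDerivAt (pderiv i w) (fderiv ℝ (pderiv i w) x) (x + (0 : ℝ) • e) := by
      simpa using h.hasFDerivAt
    exact h'.comp_hasDerivAt 0 (hl 0)
  have h3 : deriv (deriv fun s : ℝ => w (x + s • e)) 0 = pderiv i (pderiv i w) x := by
    rw [h1.deriv_eq, h2.deriv]
  have h4 : IsLocalMax (fun s : ℝ => w (x + s • e)) 0 := by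
    have := ht.eventually hm
    refine this.mono fun s hs => ?_
    simpa using hs
  by_contra hc
  have hc' := not_le.1 hc
  have h5 : ContinuousAt (fun s : ℝ => w (x + s • e)) 0 := by
    have : ContinuousAt w (x + (0 : ℝ) • e) := by simpa using hw.continuousAt
    exact this.comp (f := fun s : ℝ => x + s • e) (hl 0).continuousAt
  have h6 := isLocalMin_of_deriv_deriv_pos (h3 ▸ hc') h4.deriv_eq_zero h5
  have h7 : (fun s : ℝ => w (x + s • e)) =ᶠ[𝓝 0] fun _ => w (x + (0 : ℝ) • e) := by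
    filter_upwards [h4, h6] with s a1 a2 using le_antisymm a1 a2
  have h8 : deriv (deriv fun s : ℝ => w (x + s • e)) 0 = 0 := by
    rw [h7.deriv.deriv_eq]
    simp
  linarith

theorem rp_eq (β : ℝ) (x : E4) : ‖x‖ ^ β = (‖x‖ ^ 2) ^ (β / 2) := by
  rw [← Real.rpow_natCast, ← Real.rpow_mul (norm_nonneg _)]
  congr 1
  push_cast
  ring

theorem contDiffAt_rp (β : ℝ) (hx : x ≠ 0) {n : WithTop ℕ∞} :
    ContDiffAt ℝ n (fun y : E4 => ‖y‖ ^ β) x :=
  (contDiffAt_norm ℝ hx).rpow_const_of_ne (norm_ne_zero_iff.2 hx)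

theorem pd_rp (β : ℝ) (hx : x ≠ 0) (i : Fin 4) :
    pderiv i (fun y : E4 => ‖y‖ ^ β) x = x i * (β * ‖x‖ ^ (β - 2)) := by
  have hp : 0 < ‖x‖ := norm_pos_iff.2 hx
  have h1 : HasDerivAt (fun s : ℝ => s ^ (β / 2)) (β / 2 * (‖x‖ ^ 2) ^ (β / 2 - 1)) (‖x‖ ^ 2) :=
    Real.hasDerivAt_rpow_const (Or.inl (by positivity))
  have h2 := (h1.comp_hasFDerivAt x (hasFDerivAt_nsq x)).fderiv
  have h3 : (fun y : E4 => ‖y‖ ^ β) = (fun s : ℝ => s ^ (β / 2)) ∘ fun y : E4 => ‖y‖ ^ 2 :=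
    funext fun y => rp_eq β y
  have h4 : (‖x‖ ^ 2) ^ (β / 2 - 1) = ‖x‖ ^ (β - 2) := by
    rw [rp_eq]; congr 1; ring
  rw [pderiv, h3, h2, h4]
  simp [EuclideanSpace.inner_single_right]
  ring

theorem lap0_rp (β : ℝ) (hx : x ≠ 0) :
    lap0 (fun y : E4 => ‖y‖ ^ β) x = β * (β + 2) * ‖x‖ ^ (β - 2) := by
  have hp : 0 < ‖x‖ := norm_pos_iff.2 hx
  have h1 : ∀ i : Fin 4, pderiv i (pderiv i fun y : E4 => ‖y‖ ^ β) x =
      β * ‖x‖ ^ (β - 2) + x i ^ 2 * (β * ((β - 2) * ‖x‖ ^ (β - 2 - 2))) := fun i => by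
    have e : (pderiv i fun y : E4 => ‖y‖ ^ β) =ᶠ[𝓝 x] fun y => y i * (β * ‖y‖ ^ (β - 2)) := by
      filter_upwards [isOpen_ne.mem_nhds hx] with y hy using pd_rp β hy i
    rw [pd_congr i e, pderiv_coord_mul (f := fun y : E4 => β * ‖y‖ ^ (β - 2))
      (((contDiffAt_rp (β - 2) hx (n := 1)).differentiableAt one_ne_zero).const_mul β), pd_cmul,
      pd_rp _ hx, if_pos rfl]
    ring
  have h2 : ‖x‖ ^ 2 * ‖x‖ ^ (β - 2 - 2) = ‖x‖ ^ (β - 2) := by
    rw [← Real.rpow_natCast, ← Real.rpow_add hp]; congr 1; push_cast; ring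
  simp only [lap0, h1, Finset.sum_add_distrib, ← Finset.sum_mul, ← norm_sq_eq]
  simp only [Finset.sum_const, Finset.card_univ, Fintype.card_fin, nsmul_eq_mul, Nat.cast_ofNat]
  linear_combination (β * (β - 2)) * h2

/-- weak maximum principle on a closed annulus -/
theorem mp_ann (ha : 0 < a) (hw : ∀ x ∈ An a b, ContDiffAt ℝ 2 w x)
    (hl : ∀ x : E4, a < ‖x‖ → ‖x‖ < b → 0 ≤ lap0 w x) (h1 : ∀ x ∈ An a b, ‖x‖ = a → w x ≤ 0)
    (h2 : ∀ x ∈ An a b, ‖x‖ = b → w x ≤ 0) (hx : x ∈ An a b) : w x ≤ 0 := by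
  have key : ∀ ε : ℝ, 0 < ε → w x ≤ ε * b ^ 2 := fun ε hε => by
    have hc : ∀ y ∈ An a b, ContDiffAt ℝ 2 (fun z : E4 => ε * ‖z‖ ^ (2 : ℝ)) y := fun y hy =>
      contDiffAt_const.mul (contDiffAt_rp 2 (norm_pos_iff.1 (pos_of_An ha hy)))
    obtain ⟨y, hy, hm⟩ := (isCompact_An a b).exists_isMaxOn ⟨x, hx⟩
      (f := fun z => w z + ε * ‖z‖ ^ (2 : ℝ))
      fun y hy => ((hw y hy).add (hc y hy)).continuousAt.continuousWithinAt
    have e1 : w x + ε * ‖x‖ ^ (2 : ℝ) ≤ w y + ε * ‖y‖ ^ (2 : ℝ) := hm hx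
    have e2 : 0 ≤ ε * ‖x‖ ^ (2 : ℝ) := by positivity
    have e3 : ε * ‖y‖ ^ (2 : ℝ) ≤ ε * b ^ 2 := by
      rw [Real.rpow_two]
      exact mul_le_mul_of_nonneg_left (pow_le_pow_left₀ (norm_nonneg _) hy.2 2) hε.le
    have e4 : w y ≤ 0 := by
      rcases hy.1.eq_or_lt with h | h
      · exact h1 y hy h.symm
      rcases hy.2.eq_or_lt with h' | h'
      · exact h2 y hy h'
      exfalso
      have hn : An a b ∈ 𝓝 y := by
        filter_upwards [continuous_norm.continuousAt.eventually (lt_mem_nhds h),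
          continuous_norm.continuousAt.eventually (gt_mem_nhds h')] with z a1 a2 using ⟨a1.le, a2.le⟩
      have e5 : lap0 (fun z => w z + ε * ‖z‖ ^ (2 : ℝ)) y ≤ 0 :=
        Finset.sum_nonpos fun i _ => pd_pd_nonpos ((hw y hy).add (hc y hy)) (hm.isLocalMax hn) i
      rw [lap0_add (hw y hy) (hc y hy), lap0_cmul, lap0_rp _ (norm_pos_iff.1 (pos_of_An ha hy))]
        at e5
      have e6 := hl y h h'
      simp only [sub_self, Real.rpow_zero] at e5
      linarith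
    linarith
  refine le_of_forall_pos_le_add fun ε hε => ?_
  have hb : 0 < b := (pos_of_An ha hx).trans_le hx.2
  have := key (ε / b ^ 2) (by positivity)
  rw [div_mul_cancel₀ _ (by positivity)] at this
  linarith

theorem prof_nonneg (ha : 0 ≤ a) (hb : 0 ≤ b) (hP : 0 ≤ P) (hQ : 0 ≤ Q) {r : ℝ} (hr : 0 ≤ r) :
    0 ≤ prof a b g P Q r := by
  unfold prof; positivity

theorem prof_eq (ha : 0 < a) (hb : 0 < b) {r : ℝ} (hr : 0 < r) (k : ℝ) :
    P * b ^ (-g) * r ^ (g - k) + Q * a ^ g * r ^ (-g - k) = prof a b g P Q r * r ^ (-k) := by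
  unfold prof
  rw [Real.div_rpow hr.le hb.le, Real.div_rpow ha.le hr.le, Real.rpow_neg hb.le,
    sub_eq_add_neg, sub_eq_add_neg, Real.rpow_add hr, Real.rpow_add hr, Real.rpow_neg hr.le g]
  field_simp

theorem mp_up (ha : 0 < a) (hP : 0 ≤ P) (hQ : 0 ≤ Q)
    (hw : ∀ x ∈ An a b, ContDiffAt ℝ 2 w x)
    (hl : ∀ x : E4, a < ‖x‖ → ‖x‖ < b → -((1 - g ^ 2) * prof a b g P Q ‖x‖) ≤ ‖x‖ ^ 3 * lap0 w x)
    (h1 : ∀ x ∈ An a b, ‖x‖ = a → a * w x ≤ Q) (h2 : ∀ x ∈ An a b, ‖x‖ = b → b * w x ≤ P)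
    (hx : x ∈ An a b) : ‖x‖ * w x ≤ prof a b g P Q ‖x‖ := by
  have hb : 0 < b := (pos_of_An ha hx).trans_le hx.2
  set c1 := -(P * b ^ (-g)) with hc1
  set c2 := -(Q * a ^ g) with hc2
  have s1 : ∀ y ∈ An a b, ContDiffAt ℝ 2 (fun z : E4 => c1 * ‖z‖ ^ (g - 1)) y := fun y hy =>
    contDiffAt_const.mul (contDiffAt_rp _ (norm_pos_iff.1 (pos_of_An ha hy)))
  have s2 : ∀ y ∈ An a b, ContDiffAt ℝ 2 (fun z : E4 => c2 * ‖z‖ ^ (-g - 1)) y := fun y hy =>
    contDiffAt_const.mul (contDiffAt_rp _ (norm_pos_iff.1 (pos_of_An ha hy)))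
  have e0 : ∀ y ∈ An a b, c1 * ‖y‖ ^ (g - 1) + c2 * ‖y‖ ^ (-g - 1) =
      -(prof a b g P Q ‖y‖ / ‖y‖) := fun y hy => by
    have := prof_eq (g := g) (P := P) (Q := Q) ha hb (pos_of_An ha hy) 1
    rw [Real.rpow_neg_one] at this
    rw [hc1, hc2, div_eq_mul_inv, ← this]; ring
  have key := mp_ann (w := fun z => w z + (c1 * ‖z‖ ^ (g - 1) + c2 * ‖z‖ ^ (-g - 1))) ha
    (fun y hy => (hw y hy).add ((s1 y hy).add (s2 y hy))) (fun y h h' => ?_) (fun y hy h => ?_)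
    (fun y hy h => ?_) hx
  · rw [e0 x hx] at key
    have hp := pos_of_An ha hx
    have : w x ≤ prof a b g P Q ‖x‖ / ‖x‖ := by linarith
    rw [le_div_iff₀ hp] at this
    linarith
  · have hy : y ∈ An a b := ⟨h.le, h'.le⟩
    have hp := pos_of_An ha hy
    have hn := norm_pos_iff.1 hp
    rw [lap0_add (hw y hy) ((s1 y hy).add (s2 y hy)), lap0_add (s1 y hy) (s2 y hy), lap0_cmul,
      lap0_cmul, lap0_rp _ hn, lap0_rp _ hn]
    have e1 := prof_eq (g := g) (P := P) (Q := Q) ha hb hp 3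
    have e2 : ‖y‖ ^ 3 * ‖y‖ ^ (-3 : ℝ) = 1 := by
      rw [← Real.rpow_natCast, ← Real.rpow_add hp]; norm_num
    have e3 := hl y h h'
    rw [show g - 1 - 2 = g - 3 by ring, show -g - 1 - 2 = -g - 3 by ring]
    have e4 : c1 * ((g - 1) * (g - 1 + 2) * ‖y‖ ^ (g - 3)) +
        c2 * ((-g - 1) * (-g - 1 + 2) * ‖y‖ ^ (-g - 3)) =
        (1 - g ^ 2) * prof a b g P Q ‖y‖ * ‖y‖ ^ (-3 : ℝ) := by
      rw [mul_assoc (1 - g ^ 2), ← e1, hc1, hc2]; ring
    rw [e4]
    have e5 : 0 < ‖y‖ ^ (-3 : ℝ) := Real.rpow_pos_of_pos hp _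
    have e6 := mul_le_mul_of_nonneg_right e3 e5.le
    have e7 : ‖y‖ ^ 3 * lap0 w y * ‖y‖ ^ (-3 : ℝ) = lap0 w y := by
      linear_combination (lap0 w y) * e2
    linarith
  · rw [e0 y hy, h]
    have e1 : Q ≤ prof a b g P Q a := by
      unfold prof
      rw [div_self ha.ne', Real.one_rpow]
      have : 0 ≤ P * (a / b) ^ g := by positivity
      linarith
    have e2 : w y ≤ prof a b g P Q a / a := by
      rw [le_div_iff₀ ha]; linarith [h1 y hy h]
    linarith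
  · rw [e0 y hy, h]
    have e1 : P ≤ prof a b g P Q b := by
      unfold prof
      rw [div_self hb.ne', Real.one_rpow]
      have : 0 ≤ Q * (a / b) ^ g := by positivity
      linarith
    have e2 : w y ≤ prof a b g P Q b / b := by
      rw [le_div_iff₀ hb]; linarith [h2 y hy h]
    linarith

/-- **barrier estimate** on an annulus: scalars of the size `r⁻¹ · profile` -/
theorem mp_prof (ha : 0 < a) (hP : 0 ≤ P) (hQ : 0 ≤ Q)
    (hw : ∀ x ∈ An a b, ContDiffAt ℝ 2 w x)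
    (hl : ∀ x : E4, a < ‖x‖ → ‖x‖ < b → ‖x‖ ^ 3 * |lap0 w x| ≤ (1 - g ^ 2) * prof a b g P Q ‖x‖)
    (h1 : ∀ x ∈ An a b, ‖x‖ = a → a * |w x| ≤ Q) (h2 : ∀ x ∈ An a b, ‖x‖ = b → b * |w x| ≤ P)
    (hx : x ∈ An a b) : ‖x‖ * |w x| ≤ prof a b g P Q ‖x‖ := by
  have hb : 0 < b := (pos_of_An ha hx).trans_le hx.2
  have k1 := mp_up (g := g) ha hP hQ hw (fun y h h' => by
      have := mul_le_mul_of_nonneg_left (neg_abs_le (lap0 w y)) (pow_nonneg (norm_nonneg y) 3)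
      linarith [hl y h h'])
    (fun y hy h => (mul_le_mul_of_nonneg_left (le_abs_self _) ha.le).trans (h1 y hy h))
    (fun y hy h => (mul_le_mul_of_nonneg_left (le_abs_self _) hb.le).trans (h2 y hy h)) hx
  have k2 := mp_up (g := g) (w := fun z => -1 * w z) ha hP hQ
    (fun y hy => contDiffAt_const.mul (hw y hy)) (fun y h h' => by
      have := mul_le_mul_of_nonneg_left (le_abs_self (lap0 w y)) (pow_nonneg (norm_nonneg y) 3)
      rw [lap0_cmul]
      linarith [hl y h h'])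
    (fun y hy h => by
      have := mul_le_mul_of_nonneg_left (neg_le_abs (w y)) ha.le
      linarith [h1 y hy h])
    (fun y hy h => by
      have := mul_le_mul_of_nonneg_left (neg_le_abs (w y)) hb.le
      linarith [h2 y hy h]) hx
  rcases abs_cases (w x) with h | h <;> rw [h.1] <;> linarith

end Crest.Agent.N207.M

end
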