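import Crest.Agent.N207.M.Rad

/-!
# Row 207, X3 (helper50): the smooth logarithmic scale function on `glob L`
-/

set_option autoImplicit false

open scoped ContDiff
open Metric Set Filter Topology MeasureTheory
open Crest.GeometryTopology.CoordMetric
open Crest.Agent.N207.I Crest.Agent.N207.I.TD Crest.Agent.N207.CB Crest.Agent.N207.N

noncomputable section

namespace Crest.Agent.N207.M

/-- smooth ramp -/
def ramp (t : ℝ) : ℝ := ∫ u in (0 : ℝ)..t, Real.smoothTransition u

theorem ramp_deriv (t : ℝ) : HasDerivAt ramp (Real.smoothTransition t) t :=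
  (Real.smoothTransition.continuous.integral_hasStrictDerivAt 0 t).hasDerivAt

theorem ramp_sm : ContDiff ℝ ∞ ramp :=
  contDiff_infty_iff_deriv.2 ⟨fun t => (ramp_deriv t).differentiableAt, by
    rw [show deriv ramp = Real.smoothTransition from funext fun t => (ramp_deriv t).deriv]
    exact Real.smoothTransition.contDiff⟩

theorem ramp_nonpos {t : ℝ} (ht : t ≤ 0) : ramp t = 0 := by
  rw [ramp, intervalIntegral.integral_congr (g := fun _ => 0) fun u hu => ?_]
  · simp
  · rw [uIcc_of_ge ht] at hu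
    exact Real.smoothTransition.zero_of_nonpos hu.2

theorem ramp_one {t : ℝ} (ht : 1 ≤ t) : ramp t = t - 1 + ramp 1 := by
  have i := fun a b : ℝ => Real.smoothTransition.continuous.intervalIntegrable (μ := volume) a b
  rw [ramp, ramp, ← intervalIntegral.integral_add_adjacent_intervals (i 0 1) (i 1 t),
    intervalIntegral.integral_congr (a := 1) (b := t) (g := fun _ => 1) fun u hu => ?_]
  · simp [add_comm]
  · rw [uIcc_of_le ht] at hu
    exact Real.smoothTransition.one_of_one_le hu.1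

theorem ramp_bd (t : ℝ) : 0 ≤ ramp t ∧ t - 1 ≤ ramp t ∧ ramp t ≤ max t 0 := by
  have k : ∀ t : ℝ, 0 ≤ t → 0 ≤ ramp t ∧ ramp t ≤ t := fun t ht =>
    ⟨intervalIntegral.integral_nonneg ht fun u _ => Real.smoothTransition.nonneg u, by
      have := intervalIntegral.integral_mono_on (μ := volume) ht
        (Real.smoothTransition.continuous.intervalIntegrable 0 t)
        (continuous_const.intervalIntegrable 0 t) fun u _ => Real.smoothTransition.le_one u
      simpa [ramp] using this⟩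
  rcases le_total t 0 with h | h
  · rw [ramp_nonpos h]; exact ⟨le_rfl, by linarith, le_max_right _ _⟩
  · refine ⟨(k t h).1, ?_, (k t h).2.trans (le_max_left _ _)⟩
    rcases le_total t 1 with h1 | h1
    · linarith [(k t h).1]
    · linarith [ramp_one h1, (k 1 zero_le_one).1]

/-- profile of a neck of length `l` -/
theorem exists_prof {α τ : ℝ} (hα : 0 ≤ α) (hτ : 0 < τ) : ∃ l0 : ℝ, ∀ l, l0 ≤ l →
    ∃ m m' : ℝ → ℝ, ContDiff ℝ ∞ m ∧ (∀ t, HasDerivAt m (m' t) t) ∧ (∀ t, |m' t| ≤ 1 + τ) ∧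
      (∀ t, t ≤ α → m t = 0 ∧ m' t = 0) ∧ (∀ t, l - α ≤ t → m t = l ∧ m' t = 0) ∧
      ∀ t, 0 ≤ t → t ≤ l → |m t - t| ≤ 6 * α + 6 := by
  refine ⟨2 * α + 2 + (2 * α + 1) / τ, fun l hl => ?_⟩
  have h0 : 0 ≤ (2 * α + 1) / τ := by positivity
  set β := l - α - 1 with hβ
  have hI : 1 ≤ β - α := by linarith
  have hq : l / (β - α) ≤ 1 + τ := by
    rw [div_le_iff₀ (by linarith)]
    have : (2 * α + 1) / τ * τ = 2 * α + 1 := by field_simp
    nlinarith
  have hq0 : 0 ≤ l / (β - α) := div_nonneg (by linarith) (by linarith)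
  refine ⟨fun t => l / (β - α) * (ramp (t - α) - ramp (t - β)), fun t => l / (β - α) *
    (Real.smoothTransition (t - α) - Real.smoothTransition (t - β)),
    contDiff_const.mul ((ramp_sm.comp (contDiff_id.sub contDiff_const)).sub
      (ramp_sm.comp (contDiff_id.sub contDiff_const))),
    fun t => ((ramp_deriv _).comp_sub_const t α |>.sub ((ramp_deriv _).comp_sub_const t β)).const_mul _,
    fun t => ?_, fun t ht => ?_, fun t ht => ?_, fun t h1 h2 => ?_⟩
  · rw [abs_mul, abs_of_nonneg hq0]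
    have : |Real.smoothTransition (t - α) - Real.smoothTransition (t - β)| ≤ 1 := abs_le.2
      ⟨by linarith [Real.smoothTransition.nonneg (t - α), Real.smoothTransition.le_one (t - β)],
        by linarith [Real.smoothTransition.nonneg (t - β), Real.smoothTransition.le_one (t - α)]⟩
    nlinarith
  · simp only [ramp_nonpos (show t - α ≤ 0 by linarith), ramp_nonpos (show t - β ≤ 0 by linarith),
      Real.smoothTransition.zero_of_nonpos (show t - α ≤ 0 by linarith),
      Real.smoothTransition.zero_of_nonpos (show t - β ≤ 0 by linarith), sub_self, mul_zero,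
      and_self]
  · simp only [ramp_one (show 1 ≤ t - α by linarith), ramp_one (show 1 ≤ t - β by linarith),
      Real.smoothTransition.one_of_one_le (show 1 ≤ t - α by linarith),
      Real.smoothTransition.one_of_one_le (show 1 ≤ t - β by linarith), sub_self, mul_zero,
      and_true]
    rw [show t - α - 1 + ramp 1 - (t - β - 1 + ramp 1) = β - α by ring,
      div_mul_cancel₀ _ (by linarith)]
  · obtain ⟨a1, a2, a3⟩ := ramp_bd (t - α)
    obtain ⟨b1, b2, b3⟩ := ramp_bd (t - β)
    set P := ramp (t - α) - ramp (t - β) with hP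
    have a4 : ramp (t - α) ≤ t := a3.trans (max_le (by linarith) h1)
    have b4 : ramp (t - β) ≤ α + 1 := b3.trans (max_le (by linarith) (by linarith))
    have p1 : |P - t| ≤ 2 * α + 2 := abs_le.2 ⟨by linarith, by linarith⟩
    have p2 : |P| ≤ 2 * (β - α) := by
      refine abs_le.2 ⟨?_, ?_⟩
      · rcases le_total (t - β) 0 with h | h
        · rw [max_eq_right h] at b3; linarith
        · rw [max_eq_left h] at b3; linarith
      · rcases le_total (t - α) 0 with h | h
        · rw [max_eq_right h] at a3; linarith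
        · rw [max_eq_left h] at a3; linarith
    have p3 : l / (β - α) * P - P = (2 * α + 1) * (P / (β - α)) := by
      have : β - α ≠ 0 := by linarith
      field_simp
      rw [hβ]; ring
    have p4 : |P / (β - α)| ≤ 2 := by
      rw [abs_div, abs_of_pos (show 0 < β - α by linarith), div_le_iff₀ (by linarith)]; exact p2
    have p5 : |l / (β - α) * P - P| ≤ (2 * α + 1) * 2 := by
      rw [p3, abs_mul, abs_of_nonneg (by linarith : 0 ≤ 2 * α + 1)]
      exact mul_le_mul_of_nonneg_left p4 (by linarith)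
    have := abs_sub_le (l / (β - α) * P) P t
    linarith

theorem pd_log (m : ℝ → ℝ) {m' : ℝ} {x : E4} (hx : x ≠ 0) (hm : HasDerivAt m m' (Real.log ‖x‖))
    (c : ℝ) (i : Fin 4) :
    pderiv i (fun y : E4 => c + m (Real.log ‖y‖)) x = m' * (x i / ‖x‖ ^ 2) := by
  have hp : 0 < ‖x‖ := norm_pos_iff.2 hx
  have h1 : HasDerivAt (fun s : ℝ => 2⁻¹ * Real.log s) (2⁻¹ * (‖x‖ ^ 2)⁻¹) (‖x‖ ^ 2) :=
    (Real.hasDerivAt_log (by positivity)).const_mul _
  have h2 := h1.comp_hasFDerivAt x (Hd.hasFDerivAt_nsq x)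
  have h3 : ((fun s : ℝ => 2⁻¹ * Real.log s) ∘ fun y : E4 => ‖y‖ ^ 2) = fun y => Real.log ‖y‖ := by
    funext y; simp [Real.log_pow]
  rw [h3] at h2
  have h4 := ((hm.comp_hasFDerivAt x h2).const_add c).fderiv
  rw [pderiv]
  erw [h4]
  simp [EuclideanSpace.inner_single_right]
  field_simp
  simp

theorem g2_log (m : ℝ → ℝ) {m' : ℝ} {x : E4} (hx : x ≠ 0) (hm : HasDerivAt m m' (Real.log ‖x‖))
    (c : ℝ) : ‖x‖ ^ 2 * Hd.g2 (fun y : E4 => c + m (Real.log ‖y‖)) x = m' ^ 2 := by
  have hp : 0 < ‖x‖ := norm_pos_iff.2 hx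
  simp only [Hd.g2, pd_log m hx hm, mul_pow, div_pow, ← Finset.mul_sum, ← Finset.sum_div,
    ← Hd.norm_sq_eq]
  field_simp

variable {M : Type*} (T : TD M)

/-- the logarithmic scale function -/
structure Scf (L : T.V → ℝ) (A τ D : ℝ) (l : T.S → E4 → ℝ) : Prop where
  comp : (T.glob L).CompF l
  sm : ∀ s, ContDiffOn ℝ ∞ (l s) ((T.glob L).U s)
  cmp : ∀ s, ∀ x ∈ (T.glob L).U s, |l s x - Real.log (Sk.rw T L s x)| ≤ D
  ball : ∀ a x, Hd.g2 (l (Sum.inl a)) x = 0
  neck : ∀ w, ∀ x ∈ (T.glob L).U (Sum.inr w), ‖x‖ ^ 2 * Hd.g2 (l (Sum.inr w)) x ≤ (1 + τ) ^ 2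
  out : ∀ w, ∀ x ∈ (T.glob L).U (Sum.inr w), Hd.g2 (l (Sum.inr w)) x ≠ 0 →
    A ≤ ‖x‖ ∧ (w ≠ T.root → A * ‖x‖ ≤ Real.exp (L w))

variable {T}

theorem exists_scf (h : T.Ok) {A τ : ℝ} (hA : 4 / T.r ≤ A) (hτ : 0 < τ) :
    ∃ D l0 : ℝ, 0 ≤ D ∧ ∀ L, Ga.Lg T l0 L → ∃ l, Scf T L A τ D l := by
  have hr := h.r_pos
  have hA4 : 4 ≤ A := le_trans (by rw [le_div_iff₀ hr]; linarith [h.r_lt]) hA
  have hα : 0 ≤ Real.log A := Real.log_nonneg (by linarith)
  obtain ⟨l0, H⟩ := exists_prof hα hτ
  refine ⟨6 * Real.log A + 6, l0, by positivity, fun L hL => ?_⟩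
  have key : ∀ w, ∃ m m' : ℝ → ℝ, ContDiff ℝ ∞ m ∧ (∀ t, HasDerivAt m (m' t) t) ∧
      (∀ t, |m' t| ≤ 1 + τ) ∧ (∀ t, t ≤ Real.log A → m t = 0 ∧ m' t = 0) ∧
      (w ≠ T.root → ∀ t, L w - Real.log A ≤ t → m t = L w ∧ m' t = 0) ∧
      ∀ t, 0 ≤ t → (w ≠ T.root → t ≤ L w) → |m t - t| ≤ 6 * Real.log A + 6 := fun w => by
    by_cases hw : w = T.root
    · refine ⟨fun t => ramp (t - Real.log A), fun t => Real.smoothTransition (t - Real.log A),
        ramp_sm.comp (contDiff_id.sub contDiff_const), fun t => (ramp_deriv _).comp_sub_const t _,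
        fun t => ?_, fun t ht => ⟨ramp_nonpos (by linarith),
          Real.smoothTransition.zero_of_nonpos (by linarith)⟩, fun h' => absurd hw h',
        fun t ht _ => ?_⟩
      · rw [abs_of_nonneg (Real.smoothTransition.nonneg _)]
        linarith [Real.smoothTransition.le_one (t - Real.log A)]
      · obtain ⟨-, a2, a3⟩ := ramp_bd (t - Real.log A)
        have := a3.trans (max_le (show t - Real.log A ≤ t by linarith) ht)
        exact abs_le.2 ⟨by linarith, by linarith⟩
    · obtain ⟨m, m', a1, a2, a3, a4, a5, a6⟩ := H (L w) (hL.2 w hw)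
      exact ⟨m, m', a1, a2, a3, a4, fun _ => a5, fun t h1 h2 => a6 t h1 (h2 hw)⟩
  choose m m' k1 k2 k3 k4 k5 k6 using key
  have lg : ∀ w, w ≠ T.root → ∀ s : ℝ, 0 < s → Real.exp (L w) ≤ A * s →
      L w - Real.log A ≤ Real.log s := fun w _ s hs e => by
    have := Real.log_le_log (Real.exp_pos _) e
    rw [Real.log_exp, Real.log_mul (by linarith) hs.ne'] at this
    linarith
  refine ⟨radF T (fun v => Real.log (T.eps L v)) fun w s =>
    Real.log (T.eps L w) + if s ≤ 0 then 0 else m w (Real.log s), radF_comp (fun w s hs => ?_)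
    (fun w hw s hs => ?_), radF_sm fun w => ?_, fun s x hx => ?_, fun a x => ?_, fun w x hx => ?_,
    fun w x hx h0 => ?_⟩
  · split_ifs with h0
    · simp
    · rw [(k4 w _ (Real.log_le_log (not_le.1 h0) (by linarith))).1, add_zero]
  · have h0 : 0 < s := lt_trans (by positivity) hs
    have e : Real.exp (L w) ≤ A * s := by
      rw [div_le_iff₀ hr] at hA
      nlinarith [Real.exp_pos (L w)]
    rw [if_neg (not_le.2 h0), (k5 w hw _ (lg w hw s h0 e)).1, h.eps_kid L hw,
      Real.log_mul (eps_pos _ _).ne' (Real.exp_pos _).ne', Real.log_exp]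
    ring
  · refine ((contDiffOn_const (c := Real.log (T.eps L w))).add ((k1 w).comp_contDiffOn (Real.contDiffOn_log.mono
      fun s hs => ne_of_gt hs))).congr fun s hs => ?_
    rw [if_neg (not_le.2 hs)]; rfl
  · rcases s with a | w
    · simp only [radF, Sk.rw, Sum.elim_inl, mul_one, TD.un, sub_self, abs_zero]; positivity
    · have hp : 0 < ‖x‖ := zero_lt_one.trans hx.1
      simp only [radF, Sk.rw, Sum.elim_inr, TD.un, id, if_neg (not_le.2 hp),
        Real.log_mul (eps_pos _ _).ne' hp.ne', add_sub_add_left_eq_sub]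
      refine k6 w _ (Real.log_nonneg hx.1.le) fun hw => ?_
      rw [Real.log_le_iff_le_exp hp]
      nlinarith [hx.2 hw, Real.exp_pos (L w), h.r_lt]
  · simp [radF, Hd.g2, pd_const]
  all_goals
    have hp : 0 < ‖x‖ := zero_lt_one.trans hx.1
    have e : Hd.g2 (radF T (fun v => Real.log (T.eps L v)) (fun w s => Real.log (T.eps L w) +
        if s ≤ 0 then 0 else m w (Real.log s)) (Sum.inr w)) x =
        Hd.g2 (fun y : E4 => Real.log (T.eps L w) + m w (Real.log ‖y‖)) x := by
      refine Finset.sum_congr rfl fun i _ => ?_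
      rw [pd_congr i]
      filter_upwards [isOpen_ne.mem_nhds (norm_pos_iff.1 hp)] with y hy
      simp only [radF, Sum.elim_inr, if_neg (not_le.2 (norm_pos_iff.2 hy))]
    have e2 := g2_log (m w) (norm_pos_iff.1 hp) (k2 w _) (Real.log (T.eps L w))
  · rw [e, e2]
    exact sq_le_sq' (by linarith [(abs_le.1 (k3 w (Real.log ‖x‖))).1]) (abs_le.1 (k3 w _)).2
  · rw [e] at h0
    have h1 : m' w (Real.log ‖x‖) ≠ 0 := fun e3 => by
      rw [e3] at e2
      exact h0 (by simpa [hp.ne'] using e2)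
    refine ⟨not_lt.1 fun h2 => h1 (k4 w _ (Real.log_le_log hp h2.le)).2, fun hw => ?_⟩
    exact not_lt.1 fun h2 => h1 (k5 w hw _ (lg w hw _ hp h2.le)).2

end Crest.Agent.N207.M

end
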