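import Crest.Agent.N207.M.Df2

/-!
# Row 207, X3 (helper20): the weighted integral of a pointwise bounded source
-/

set_option autoImplicit false

open Metric Set Filter Topology MeasureTheory
open Crest.GeometryTopology.CoordMetric
open Crest.Agent.N207.I Crest.Agent.N207.I.TD Crest.Agent.N207.CB Crest.Agent.N207.N
  Crest.Agent.N207.Ga
open Crest.Agent.R238 (Ell)

noncomputable section

namespace Crest.Agent.N207.M

/-- decay at infinity -/
def rbF (δ : ℝ) (x : E4) : ℝ := (1 + ‖x‖) ^ (-(4 + 2 * δ))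
/-- singularity at the origin -/
def rbG (δ : ℝ) : E4 → ℝ := (ball 0 1).indicator fun y => ‖y‖ ^ (-(4 - 2 * δ))
/-- the dominating function -/
def rbD (δ l : ℝ) (x : E4) : ℝ := 2 * 3 ^ (4 + 2 * δ) * rbF δ x + 2 * l ^ 4 * rbG δ (l • x)

variable {δ l : ℝ}

theorem rbF_int (h : 0 < δ) : Integrable (rbF δ) :=
  integrable_one_add_norm (by simp; linarith)

theorem rbG_int (h : 0 < δ) : Integrable (rbG δ) :=
  (integrable_indicator_iff measurableSet_ball).2 (integrableOn_ball_of_norm_le_rpow (C := 1)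
    (α := 4 - 2 * δ) (by simp) (by simp; linarith) (Eventually.of_forall fun x => by
      rw [one_mul, Real.norm_of_nonneg (Real.rpow_nonneg (norm_nonneg _) _)])
    (Measurable.aestronglyMeasurable (by fun_prop)))

theorem rbF_nonneg (x : E4) : 0 ≤ rbF δ x := Real.rpow_nonneg (by positivity) _
theorem rbG_nonneg (x : E4) : 0 ≤ rbG δ x :=
  indicator_nonneg (fun _ _ => Real.rpow_nonneg (norm_nonneg _) _) _
theorem rbD_nonneg (x : E4) : 0 ≤ rbD δ l x := by
  have := rbF_nonneg (δ := δ) x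
  have := rbG_nonneg (δ := δ) (l • x)
  unfold rbD; positivity

theorem rbD_int (h : 0 < δ) (hl : 0 < l) : Integrable (rbD δ l) :=
  ((rbF_int h).const_mul _).add (((rbG_int h).comp_smul hl.ne').const_mul _)

theorem rbD_integral (h : 0 < δ) (hl : 0 < l) :
    ∫ x, rbD δ l x = 2 * 3 ^ (4 + 2 * δ) * (∫ x, rbF δ x) + 2 * ∫ x, rbG δ x := by
  unfold rbD
  rw [integral_add ((rbF_int h).const_mul _) (((rbG_int h).comp_smul hl.ne').const_mul _),
    integral_const_mul, integral_const_mul, Measure.integral_comp_smul]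
  simp only [finrank_euclideanSpace, Fintype.card_fin, smul_eq_mul]
  rw [abs_of_pos (by positivity)]
  field_simp

theorem rb_far (h : 0 < δ) {a : ℝ} (ha : 0 < a) {x : E4} (hx : 1 + ‖x‖ ≤ 3 * a) :
    a ^ (-(4 + 2 * δ)) ≤ 3 ^ (4 + 2 * δ) * rbF δ x := by
  have h1 : (3 * a) ^ (-(4 + 2 * δ)) ≤ rbF δ x :=
    Real.rpow_le_rpow_of_nonpos (by positivity) hx (by linarith)
  refine le_trans (le_of_eq ?_) (mul_le_mul_of_nonneg_left h1 (by positivity))
  rw [Real.mul_rpow (by norm_num) ha.le, ← mul_assoc, ← Real.rpow_add (by norm_num)]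
  simp

theorem rb_ell {Λ : ℝ} (hΛ : 2 ≤ Λ) {A : Matrix (Fin 4) (Fin 4) ℝ} (h : Ell 2⁻¹ 2 A) :
    Ell Λ⁻¹ Λ A := ⟨h.1, fun z => by
  have h0 : 0 ≤ ∑ i, z i ^ 2 := Finset.sum_nonneg fun _ _ => sq_nonneg _
  exact ⟨(mul_le_mul_of_nonneg_right (inv_anti₀ two_pos hΛ) h0).trans (h.2 z).1,
    (h.2 z).2.trans (mul_le_mul_of_nonneg_right hΛ h0)⟩⟩

variable {M : Type*} {T : TD M} {L : T.V → ℝ}

/-- the weight is dominated in every chart -/
theorem rb_dom (h : T.Ok) (hδ : 0 < δ) (s : T.S) : ∃ l, 0 < l ∧ ∀ x ∈ T.gK L s,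
    0 < scl T s x ∧ kap T δ L s x ^ 2 / scl T s x ^ 4 ≤ rbD δ l x := by
  rcases s with a | w
  · refine ⟨1, one_pos, fun x hx => ⟨one_pos, ?_⟩⟩
    have h1 : ‖x‖ ≤ 3 / 2 := mem_closedBall_zero_iff.1 hx
    have h2 := rb_far hδ one_pos (x := x) (by linarith)
    have h3 := rbG_nonneg (δ := δ) ((1 : ℝ) • x)
    rw [Real.one_rpow] at h2
    change (1 : ℝ) ^ 2 / 1 ^ 4 ≤ _
    unfold rbD; nlinarith
  · refine ⟨Real.exp (-L w), Real.exp_pos _, fun x hx => ?_⟩
    obtain ⟨h1, h2⟩ := mem_gK_inr.1 hx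
    have x0 : 0 < ‖x‖ := by linarith
    refine ⟨x0, ?_⟩
    have h3 := rb_far hδ x0 (x := x) (by linarith)
    have e1 : (‖x‖ ^ (-δ)) ^ 2 / ‖x‖ ^ 4 = ‖x‖ ^ (-(4 + 2 * δ)) := by
      rw [← Real.rpow_natCast, ← Real.rpow_natCast, ← Real.rpow_mul x0.le, ← Real.rpow_sub x0]
      congr 1; push_cast; ring
    have h4 := rbG_nonneg (δ := δ) (Real.exp (-L w) • x)
    change T.wt δ L w x ^ 2 / ‖x‖ ^ 4 ≤ _
    unfold TD.wt rbD
    split_ifs with hw
    · rw [add_zero, e1]
      have : 0 ≤ 3 ^ (4 + 2 * δ) * rbF δ x := mul_nonneg (by positivity) (rbF_nonneg x)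
      have : 0 ≤ 2 * Real.exp (-L w) ^ 4 * rbG δ (Real.exp (-L w) • x) := by positivity
      linarith
    · set l := Real.exp (-L w) with hl
      have l0 : 0 < l := Real.exp_pos _
      have n1 : ‖l • x‖ = l * ‖x‖ := by rw [norm_smul, Real.norm_of_nonneg l0.le]
      have h5 : l * ‖x‖ < 1 := by
        have a1 := mul_le_mul_of_nonneg_left (h2 hw) l0.le
        have a2 : l * Real.exp (L w) = 1 := by rw [hl, ← Real.exp_add]; simp
        have := h.r_lt
        nlinarith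
      have e2 : ((l * ‖x‖) ^ δ) ^ 2 / ‖x‖ ^ 4 = l ^ 4 * rbG δ (l • x) := by
        have p : 0 < l * ‖x‖ := by positivity
        rw [rbG, indicator_of_mem (mem_ball_zero_iff.2 (n1 ▸ h5)), n1,
          show -(4 - 2 * δ) = δ * (2 : ℕ) - (4 : ℕ) by push_cast; ring, Real.rpow_sub p,
          Real.rpow_mul p.le, Real.rpow_natCast, Real.rpow_natCast]
        field_simp
      have h6 : (‖x‖ ^ (-δ) + (l * ‖x‖) ^ δ) ^ 2 / ‖x‖ ^ 4 ≤
          2 * ((‖x‖ ^ (-δ)) ^ 2 / ‖x‖ ^ 4) + 2 * (((l * ‖x‖) ^ δ) ^ 2 / ‖x‖ ^ 4) := by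
        rw [← mul_div_assoc, ← mul_div_assoc, ← add_div]
        exact div_le_div_of_nonneg_right
          (by nlinarith [sq_nonneg (‖x‖ ^ (-δ) - (l * ‖x‖) ^ δ)]) (by positivity)
      rw [e1, e2] at h6
      linarith

/-- **RB** -/
theorem rb (h : T.Ok) (hP : PE) : RB T := by
  intro γ C Λ q δ hΛ hδ
  obtain ⟨C1, c1, hC⟩ := hP Λ (by linarith)
  set I0 := 2 * 3 ^ (4 + 2 * δ) * (∫ x, rbF δ x) + 2 * ∫ x, rbG δ x with hI
  have i0 : 0 ≤ I0 := by
    have := integral_nonneg (μ := volume) (f := rbF δ) fun x => rbF_nonneg x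
    have := integral_nonneg (μ := volume) (f := rbG δ) fun x => rbG_nonneg x
    positivity
  have k0 : 0 ≤ (Fintype.card T.S : ℝ) * (256 * C1 * I0) := by positivity
  refine ⟨Fintype.card T.S * (256 * C1 * I0) + 1, by linarith, fun L H hL hH E B hB hE => ?_⟩
  have hp := h.glob_pou hL
  have key : ∀ s, ∫ x in (T.glob L).U s, (T.glob L).den T.χ (rt T L H) s x *
      (Sk.rw T L s x ^ (2 * q - 2) * nsq (rt T L H s) (E s) x) ≤ 256 * C1 * I0 * B ^ 2 := by
    intro s
    obtain ⟨l, l0, hl⟩ := rb_dom (L := L) h hδ s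
    have hi := (rbD_int hδ l0).const_mul (256 * C1 * B ^ 2)
    have pt : ∀ x ∈ (T.glob L).U s, 0 ≤ (T.glob L).den T.χ (rt T L H) s x *
        (Sk.rw T L s x ^ (2 * q - 2) * nsq (rt T L H s) (E s) x) ∧
        (T.glob L).den T.χ (rt T L H) s x * (Sk.rw T L s x ^ (2 * q - 2) *
          nsq (rt T L H s) (E s) x) ≤ 256 * C1 * B ^ 2 * rbD δ l x := by
      intro x hx
      have d0 := rbD_nonneg (δ := δ) (l := l) x
      by_cases c0 : T.χ s ((T.glob L).c s x) = 0
      · rw [Atl.den, c0, zero_mul, mul_zero, zero_mul]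
        exact ⟨le_rfl, by positivity⟩
      have hk := gK_of_χ h hL hx c0
      obtain ⟨ρ0, hd⟩ := hl x hk
      have he : Ell Λ⁻¹ Λ (H s x) := by
        rcases s with a | w
        · exact hH.ellb a x ((mem_closedBall_zero_iff.1 hk).trans (by norm_num))
        · exact rb_ell hΛ (hH.elln w x hx)
      obtain ⟨p1, p2⟩ := hC (H s) (E s) x he
      have s0 : 0 ≤ ∑ j, E s x ![j] ^ 2 := Finset.sum_nonneg fun _ _ => sq_nonneg _
      have p0 : 0 ≤ √(H s x).det * nsq (H s) (E s) x :=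
        nonneg_of_mul_nonneg_right (s0.trans p1) (by linarith)
      have c1' : T.χ s ((T.glob L).c s x) ≤ 1 := (hp.sum s x hx) ▸
        Finset.single_le_sum (fun a _ => hp.nonneg a _) (Finset.mem_univ s)
      have c2 : (Nat.card ((T.glob L).Γ s) : ℝ)⁻¹ ≤ 1 := Nat.cast_inv_le_one _
      have c3 := hp.nonneg s ((T.glob L).c s x)
      have e0 := eps_pos L (T.un s)
      have er : Sk.rw T L s x = T.eps L (T.un s) * scl T s x := by cases s <;> rfl
      have ed : rad T s x = scl T s x / 8 := by cases s <;> rfl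
      have r0 : 0 < Sk.rw T L s x := er ▸ mul_pos e0 ρ0
      have e1 : Sk.rw T L s x ^ (2 * q - 2) = (Sk.rw T L s x ^ q) ^ 2 / Sk.rw T L s x ^ 2 := by
        rw [show 2 * q - 2 = q * (2 : ℕ) - (2 : ℕ) by push_cast; ring, Real.rpow_sub r0,
          Real.rpow_mul r0.le, Real.rpow_natCast, Real.rpow_natCast]
      set u := Sk.rw T L s x ^ q with hu
      have u0 : 0 ≤ u := Real.rpow_nonneg r0.le _
      have e2 : (T.glob L).den T.χ (rt T L H) s x * (Sk.rw T L s x ^ (2 * q - 2) *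
          nsq (rt T L H s) (E s) x) = (Nat.card ((T.glob L).Γ s) : ℝ)⁻¹ *
            T.χ s ((T.glob L).c s x) *
            (u ^ 2 / scl T s x ^ 2 * (√(H s x).det * nsq (H s) (E s) x)) := by
        rw [Atl.den, e1, rt_eq, nsq_smul_met (eps2_ne L _), sqrt_det_smul, er]
        field_simp
      have b1 : ∀ j, u ^ 2 * E s x ![j] ^ 2 ≤ 64 * (B ^ 2 * kap T δ L s x ^ 2 / scl T s x ^ 2) := by
        intro j
        have a1 := hE s x hk j
        have a2 : clY T E s x 0 ![j] = scl T s x / 8 * E s x ![j] := by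
          simp [clY, Ga.pt, ed]
        rw [a2] at a1
        have a3 := pow_le_pow_left₀ (by positivity) a1 2
        rw [mul_pow, sq_abs, mul_pow, mul_pow] at a3
        rw [← mul_div_assoc, le_div_iff₀ (by positivity)]
        nlinarith
      have b2 : u ^ 2 * ∑ j, E s x ![j] ^ 2 ≤
          256 * (B ^ 2 * kap T δ L s x ^ 2 / scl T s x ^ 2) := by
        rw [Finset.mul_sum]
        refine (Finset.sum_le_sum fun j _ => b1 j).trans (le_of_eq ?_)
        simp; ring
      have b3 : u ^ 2 / scl T s x ^ 2 * (√(H s x).det * nsq (H s) (E s) x) ≤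
          256 * C1 * B ^ 2 * rbD δ l x := by
        calc _ ≤ u ^ 2 / scl T s x ^ 2 * (C1 * ∑ j, E s x ![j] ^ 2) :=
              mul_le_mul_of_nonneg_left p2 (by positivity)
          _ = C1 / scl T s x ^ 2 * (u ^ 2 * ∑ j, E s x ![j] ^ 2) := by ring
          _ ≤ C1 / scl T s x ^ 2 * (256 * (B ^ 2 * kap T δ L s x ^ 2 / scl T s x ^ 2)) :=
              mul_le_mul_of_nonneg_left b2 (by positivity)
          _ = 256 * C1 * B ^ 2 * (kap T δ L s x ^ 2 / scl T s x ^ 4) := by field_simp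
          _ ≤ _ := mul_le_mul_of_nonneg_left hd (by positivity)
      have b0 : 0 ≤ u ^ 2 / scl T s x ^ 2 * (√(H s x).det * nsq (H s) (E s) x) := by positivity
      rw [e2]
      exact ⟨by positivity, (mul_le_of_le_one_left b0 (mul_le_one₀ c2 c3 c1')).trans b3⟩
    have hU := ((h.glob_ok hL).isOpen s).measurableSet
    refine (integral_mono_of_nonneg ((ae_restrict_mem hU).mono fun x hx => (pt x hx).1)
      hi.integrableOn ((ae_restrict_mem hU).mono fun x hx => (pt x hx).2)).trans ?_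
    refine (setIntegral_le_integral hi (Eventually.of_forall fun x =>
      mul_nonneg (by positivity) (rbD_nonneg x))).trans (le_of_eq ?_)
    rw [integral_const_mul, rbD_integral hδ l0, ← hI]; ring
  refine (Finset.sum_le_sum fun s _ => key s).trans ?_
  rw [Finset.sum_const, Finset.card_univ, nsmul_eq_mul, ← mul_assoc, mul_pow]
  exact mul_le_mul_of_nonneg_right (by nlinarith) (sq_nonneg B)

end Crest.Agent.N207.M

end
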