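import Crest.Agent.N207.M.Df2

/-!
# Row 207, X3 (helper50): assembly, part 1 (small tools, the weighted cell bound, the energy step)
-/

set_option autoImplicit false

open scoped ContDiff ENNReal
open Metric Set Filter Topology MeasureTheory
open Crest.GeometryTopology.CoordMetric
open Crest.Agent.NLib.Ell Crest.Agent.N207.I Crest.Agent.N207.I.TD Crest.Agent.N207.CB
  Crest.Agent.N207.N Crest.Agent.N207.Ga

noncomputable section

namespace Crest.Agent.N207.M.As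

theorem _root_.Crest.Agent.N207.M.QC.amono {k : ℕ} {N N' : ℝ} {o : Tn 4 1} (h : QC k N o) (e : N ≤ N') : QC k N' o :=
  fun j => (h j).mono e

theorem _root_.Crest.Agent.N207.M.QC.aof_le {k k' : ℕ} {N : ℝ} {o : Tn 4 1} (h : QC k N o) (e : k' ≤ k) : QC k' N o :=
  fun j => (h j).of_le e

theorem _root_.Crest.Agent.N207.M.LB.amono {S S' : ℝ} {o : Tn 4 1} (h : LB S o) (h0 : 0 ≤ S) (e : S ≤ S') : LB S' o :=
  fun j => ⟨(h j).1, (h j).2.trans (pow_le_pow_left₀ h0 e 2)⟩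

/-- square root of the volume of the doubled cell -/
def vb : ℝ := √((volume : Measure E4).real BB)

theorem vb_nonneg : 0 ≤ vb := Real.sqrt_nonneg _

theorem _root_.Crest.Agent.N207.M.LB.apert {S c : ℝ} {o o' : Tn 4 1} (h : LB S o) (h0 : 0 ≤ S) (hc : 0 ≤ c)
    (ho : ∀ j, ContinuousOn (fun y => o' y ![j]) BB)
    (e : ∀ y ∈ BB, ∀ j, |o' y ![j] - o y ![j]| ≤ c) : LB (2 * S + 2 * c * vb) o' := fun j => by
  have hf : (volume : Measure E4) BB < ⊤ := measure_ball_lt_top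
  have i1 : IntegrableOn (fun y => 2 * o y ![j] ^ 2 + 2 * c ^ 2) BB :=
    ((h j).1.const_mul 2).add (integrableOn_const hf.ne)
  have p : ∀ y ∈ BB, o' y ![j] ^ 2 ≤ 2 * o y ![j] ^ 2 + 2 * c ^ 2 := fun y hy => by
    have := sq_le_sq' (abs_le.1 (e y hy j)).1 (abs_le.1 (e y hy j)).2
    nlinarith [sq_nonneg (o' y ![j] - 2 * o y ![j])]
  have i2 : IntegrableOn (fun y => o' y ![j] ^ 2) BB :=
    i1.mono' (((ho j).pow 2).aestronglyMeasurable measurableSet_ball) (by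
      filter_upwards [ae_restrict_mem measurableSet_ball] with y hy
      rw [Real.norm_of_nonneg (sq_nonneg _)]; exact p y hy)
  refine ⟨i2, (setIntegral_mono_on i2 i1 measurableSet_ball p).trans ?_⟩
  rw [integral_add ((h j).1.const_mul 2) (integrableOn_const hf.ne), integral_const_mul,
    setIntegral_const, smul_eq_mul]
  have e2 : vb ^ 2 = (volume : Measure E4).real BB := Real.sq_sqrt measureReal_nonneg
  rw [← e2]
  nlinarith [(h j).2, mul_nonneg h0 (mul_nonneg hc vb_nonneg), sq_nonneg S, sq_nonneg (c * vb)]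

theorem abs_lin_le (A : E4 →L[ℝ] E4) {x0 y : E4} (h0 : 0 < ‖x0‖) (hy : y ∈ BB) (j : Fin 4) :
    |lin A x0 y ![j]| ≤ 10 * ‖A‖ := by
  have h1 : ‖x0 + (‖x0‖ / 8) • y‖ ≤ 10 * (‖x0‖ / 8) := by
    refine (norm_add_le _ _).trans ?_
    rw [norm_smul, Real.norm_of_nonneg (by positivity)]
    nlinarith [mem_ball_zero_iff.1 hy]
  have h2 : |A (x0 + (‖x0‖ / 8) • y) j| ≤ ‖A‖ * (10 * (‖x0‖ / 8)) :=
    (PiLp.norm_apply_le _ j).trans ((A.le_opNorm _).trans (by gcongr))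
  show |(‖x0‖ / 8)⁻¹ * A (x0 + (‖x0‖ / 8) • y) j| ≤ _
  rw [abs_mul, abs_of_pos (by positivity), inv_mul_le_iff₀ (by positivity)]
  linarith

theorem lin_zero (x0 : E4) : lin 0 x0 = 0 := by funext y I; simp [lin]

theorem lapT_zero' (G : MetricField 4) : lapT G (0 : Tn 4 1) = 0 := by
  funext y I; simp [lapT, cov_zero, trT]

variable {M : Type*} {T : TD M} {L : T.V → ℝ}

theorem pt_zero (s : T.S) (x : E4) : pt T s x 0 = x := by simp [pt]

theorem pt_mem (h : T.Ok) {s : T.S} {x0 y : E4} (hx : x0 ∈ T.gK L s) (hy : y ∈ BB) :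
    pt T s x0 y ∈ (T.glob L).U s := by
  have hy' := mem_ball_zero_iff.1 hy
  rcases s with a | w
  · rw [mem_glob_inl]
    refine (norm_add_le _ _).trans_lt ?_
    have := mem_gK_inl.1 hx
    rw [norm_smul, show rad T (Sum.inl a) x0 = 1 / 8 from rfl, Real.norm_of_nonneg (by norm_num)]
    linarith
  · have e : ‖rad T (Sum.inr w) x0 • y‖ ≤ ‖x0‖ / 4 := by
      rw [norm_smul, show rad T (Sum.inr w) x0 = ‖x0‖ / 8 from rfl,
        Real.norm_of_nonneg (by positivity)]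
      nlinarith [norm_nonneg x0]
    have e1 := norm_add_le x0 (rad T (Sum.inr w) x0 • y)
    have e2 := norm_sub_norm_le x0 (-(rad T (Sum.inr w) x0 • y))
    rw [sub_neg_eq_add, norm_neg] at e2
    refine ⟨by have := hx.1; unfold pt; linarith, fun hw => ?_⟩
    have := hx.2 hw
    have := mul_pos h.r_pos (Real.exp_pos (L w))
    unfold pt; linarith

theorem clX_cont (h : T.Ok) {om : T.S → Tn 4 1} (ho : (T.glob L).Sec om) {s : T.S} {x0 : E4}
    (hx : x0 ∈ T.gK L s) (j : Fin 4) : ContinuousOn (fun y => clX T L om s x0 y ![j]) BB := by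
  have h1 : Continuous (pt T s x0) := by unfold pt; fun_prop
  have h2 := (ho.sm s ![j]).continuousOn.comp h1.continuousOn fun _ hy => pt_mem h hx hy
  exact (continuousOn_const (c := (T.eps L (T.un s) ^ 2 * rad T s x0)⁻¹)).mul h2

theorem t_le {w : T.V} (hw : w ≠ T.root) {x : E4} (hx : x ∈ T.gK L (Sum.inr w)) :
    Real.exp (-L w) * ‖x‖ ≤ 3 / 4 * T.r := by
  rw [Real.exp_neg, inv_mul_le_iff₀ (Real.exp_pos _)]
  linarith [hx.2 hw]

theorem wt_mono (h : T.Ok) {γ γ' : ℝ} (e : γ' ≤ γ) {w : T.V} {x : E4}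
    (hx : x ∈ T.gK L (Sum.inr w)) : T.wt γ L w x ≤ T.wt γ' L w x := by
  have h1 : 1 ≤ ‖x‖ := le_trans (by norm_num) hx.1
  refine add_le_add (Real.rpow_le_rpow_of_exponent_le h1 (by linarith)) ?_
  split_ifs with hw
  · exact le_rfl
  · exact Real.rpow_le_rpow_of_exponent_ge (by positivity)
      ((t_le hw hx).trans (by linarith [h.r_lt])) e

theorem le_wt (γ : ℝ) (w : T.V) (x : E4) : ‖x‖ ^ (-γ) ≤ T.wt γ L w x :=
  le_add_of_nonneg_right (by split_ifs <;> positivity)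

theorem wt_nonneg (γ : ℝ) (w : T.V) (x : E4) : 0 ≤ T.wt γ L w x :=
  (Real.rpow_nonneg (norm_nonneg _) _).trans (le_wt γ w x)

theorem wt_le_two (h : T.Ok) {γ : ℝ} (h0 : 0 ≤ γ) {w : T.V} {x : E4}
    (hx : x ∈ T.gK L (Sum.inr w)) : T.wt γ L w x ≤ 2 := by
  refine (wt_mono h h0 hx).trans ?_
  simp only [wt, neg_zero, Real.rpow_zero]
  split_ifs <;> norm_num

theorem kap_mono (h : T.Ok) {γ γ' : ℝ} (e : γ' ≤ γ) {s : T.S} {x : E4}
    (hx : x ∈ T.gK L s) : kap T γ L s x ≤ kap T γ' L s x := by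
  rcases s with a | w
  · exact le_rfl
  · exact wt_mono h e hx

theorem kap_nonneg (γ : ℝ) (s : T.S) (x : E4) : 0 ≤ kap T γ L s x := by
  rcases s with a | w
  · exact zero_le_one
  · exact wt_nonneg γ w x

theorem L_nonneg (h : T.Ok) (hL : T.Long L) {w : T.V} (hw : w ≠ T.root) : 0 ≤ L w := by
  rw [← Real.one_le_exp_iff]
  nlinarith [hL w hw, h.r_lt, h.r_pos, Real.exp_pos (L w)]

theorem dsc_self (v : T.V) : Dsc T v v := ⟨le_rfl, by simp⟩

theorem _root_.Crest.Agent.N207.M.Dsc.apar (h : T.Ok) {v u : T.V} (hd : Dsc T v u) (hu : u ≠ v) :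
    u ≠ T.root ∧ Dsc T v (T.par u) := by
  have h1 : T.dep v < T.dep u := lt_of_le_of_ne hd.1 fun e => hu (by simpa [e] using hd.2)
  have h2 : u ≠ T.root := fun e => by rw [e, h.dep_root] at h1; omega
  have h3 := h.dep_par u h2
  refine ⟨h2, by omega, ?_⟩
  have := hd.2
  rwa [show T.dep u - T.dep v = T.dep (T.par u) - T.dep v + 1 by omega,
    Function.iterate_succ_apply] at this

theorem dsc_kid (h : T.Ok) {w : T.V} (hw : w ≠ T.root) : Dsc T (T.par w) w := by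
  have := h.dep_par w hw
  exact ⟨by omega, by rw [show T.dep w - T.dep (T.par w) = 1 by omega]; rfl⟩

theorem eps_le (h : T.Ok) (hL : T.Long L) {v u : T.V} (hd : Dsc T v u) :
    T.eps L u ≤ T.eps L v := by
  induction u using h.ind with
  | h0 =>
    by_cases e : T.root = v
    · rw [e]
    · exact absurd rfl (hd.apar h e).1
  | h1 w hw ih =>
    by_cases e : w = v
    · rw [e]
    · rw [h.eps_kid L hw]
      refine le_trans (mul_le_of_le_one_right (eps_pos _ _).le ?_) (ih (hd.apar h e).2)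
      exact Real.exp_le_one_iff.2 (by linarith [L_nonneg h hL hw])

theorem rw_kid (h : T.Ok) {w : T.V} (hw : w ≠ T.root) (x : E4) :
    Sk.rw T L (Sum.inr w) x = T.eps L (T.par w) * (Real.exp (-L w) * ‖x‖) := by
  rw [← mul_assoc, ← h.eps_kid L hw]; rfl

theorem rw_pos {s : T.S} {x : E4} (hx : x ∈ T.gK L s) : 0 < Sk.rw T L s x := by
  rcases s with a | w
  · exact mul_pos (eps_pos _ _) one_pos
  · exact mul_pos (eps_pos _ _) (lt_of_lt_of_le (by norm_num) hx.1)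

theorem rw_le (h : T.Ok) (hL : T.Long L) {v : T.V} {s : T.S} (hs : s ≠ Sum.inr v)
    (hd : Dsc T v (T.un s)) {x : E4} (hx : x ∈ T.gK L s) : Sk.rw T L s x ≤ T.eps L v := by
  rcases s with a | w
  · exact (mul_one _).trans_le (eps_le h hL hd)
  · obtain ⟨h1, h2⟩ := hd.apar h fun e => hs (congrArg _ e)
    rw [rw_kid (w := w) h h1]
    exact (mul_le_of_le_one_right (eps_pos _ _).le
      ((t_le (w := w) h1 hx).trans (by linarith [h.r_lt]))).trans (eps_le h hL h2)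

theorem lg_mono {l0 l1 : ℝ} (h : Lg T l1 L) (e : l0 ≤ l1) : Lg T l0 L :=
  ⟨h.1, fun w hw => e.trans (h.2 w hw)⟩

/-- the weighted cell bound -/
theorem wc (we : WE T) (cx : CX T) (rb : RB T) {γ Λ q δ : ℝ} (C : ℕ → ℝ) (hγ : 0 < γ)
    (hΛ : 2 ≤ Λ) (hq : 0 < q) (hq' : q < 4) (hδ : 0 < δ) : ∃ Cc l0 : ℝ, 0 < Cc ∧
      ∀ L H, Lg T l0 L → Cls T γ C Λ L H → ∀ V, SecC T L V → ∀ B : ℝ, 0 ≤ B →
        (∀ s, ∀ x ∈ T.gK L s, ∀ j, Sk.rw T L s x ^ q *
          |clY T (fun s => lapT (rt T L H s) (V s)) s x 0 ![j]| ≤ B * kap T δ L s x) →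
        ∀ s, ∀ x0 ∈ T.gK L s, LB (Cc * B * Sk.rw T L s x0 ^ (-q)) (clX T L V s x0) := by
  obtain ⟨Cw, l1, hw, we⟩ := we γ C Λ (q - 2) hγ hΛ (abs_lt.2 ⟨by linarith, by linarith⟩)
  obtain ⟨Cx, l2, hx, cx⟩ := cx γ C Λ q hΛ
  obtain ⟨Cr, hr, rb⟩ := rb γ C Λ q δ hΛ hδ
  refine ⟨Cx * (√Cw * Cr), max l1 l2, by positivity, fun L H hL hH V hV B hB e s x0 hx0 => ?_⟩
  have h1 := we L H (lg_mono hL (le_max_left _ _)) hH V hV
  rw [show 2 * (q - 2) - 2 = 2 * q - 6 by ring, show 2 * (q - 2) + 2 = 2 * q - 2 by ring] at h1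
  have h2 := rb L H hL.1 hH _ B hB e
  have := cx L H (lg_mono hL (le_max_right _ _)) hH V hV (√Cw * Cr * B) (by positivity)
    (h1.trans ((mul_le_mul_of_nonneg_left h2 hw.le).trans_eq (by
      rw [mul_assoc, mul_pow √Cw, Real.sq_sqrt hw.le]))) s x0 hx0
  rwa [← mul_assoc Cx] at this

end Crest.Agent.N207.M.As

end
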