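import Crest.Agent.N207.M.As1

/-!
# Row 207, X3 (helper50): assembly, part 2 (the energy step and the neck step)
-/

set_option autoImplicit false

open scoped ContDiff ENNReal
open Metric Set Filter Topology MeasureTheory
open Crest.GeometryTopology.CoordMetric
open Crest.Agent.NLib.Ell Crest.Agent.N207.I Crest.Agent.N207.I.TD Crest.Agent.N207.CB
  Crest.Agent.N207.N Crest.Agent.N207.Ga

noncomputable section

namespace Crest.Agent.N207.M.As

theorem rp_pos {a t c p : ℝ} (ha : 0 ≤ a) (ht : 0 ≤ t) (e : a ≤ c * t) (hc : 1 ≤ c) (h0 : 0 ≤ p)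
    (h1 : p ≤ 1) : a ^ p ≤ c * t ^ p := by
  refine (Real.rpow_le_rpow ha e h0).trans ?_
  rw [Real.mul_rpow (by linarith) ht]
  exact mul_le_mul_of_nonneg_right ((Real.rpow_le_rpow_of_exponent_le hc h1).trans_eq
    (Real.rpow_one c)) (by positivity)

theorem rp_neg {a x c p : ℝ} (hx : 0 < x) (e : x ≤ c * a) (hc : 1 ≤ c) (h0 : 0 ≤ p) (h1 : p ≤ 1) :
    a ^ (-p) ≤ c * x ^ (-p) := by
  have ha : 0 < a := (pos_iff_pos_of_mul_pos (hx.trans_le e)).1 (by linarith)
  rw [Real.rpow_neg ha.le, Real.rpow_neg hx.le, ← Real.inv_rpow ha.le, ← Real.inv_rpow hx.le]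
  refine rp_pos (by positivity) (by positivity) ?_ hc h0 h1
  rwa [le_mul_inv_iff₀ hx, inv_mul_le_iff₀ ha, mul_comm]

variable {M : Type*} (T : TD M)

/-- the induction hypothesis at the vertex `v` -/
def PV (γ' : ℝ) (L : T.V → ℝ) (om : T.S → Tn 4 1) (N' : ℝ) (v : T.V) : Prop :=
  ∃ (A : E4 →L[ℝ] E4) (R : ℝ), (∀ g ∈ T.Γ v, ∀ x, A (g x) = g (A x)) ∧ ‖A‖ ≤ N' ∧ 16 ≤ R ∧
    (v ≠ T.root → 2 * R ≤ T.r / 4 * Real.exp (L v) ∧ R ^ 2 ≤ Real.exp (L v)) ∧
    (∀ x0 ∈ T.gK L (Sum.inr v), 4 / 5 * R ≤ ‖x0‖ → QC 4 N' (clX T L om (Sum.inr v) x0)) ∧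
    ∀ x : E4, R ≤ ‖x‖ → ‖x‖ ≤ 2 * R →
      QC 2 (N' * R ^ (-(γ' / 2))) (clX T L om (Sum.inr v) x - lin A x)

variable {T} {L : T.V → ℝ} {γ γ' Λ : ℝ}

theorem _root_.Crest.Agent.N207.M.Sol.asrc (h : T.Ok) {H : Fam T} {F om : T.S → Tn 4 1} {N : ℝ} (hS : Sol T γ' L H F om N)
    {s : T.S} {x : E4} (hx : x ∈ T.gK L s) (j : Fin 4) :
    |clY T (fun s => lapT (rt T L H s) (om s)) s x 0 ![j]| ≤ N * kap T γ' L s x := by
  have := (hS.yn s x hx j).bdd (mem_ball_self one_pos)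
  simp only [clY, hS.eq s _ (pt_mem h hx (mem_ball_self two_pos))]
  exact this

theorem stepA (h : T.Ok) (we : WE T) (cx : CX T) (rb : RB T) (ce : CE T) (ct : CT T) (C : ℕ → ℝ)
    (h0 : 0 < γ') (h1 : 2 * γ' ≤ γ) (h2 : γ ≤ 1) (hΛ : 2 ≤ Λ) : ∃ Ca l0 : ℝ, 1 ≤ Ca ∧
      ∀ L H F om N, Lg T l0 L → Cls T γ C Λ L H → Sol T γ' L H F om N → ∀ v N', N ≤ N' →
        PV T γ' L om N' v →
        (∀ s, T.un s = v → ∀ x0 ∈ T.gK L s, QC 4 (Ca * N') (clX T L om s x0)) ∧
        ∀ w, w ≠ T.root → T.par w = v → ∀ x0 ∈ T.gK L (Sum.inr w),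
          QC 4 (Ca * N' * (Real.exp (-L w) * ‖x0‖) ^ (-(γ' / 4))) (clX T L om (Sum.inr w) x0) := by
  obtain ⟨Cc, l1, c1, wc⟩ := wc we cx rb (q := γ' / 4) (δ := γ' / 4) C (show 0 < γ by linarith) hΛ
    (by linarith) (by linarith) (by linarith)
  obtain ⟨Ce, l2, c2, ce⟩ := ce γ γ' C Λ h0 (by linarith) h2 hΛ
  obtain ⟨Ct, c3, ct⟩ := ct γ C Λ (by linarith) h2 hΛ
  have hv := vb_nonneg
  set K := Cc * (2 * (1 + Ct)) with hK
  have K0 : 0 < K := by positivity
  refine ⟨1 + Ce * (2 + 2 * K + 2 * Ct * vb), max l1 l2, le_add_of_nonneg_right (by positivity),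
    fun L H F om N hL hH hS v N' hN ⟨A, R, a1, a2, a3, a4, a5, a6⟩ => ?_⟩
  have N0 := hS.nn
  have N1 : 0 ≤ N' := N0.trans hN
  obtain ⟨V, v1, v2, v3, v4⟩ := ct L H om hL.1 hH hS.sec v A R _ a1 a3 (fun e => (a4 e).1) a6
  have he := eps_pos L v
  have key := wc L H (lg_mono hL (le_max_left _ _)) hH V v1
    (2 * (1 + Ct) * N' * T.eps L v ^ (γ' / 4)) (by positivity) fun s x hx j => ?_
  rotate_left
  · have k0 := kap_nonneg (L := L) (γ' / 4) s x
    by_cases hs : s = Sum.inr v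
    · subst hs
      have x1 : 1 ≤ ‖x‖ := le_trans (by norm_num) hx.1
      have x0 : 0 < ‖x‖ := by linarith
      have e1 : Sk.rw T L (Sum.inr v) x ^ (γ' / 4) = T.eps L v ^ (γ' / 4) * ‖x‖ ^ (γ' / 4) :=
        Real.mul_rpow he.le x0.le
      have e2 : ∀ c : ℝ, c ≤ 2 * (1 + Ct) * N' * ‖x‖ ^ (-(γ' / 2)) →
          Sk.rw T L (Sum.inr v) x ^ (γ' / 4) * c ≤
            2 * (1 + Ct) * N' * T.eps L v ^ (γ' / 4) * kap T (γ' / 4) L (Sum.inr v) x := fun c hc => by
        have e3 : ‖x‖ ^ (γ' / 4) * ‖x‖ ^ (-(γ' / 2)) = ‖x‖ ^ (-(γ' / 4)) := by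
          rw [← Real.rpow_add x0]; congr 1; ring
        calc _ ≤ T.eps L v ^ (γ' / 4) * ‖x‖ ^ (γ' / 4) * (2 * (1 + Ct) * N' * ‖x‖ ^ (-(γ' / 2))) := by
              rw [e1]; gcongr
          _ = 2 * (1 + Ct) * N' * T.eps L v ^ (γ' / 4) * ‖x‖ ^ (-(γ' / 4)) := by rw [← e3]; ring
          _ ≤ _ := by gcongr; exact le_wt _ v x
      refine e2 _ ?_
      have p0 : 0 ≤ ‖x‖ ^ (-(γ' / 2)) := by positivity
      rcases lt_or_ge ‖x‖ R with b1 | b1
      · have w1 : T.wt γ' L v x ≤ 2 * ‖x‖ ^ (-(γ' / 2)) := by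
          have w2 : ‖x‖ ^ (-γ') ≤ ‖x‖ ^ (-(γ' / 2)) :=
            Real.rpow_le_rpow_of_exponent_le x1 (by linarith)
          unfold wt
          split_ifs with hv
          · linarith
          · have w3 : Real.exp (-L v) * ‖x‖ ≤ ‖x‖⁻¹ := by
              rw [Real.exp_neg, inv_mul_le_iff₀ (Real.exp_pos _), le_mul_inv_iff₀ x0]
              nlinarith [(a4 hv).2]
            have := Real.rpow_le_rpow (by positivity) w3 h0.le
            rw [Real.inv_rpow x0.le, ← Real.rpow_neg x0.le] at this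
            linarith
        have w4 := wt_mono h (show γ' ≤ γ by linarith) hx
        have w5 := wt_nonneg (L := L) γ v x
        have s1 : _ ≤ N * T.wt γ' L v x := hS.asrc h hx j
        have s2 := (abs_sub_abs_le_abs_sub _ _).trans ((v4 x hx j).1 b1)
        have s3 : ‖A‖ * T.wt γ L v x ≤ N' * (2 * ‖x‖ ^ (-(γ' / 2))) := by gcongr; linarith
        have s4 : N * T.wt γ' L v x ≤ N' * (2 * ‖x‖ ^ (-(γ' / 2))) := by gcongr; linarith
        nlinarith [mul_le_mul_of_nonneg_left s3 c3.le]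
      · rcases le_or_gt ‖x‖ (2 * R) with b2 | b2
        · refine ((v4 x hx j).2.1 b1 b2).trans ?_
          have w1 : R ^ (-(γ' / 2)) ≤ 2 * ‖x‖ ^ (-(γ' / 2)) :=
            rp_neg x0 b2 one_le_two (by linarith) (by linarith)
          nlinarith [mul_le_mul_of_nonneg_left w1 (mul_nonneg c3.le N1), mul_nonneg N1 p0]
        · rw [(v4 x hx j).2.2 b2, abs_zero]; positivity
    · by_cases hd : Dsc T v (T.un s)
      · have s1 := hS.asrc h hx j
        simp only [clY, (v2 s hs).1 hd] at s1 ⊢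
        have s2 : Sk.rw T L s x ^ (γ' / 4) ≤ T.eps L v ^ (γ' / 4) :=
          Real.rpow_le_rpow (rw_pos hx).le (rw_le h hL.1 hs hd hx) (by linarith)
        have s3 := kap_mono h (show γ' / 4 ≤ γ' by linarith) hx
        calc _ ≤ T.eps L v ^ (γ' / 4) * (N' * kap T (γ' / 4) L s x) :=
              mul_le_mul s2 (s1.trans (by gcongr; exact kap_nonneg _ _ _)) (abs_nonneg _)
                (by positivity)
          _ = 1 * N' * T.eps L v ^ (γ' / 4) * kap T (γ' / 4) L s x := by ring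
          _ ≤ _ := by gcongr; linarith
      · simp only [clY, (v2 s hs).2 hd, lapT_zero', Pi.zero_apply, smul_zero, abs_zero, mul_zero]
        positivity
  obtain ⟨ce1, -⟩ := ce L H F om N (lg_mono hL (le_max_right _ _)) hH hS
  have key2 : ∀ s, ∀ x0 ∈ T.gK L s, ∀ t : ℝ, 0 < t → Sk.rw T L s x0 = T.eps L v * t →
      LB (K * N' * t ^ (-(γ' / 4))) (clX T L V s x0) := fun s x0 hx t ht e => by
    have := key s x0 hx
    rw [e, Real.mul_rpow he.le ht.le, Real.rpow_neg he.le] at this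
    convert this using 1
    have : T.eps L v ^ (γ' / 4) ≠ 0 := by positivity
    rw [hK]; field_simp
  have same : ∀ s, s ≠ Sum.inr v → Dsc T v (T.un s) → ∀ x0, clX T L V s x0 = clX T L om s x0 :=
    fun s hs hd x0 => by unfold clX; rw [(v2 s hs).1 hd]
  refine ⟨fun s hs x0 hx => ?_, fun w hw hp x0 hx => ?_⟩
  · rcases s with a | w
    · have k := key2 _ x0 hx 1 one_pos (by rw [← hs]; rfl)
      rw [same _ (by simp) (hs ▸ dsc_self _), Real.one_rpow, mul_one] at k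
      refine (ce1 _ x0 hx _ (by positivity) k).amono ?_
      show Ce * (N * 1 + K * N') ≤ _
      nlinarith [mul_nonneg c2.le N1, mul_nonneg c2.le (mul_nonneg K0.le N1),
        mul_nonneg c2.le (mul_nonneg (mul_nonneg c3.le hv) N1), mul_le_mul_of_nonneg_left hN c2.le]
    · obtain rfl : w = v := hs
      rcases le_total ‖x0‖ (4 / 5 * R) with b | b
      · have x1 : 1 ≤ ‖x0‖ := le_trans (by norm_num) hx.1
        have k := (key2 _ x0 hx ‖x0‖ (by linarith) rfl).amono (by positivity)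
          (mul_le_of_le_one_right (by positivity)
            (Real.rpow_le_one_of_one_le_of_nonpos x1 (by linarith)))
        have k2 := k.apert (o' := clX T L om (Sum.inr w) x0) (c := Ct * N') (by positivity)
          (by positivity) (clX_cont h hS.sec hx) fun y hy j => by
            rw [abs_sub_comm]; exact (v3 x0 hx.1 b y hy j).trans (by gcongr)
        refine (ce1 _ x0 hx _ (by positivity) k2).amono ?_
        have k3 : N * kap T γ' L (Sum.inr w) x0 ≤ N' * 2 :=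
          mul_le_mul hN (wt_le_two h h0.le hx) (kap_nonneg _ _ _) N1
        nlinarith [mul_le_mul_of_nonneg_left k3 c2.le]
      · exact (a5 x0 hx b).amono (le_mul_of_one_le_left N1 (le_add_of_nonneg_right (by positivity)))
  · subst hp
    have t0 : 0 < Real.exp (-L w) * ‖x0‖ := mul_pos (Real.exp_pos _) (by linarith [hx.1])
    have k := key2 _ x0 hx _ t0 (rw_kid h hw x0)
    have hne : w ≠ T.par w := fun e => by have := h.dep_par w hw; rw [← e] at this; omega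
    rw [same _ (fun e => hne (Sum.inr.inj e)) (dsc_kid h hw)] at k
    refine (ce1 _ x0 hx _ (by positivity) k).amono ?_
    have t1 : 1 ≤ (Real.exp (-L w) * ‖x0‖) ^ (-(γ' / 4)) :=
      Real.one_le_rpow_of_pos_of_le_one_of_nonpos t0 ((t_le hw hx).trans (by linarith [h.r_lt]))
        (by linarith)
    set t := (Real.exp (-L w) * ‖x0‖) ^ (-(γ' / 4))
    have k3 : N * kap T γ' L (Sum.inr w) x0 ≤ N' * t * 2 :=
      mul_le_mul (hN.trans (le_mul_of_one_le_right N1 t1)) (wt_le_two h h0.le hx)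
        (kap_nonneg _ _ _) (by positivity)
    have k4 : 0 ≤ N' * t := by positivity
    nlinarith [mul_le_mul_of_nonneg_left k3 c2.le, mul_nonneg c2.le (mul_nonneg K0.le k4),
      mul_nonneg c2.le (mul_nonneg (mul_nonneg c3.le hv) k4)]

theorem lb_of_lin (h : T.Ok) {om : T.S → Tn 4 1} (ho : (T.glob L).Sec om) {w : T.V} {x0 : E4}
    (hx : x0 ∈ T.gK L (Sum.inr w)) {A : E4 →L[ℝ] E4} {S : ℝ} (hS : 0 ≤ S)
    (k : LB S (clX T L om (Sum.inr w) x0 - lin A x0)) :
    LB (2 * S + 2 * (10 * ‖A‖) * vb) (clX T L om (Sum.inr w) x0) :=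
  k.apert hS (by positivity) (clX_cont h ho hx) fun y hy j => by
    rw [Pi.sub_apply, Pi.sub_apply, sub_sub_cancel]
    exact abs_lin_le A (by linarith [hx.1]) hy j

set_option maxHeartbeats 1600000 in
theorem stepB (h : T.Ok) (ce : CE T) (nc : NC T) (C : ℕ → ℝ) (h0 : 0 < γ') (h1 : 2 * γ' ≤ γ)
    (h2 : γ ≤ 1) (hΛ : 2 ≤ Λ) : ∃ Cb l0 : ℝ, 1 ≤ Cb ∧
      ∀ L H F om N, Lg T l0 L → Cls T γ C Λ L H → Sol T γ' L H F om N → ∀ w N', w ≠ T.root →
        N ≤ N' → (∀ x0 ∈ T.gK L (Sum.inr w), QC 4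
          (N' * (Real.exp (-L w) * ‖x0‖) ^ (-(γ' / 4))) (clX T L om (Sum.inr w) x0)) →
        PV T γ' L om (Cb * N') w := by
  obtain ⟨Ce, l2, c2, ce⟩ := ce γ γ' C Λ h0 (by linarith) h2 hΛ
  obtain ⟨Cn, c3, nc⟩ := nc γ γ' C Λ h0 (by linarith) (by linarith) h2 hΛ
  have hv := vb_nonneg
  have hr := h.r_pos
  set c := 4 / T.r with hc
  have c4 : 4 ≤ c := by rw [hc, le_div_iff₀ hr]; linarith [h.r_lt]
  have cr : c * T.r = 4 := div_mul_cancel₀ _ hr.ne'
  set K := Cn * (c * (2 * c) + 4 * c) with hK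
  have K0 : 0 < K := by positivity
  refine ⟨c + K + Ce * (3 + 4 * K + 20 * K * vb), max l2 (2 * Real.log (4 * c)),
    by have : 0 ≤ Ce * (3 + 4 * K + 20 * K * vb) := by positivity
       linarith, fun L H F om N hL hH hS w N' hw hN hq => ?_⟩
  have N0 := hS.nn
  have N1 : 0 ≤ N' := N0.trans hN
  obtain ⟨ce1, ce2⟩ := ce L H F om N (lg_mono hL (le_max_left _ _)) hH hS
  set R := Real.exp (L w / 2) with hR
  have R0 : 0 < R := Real.exp_pos _
  have R1 : 4 * c ≤ R := by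
    rw [← Real.exp_log (show 0 < 4 * c by positivity)]
    exact Real.exp_le_exp.2 (by linarith [le_max_right l2 (2 * Real.log (4 * c)), hL.2 w hw])
  have R2 : Real.exp (L w) = R ^ 2 := by rw [sq, ← Real.exp_add]; congr 1; ring
  have R3 : Real.exp (-L w) = (R ^ 2)⁻¹ := by rw [Real.exp_neg, R2]
  have R4 : 16 ≤ T.r * R := by nlinarith
  set b := 3 / 4 * T.r * R ^ 2 with hb
  have b1 : 12 * R ≤ b := by nlinarith
  have b0 : 0 < b := by linarith
  set E := R ^ (γ' / 2) with hE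
  have E1 : 1 ≤ E := Real.one_le_rpow (by linarith) (by linarith)
  have mem : ∀ x : E4, 3 / 2 ≤ ‖x‖ → ‖x‖ ≤ b → x ∈ T.gK L (Sum.inr w) := fun x a1 a2 =>
    ⟨a1, fun _ => by rwa [R2]⟩
  have mE : ∀ x : E4, 1 ≤ ‖x‖ → (Real.exp (-L w) * ‖x‖) ^ (-(γ' / 4)) ≤ E := fun x a1 => by
    refine (Real.rpow_le_rpow_of_nonpos (Real.exp_pos _)
      (le_mul_of_one_le_right (Real.exp_pos _).le a1) (by linarith)).trans_eq ?_
    rw [hE, hR, ← Real.exp_mul, ← Real.exp_mul]; congr 1; ring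
  have mc : ∀ x : E4, 4 / 5 * b ≤ ‖x‖ → (Real.exp (-L w) * ‖x‖) ^ (-(γ' / 4)) ≤ c := fun x a1 => by
    have := rp_neg (a := Real.exp (-L w) * ‖x‖) one_pos (c := c) (by
      rw [R3, ← mul_assoc, ← div_eq_mul_inv, div_mul_eq_mul_div, one_le_div (by positivity)]
      nlinarith [sq_nonneg R]) (by linarith) (show 0 ≤ γ' / 4 by linarith) (by linarith)
    simpa using this
  have key := nc L H F om N hL.1 hH hS w b (c * N') (2 * N' * E)
    (fun x => N' * (Real.exp (-L w) * ‖x‖) ^ (-(γ' / 4))) (by linarith) (fun _ => by rw [R2])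
    (by positivity) (by positivity) fun x hx => ⟨hq x (mem x hx.1 hx.2), ?_, fun _ => ?_, fun e => ?_⟩
  rotate_left
  · have x1 : 1 ≤ ‖x‖ := le_trans (by norm_num) hx.1
    have x0 : 0 < ‖x‖ := by linarith
    have m1 := mE x x1
    set t := Real.exp (-L w) * ‖x‖ with ht
    have t0 : 0 < t := by positivity
    have t1 : t ≤ 1 := (t_le hw (mem x hx.1 hx.2)).trans (by linarith [h.r_lt])
    have p1 : t ^ γ' ≤ (‖x‖ / b) ^ γ' := Real.rpow_le_rpow t0.le (by
      rw [ht, R3, ← div_eq_inv_mul]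
      exact div_le_div_of_nonneg_left x0.le b0 (by nlinarith [h.r_lt, sq_nonneg R])) h0.le
    have p2 : ‖x‖ ^ (-γ') ≤ (3 / 2 / ‖x‖) ^ γ' := by
      rw [Real.rpow_neg x0.le, ← Real.inv_rpow x0.le]
      exact Real.rpow_le_rpow (by positivity) (by rw [inv_eq_one_div]; gcongr; norm_num) h0.le
    have p3 : ‖x‖ ^ (-γ) ≤ ‖x‖ ^ (-γ') := Real.rpow_le_rpow_of_exponent_le x1 (by linarith)
    have p4 : t ^ γ * t ^ (-(γ' / 4)) ≤ t ^ γ' := by
      rw [← Real.rpow_add t0]; exact Real.rpow_le_rpow_of_exponent_ge t0 t1 (by linarith)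
    have p5 : ‖x‖ ^ (-γ) * t ^ (-(γ' / 4)) ≤ ‖x‖ ^ (-γ') * E :=
      mul_le_mul p3 m1 (by positivity) (by positivity)
    have p6 : 0 ≤ ‖x‖ ^ (-γ') := by positivity
    have p7 : 0 ≤ t ^ γ' := by positivity
    simp only [wt, if_neg hw, prof, ← ht]
    calc _ ≤ N' * (‖x‖ ^ (-γ') * E + t ^ γ') + N' * (‖x‖ ^ (-γ') * E + t ^ γ') :=
          add_le_add (mul_le_mul hN (by nlinarith) (by positivity) N1) (by nlinarith)
      _ = 2 * N' * t ^ γ' + 2 * N' * E * ‖x‖ ^ (-γ') := by ring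
      _ ≤ _ := by gcongr; linarith
  · have := mE x (le_trans (by norm_num) hx.1)
    nlinarith [mul_le_mul_of_nonneg_left this N1, mul_nonneg N1 (zero_le_one.trans E1)]
  · rw [mul_comm c]; exact mul_le_mul_of_nonneg_left (mc x (by linarith)) N1
  obtain ⟨A, a1, a2, a3⟩ := key
  have q0 : E * R ^ (-γ') = R ^ (-(γ' / 2)) := by rw [hE, ← Real.rpow_add R0]; congr 1; ring
  have q1 : R ^ (-γ') ≤ R ^ (-(γ' / 2)) := Real.rpow_le_rpow_of_exponent_le (by linarith) (by linarith)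
  have q2 : R ^ (-(γ' / 2)) ≤ 1 := Real.rpow_le_one_of_one_le_of_nonpos (by linarith) (by linarith)
  have q3 : 0 ≤ R ^ (-γ') := by positivity
  have pQ : ∀ s : ℝ, R / 2 ≤ s → E * (3 / 2 / s) ^ γ' ≤ 3 * R ^ (-(γ' / 2)) := fun s hs => by
    have s0 : 0 < s := by linarith
    have := rp_pos (a := 3 / 2 / s) (t := R⁻¹) (c := 3) (by positivity) (by positivity) (by
      rw [← div_eq_mul_inv, div_le_div_iff₀ s0 R0]; linarith) (by norm_num) h0.le (by linarith)
    rw [Real.inv_rpow R0.le, ← Real.rpow_neg R0.le] at this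
    rw [← q0]; nlinarith
  have pb : ∀ s : ℝ, R / 2 ≤ s → s ≤ b → Cn * prof (3 / 2) b γ' (c * N') (2 * N' * E) s ≤ K * N' :=
    fun s s1 s2 => by
      have u1 : (s / b) ^ γ' ≤ 1 := Real.rpow_le_one (div_nonneg (by linarith) b0.le) ((div_le_one b0).2 s2) h0.le
      rw [hK, mul_assoc Cn, prof]
      refine mul_le_mul_of_nonneg_left ?_ c3.le
      nlinarith [mul_le_mul_of_nonneg_left u1 (mul_nonneg (by linarith : 0 ≤ c) N1),
        mul_le_mul_of_nonneg_left ((pQ s s1).trans (by linarith : _ ≤ (3 : ℝ))) N1,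
        mul_nonneg (mul_nonneg (by linarith : 0 ≤ c) (by linarith : 0 ≤ c)) N1,
        mul_le_mul_of_nonneg_right c4 N1]
  have A1 : ‖A‖ ≤ K * N' := a2.trans (pb b (by linarith) le_rfl)
  have z1 : 0 ≤ Ce * N' := by positivity
  have z2 : 0 ≤ Ce * (K * N') := by positivity
  have z3 : 0 ≤ Ce * (K * N' * vb) := by positivity
  have z4 : 0 ≤ c * N' := by positivity
  have z5 : 0 ≤ K * N' := by positivity
  have pn := fun s (hs : 0 ≤ s) => mul_nonneg c3.le
    (prof_nonneg (a := 3 / 2) (b := b) (g := γ') (P := c * N') (Q := 2 * N' * E) (r := s)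
      (by norm_num) b0.le z4 (by positivity) hs)
  refine ⟨A, R, a1, by nlinarith, by linarith, fun _ => ⟨by rw [R2]; nlinarith, R2.ge⟩,
    fun x hx b2 => ?_, fun x b2 b3 => ?_⟩
  · rcases le_total ‖x‖ (4 / 5 * b) with b3 | b3
    · have k := lb_of_lin h hS.sec hx z5 ((a3 x (by linarith) b3).amono (pn _ (norm_nonneg _))
        (pb _ (by linarith) (by linarith)))
      refine (ce1 _ x hx _ (by positivity) k).amono ?_
      have k3 : N * kap T γ' L (Sum.inr w) x ≤ N' * 2 :=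
        mul_le_mul hN (wt_le_two h h0.le hx) (kap_nonneg _ _ _) N1
      nlinarith [mul_le_mul_of_nonneg_left k3 c2.le,
        mul_le_mul_of_nonneg_left A1 (mul_nonneg c2.le hv)]
    · refine (hq x hx).amono ?_
      nlinarith [mul_le_mul_of_nonneg_left (mc x b3) N1]
  · have hx := mem x (by linarith) (by linarith)
    have x0 : 0 < ‖x‖ := by linarith
    have u1 : (‖x‖ / b) ^ γ' ≤ c * R ^ (-γ') := by
      have := rp_pos (a := ‖x‖ / b) (t := R⁻¹) (c := c) (by positivity) (by positivity) (by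
        rw [← div_eq_mul_inv, div_le_div_iff₀ b0 R0]; nlinarith) (by linarith) h0.le (by linarith)
      rwa [Real.inv_rpow R0.le, ← Real.rpow_neg R0.le] at this
    have u2 : Cn * prof (3 / 2) b γ' (c * N') (2 * N' * E) ‖x‖ ≤ K * N' * R ^ (-(γ' / 2)) := by
      rw [hK, mul_assoc Cn, mul_assoc Cn, prof]
      refine mul_le_mul_of_nonneg_left ?_ c3.le
      have u3 := u1.trans (mul_le_mul_of_nonneg_left q1 (by linarith))
      have u4 : 0 ≤ N' * R ^ (-(γ' / 2)) := by positivity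
      nlinarith [mul_le_mul_of_nonneg_left u3 z4,
        mul_le_mul_of_nonneg_left (pQ ‖x‖ (by linarith)) N1,
        mul_nonneg (mul_nonneg (by linarith : 0 ≤ c) (by linarith : 0 ≤ c)) u4,
        mul_le_mul_of_nonneg_right c4 u4]
    have u5 : T.wt γ' L w x ≤ 3 * R ^ (-(γ' / 2)) := by
      have u6 : ‖x‖ ^ (-γ') ≤ R ^ (-γ') := Real.rpow_le_rpow_of_nonpos R0 b2 (by linarith)
      have := rp_pos (a := Real.exp (-L w) * ‖x‖) (t := R⁻¹) (c := 2) (by positivity)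
        (by positivity) (by
          rw [R3, inv_mul_le_iff₀ (by positivity)]; field_simp; linarith) one_le_two h0.le
        (by linarith)
      rw [Real.inv_rpow R0.le, ← Real.rpow_neg R0.le] at this
      simp only [wt, if_neg hw]
      linarith
    refine ((ce2 w x hx A _ (by positivity) ((a3 x (by linarith) (by linarith)).amono
      (pn _ x0.le) u2)).aof_le (by norm_num)).amono ?_
    have u7 : (N + ‖A‖) * T.wt γ' L w x ≤ (N' + K * N') * (3 * R ^ (-(γ' / 2))) :=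
      mul_le_mul (add_le_add hN A1) u5 (wt_nonneg _ _ _) (by positivity)
    have u8 : 0 ≤ R ^ (-(γ' / 2)) := by positivity
    nlinarith [mul_le_mul_of_nonneg_left u7 c2.le, mul_nonneg z3 u8, mul_nonneg z4 u8,
      mul_nonneg z5 u8, mul_nonneg z2 u8]

end Crest.Agent.N207.M.As

end
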