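import Crest.Agent.N207.M.Df2

/-!
# Row 207, X3 (helper16): the interior estimate in the cells (`CE`)
-/

set_option autoImplicit false

open scoped ContDiff ENNReal
open Metric Set Filter Topology MeasureTheory
open Crest.GeometryTopology.CoordMetric
open Crest.Agent.NLib.Ell Crest.Agent.N207.I Crest.Agent.N207.CB Crest.Agent.N207.N
  Crest.Agent.N207.Ga
open Crest.Agent.R238 (Ell)

noncomputable section

namespace Crest.Agent.N207.M

namespace Ce

theorem lapT_sub {k : ℕ} {G : MetricField 4} {U : Set E4} {S S' : Tn 4 k} {y : E4}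
    (hG : IsRiemannianOn G U) (hS : SmT S U) (hT : SmT S' U) (hy : y ∈ U) :
    lapT G (S - S') y = lapT G S y - lapT G S' y := by
  have h1 : cov G (S - S') =ᶠ[𝓝 y] cov G S - cov G S' := by
    filter_upwards [hG.isOpen.mem_nhds hy] with z hz using
      cov_sub (hS.dAt hG.isOpen hz) (hT.dAt hG.isOpen hz)
  have h2 : cov G (cov G (S - S')) y = cov G (cov G S) y - cov G (cov G S') y :=
    (cov_congr EventuallyEq.rfl h1).self_of_nhds.trans
      (cov_sub ((hS.cov hG).dAt hG.isOpen hy) ((hT.cov hG).dAt hG.isOpen hy))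
  funext I
  simp only [lapT, trT, h2, Pi.sub_apply, mul_sub, Finset.sum_sub_distrib]

theorem cka_idB (k : ℕ) : CKA (1 / 2) BB k 4 fun y : E4 => y := by
  have h0 := ho_of_lip (a := 1 / 2) (M := 2) (s := BB) (f := fun y : E4 => y) (by norm_num)
    (by norm_num) (fun x hx => (mem_ball_zero_iff.1 hx).le)
      fun x _ y _ => by nlinarith [norm_nonneg (x - y)]
  cases k with
  | zero => exact h0.mono (by norm_num)
  | succ k =>
    refine ⟨h0.mono (by norm_num), differentiableOn_id, fun i => ?_⟩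
    have : CKA (1 / 2) BB k ‖(ei i : E4)‖ fun _ => (ei i : E4) := CKA.const _
    simpa using this.mono (N := 4) (by rw [norm_ei]; norm_num)

/-- the `j`-th component of `A` -/
abbrev cmp (A : E4 →L[ℝ] E4) (j : Fin 4) : E4 →L[ℝ] ℝ := (EuclideanSpace.proj j : E4 →L[ℝ] ℝ) ∘L A

theorem abs_cmp (A : E4 →L[ℝ] E4) (j : Fin 4) (y : E4) : |A y j| ≤ ‖A‖ * ‖y‖ :=
  (PiLp.norm_apply_le (A y) j).trans (A.le_opNorm y)

theorem lin_eq (A : E4 →L[ℝ] E4) {x0 : E4} (hx : x0 ≠ 0) (I : Fin 1 → Fin 4) :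
    (fun y => lin A x0 y I) = fun y => (‖x0‖ / 8)⁻¹ * A x0 (I 0) + cmp A (I 0) y := by
  have : ‖x0‖ ≠ 0 := norm_ne_zero_iff.2 hx
  funext y
  simp only [lin, map_add, map_smul, PiLp.add_apply, PiLp.smul_apply, smul_eq_mul, cmp,
    ContinuousLinearMap.comp_apply, PiLp.proj_apply]
  field_simp

theorem sm_lin (A : E4 →L[ℝ] E4) {x0 : E4} (hx : x0 ≠ 0) (U : Set E4) : SmT (lin A x0) U :=
  fun I => by
    rw [lin_eq A hx]
    exact (contDiff_const.add (cmp A (I 0)).contDiff).contDiffOn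

theorem cka_lin (A : E4 →L[ℝ] E4) {x0 : E4} (hx : x0 ≠ 0) (k : ℕ) (j : Fin 4) :
    CKA (1 / 2) BB k (12 * ‖A‖) fun y => lin A x0 y ![j] := by
  have hp : 0 < ‖x0‖ := norm_pos_iff.2 hx
  rw [lin_eq A hx]
  refine ((CKA.const _).add isOpen_ball ((cka_idB k).clm isOpen_ball (cmp A _) (L := ‖A‖)
    (ContinuousLinearMap.opNorm_le_bound _ (norm_nonneg _) fun y => abs_cmp A _ y))).mono ?_
  have h1 := abs_cmp A j x0
  have h2 : (‖x0‖ / 8)⁻¹ * |A x0 j| ≤ 8 * ‖A‖ := by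
    rw [inv_mul_le_iff₀ (by positivity)]; linarith
  rw [norm_mul, Real.norm_of_nonneg (by positivity), Real.norm_eq_abs]
  simp only [Matrix.cons_val_zero]
  linarith

theorem pd_affine (c : ℝ) (l : E4 →L[ℝ] ℝ) (i : Fin 4) :
    pderiv i (fun y => c + l y) = fun _ => l (ei i) := by
  funext y
  rw [pderiv, (l.hasFDerivAt.const_add c).fderiv]

theorem lap0_lin (A : E4 →L[ℝ] E4) {x0 : E4} (hx : x0 ≠ 0) (j : Fin 4) (y : E4) :
    lap0 (fun z => lin A x0 z ![j]) y = 0 := by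
  simp only [lin_eq A hx, lap0, pd_affine, pd_const, Finset.sum_const_zero]

variable {M : Type*} {T : TD M} {L : T.V → ℝ}

theorem sm_clX {om : T.S → Tn 4 1} (ho : (T.glob L).Sec om) {s : T.S} {x0 : E4} {U : Set E4}
    (hU : ∀ y ∈ U, pt T s x0 y ∈ (T.glob L).U s) : SmT (clX T L om s x0) U := fun I =>
  contDiffOn_const.mul ((ho.sm s I).comp
    (contDiff_const.add (contDiff_id.const_smul (rad T s x0))).contDiffOn hU)

theorem wt_nn (γ : ℝ) (w : T.V) (x : E4) : 0 ≤ T.wt γ L w x := by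
  unfold TD.wt; split_ifs <;> positivity

theorem kap_nn (γ : ℝ) (s : T.S) (x : E4) : 0 ≤ kap T γ L s x := by
  rcases s with a | w
  · exact zero_le_one
  · exact wt_nn γ w x

theorem wt_anti (h : T.Ok) {γ γ' : ℝ} (h0 : 0 ≤ γ') (h1 : γ' ≤ γ) {w : T.V} {x : E4}
    (hx : x ∈ (T.glob L).U (Sum.inr w)) : T.wt γ L w x ≤ T.wt γ' L w x := by
  refine add_le_add (Real.rpow_le_rpow_of_exponent_le hx.1.le (neg_le_neg h1)) ?_
  split_ifs with hw
  · exact le_rfl
  · refine Real.rpow_le_rpow_of_exponent_ge' (by positivity) ?_ h0 h1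
    rw [Real.exp_neg, inv_mul_le_iff₀ (Real.exp_pos _)]
    nlinarith [hx.2 hw, h.r_lt, Real.exp_pos (L w)]

theorem wt_le2 (h : T.Ok) {γ : ℝ} (h0 : 0 ≤ γ) {w : T.V} {x : E4}
    (hx : x ∈ (T.glob L).U (Sum.inr w)) : T.wt γ L w x ≤ 2 := by
  refine (wt_anti h le_rfl h0 hx).trans ?_
  unfold TD.wt
  split_ifs <;> norm_num

end Ce

open Ce

variable {M : Type*} {T : TD M}

theorem ce (h : T.Ok) (hM1 : M1) (hM2 : M2W) (hT : TRF T) (hC : CEL T) : CE T := by
  intro γ γ' C Λ h0 h1 h2 h3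
  obtain ⟨K, hK, HC⟩ := hC γ C Λ (h0.trans_le h1) h2 h3
  have hK0 : 0 < K := by linarith
  obtain ⟨C1, c1, H1⟩ := hM1 2 K (by linarith)
  obtain ⟨C2, c2, H2⟩ := hM2 2 (K * 2)
  obtain ⟨C3, l0, c3, H3⟩ := hT γ' h0 (h1.trans h2)
  refine ⟨C1 * (C3 + 12 * C2 * K + 1), l0, by positivity, fun L H F om N hL hH hS => ?_⟩
  have hN := hS.nn
  have key : ∀ s, ∀ x0 ∈ T.gK L s, ∀ j, CKA (1 / 2) BB 2 (C3 * N * kap T γ' L s x0) fun y =>
      lapT (clM T H s x0) (clX T L om s x0) y ![j] := fun s x0 hx j => by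
    obtain ⟨a1, -, -, -, -, a6⟩ := HC L H hL.1 hH s x0 hx
    refine (H3 L hL F N hN hS.secF hS.yn s x0 hx j).congr isOpen_ball fun y hy => ?_
    rw [a6 om y hy]
    simp only [clY, hS.eq s _ (a1 y hy)]
  refine ⟨fun s x0 hx S hS0 hLB j => ?_, fun w x0 hx A S hS0 hLB j => ?_⟩
  · obtain ⟨a1, a2, a3, a4, -, -⟩ := HC L H hL.1 hH s x0 hx
    have k0 := kap_nn (L := L) γ' s x0
    refine (H1 _ _ _ S (by positivity) hS0 a2 (sm_clX hS.sec a1) a3 a4 (key s x0 hx) hLB j).mono ?_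
    rw [mul_assoc C1]
    refine mul_le_mul_of_nonneg_left ?_ c1.le
    have : 0 ≤ N * kap T γ' L s x0 := by positivity
    have : 0 ≤ 12 * C2 * K := by positivity
    nlinarith
  · obtain ⟨a1, a2, a3, a4, a5, -⟩ := HC L H hL.1 hH _ x0 hx
    obtain ⟨b1, b2⟩ := a5 w rfl
    have hU : x0 ∈ (T.glob L).U (Sum.inr w) := by simpa [pt] using a1 0 (mem_ball_self two_pos)
    have hx0 : x0 ≠ 0 := norm_pos_iff.1 (zero_lt_one.trans hU.1)
    have w0 := wt_nn (L := L) γ w x0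
    have w1 := wt_anti h h0.le h1 hU
    have w2 := wt_le2 h (h0.le.trans h1) hU
    have hA := norm_nonneg A
    have k2 := H2 BB _ _ _ _ (mul_le_mul_of_nonneg_left w2 hK0.le) a2 (sm_lin A hx0 _) b2 b1
      (cka_lin A hx0 _)
    have k3 : ∀ j, CKA (1 / 2) BB 2 (C3 * N * T.wt γ' L w x0 + C2 * (K * T.wt γ L w x0 * (12 * ‖A‖)))
        fun y => lapT (clM T H (Sum.inr w) x0) (clX T L om (Sum.inr w) x0 - lin A x0) y ![j] :=
      fun j => ((key _ x0 hx j).sub isOpen_ball (k2 j)).congr isOpen_ball fun y hy => by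
        rw [lapT_sub a2 (sm_clX hS.sec a1) (sm_lin A hx0 _) hy, lap0_lin A hx0, sub_zero]; rfl
    have w3 := w0.trans w1
    refine (H1 _ _ _ S (by positivity) hS0 a2 ((sm_clX hS.sec a1).sub (sm_lin A hx0 _)) a3 a4 k3
      hLB j).mono ?_
    rw [mul_assoc C1]
    refine mul_le_mul_of_nonneg_left ?_ c1.le
    have e1 : C2 * (K * T.wt γ L w x0 * (12 * ‖A‖)) ≤ 12 * C2 * K * (‖A‖ * T.wt γ' L w x0) := by
      have : 12 * C2 * K * ‖A‖ * T.wt γ L w x0 ≤ 12 * C2 * K * ‖A‖ * T.wt γ' L w x0 :=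
        mul_le_mul_of_nonneg_left w1 (by positivity)
      linarith
    have e2 : 0 ≤ N * T.wt γ' L w x0 := by positivity
    have e3 : 0 ≤ ‖A‖ * T.wt γ' L w x0 := by positivity
    have e4 : 0 ≤ 12 * C2 * K := by positivity
    nlinarith

end Crest.Agent.N207.M

end
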