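import Crest.Agent.N207.M.As2
import Crest.Agent.N207.M.Ce

/-!
# Row 207, X3 (helper50): assembly, part 3 (the root end, the second derivatives, `X3`)
-/

set_option autoImplicit false

open scoped ContDiff ENNReal
open Metric Set Filter Topology MeasureTheory
open Crest.GeometryTopology.CoordMetric
open Crest.Agent.NLib.Ell Crest.Agent.N207.I Crest.Agent.N207.I.TD Crest.Agent.N207.CB
  Crest.Agent.N207.N Crest.Agent.N207.Ga

noncomputable section

namespace Crest.Agent.N207.M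

namespace As

variable {M : Type*} {T : TD M} {L : T.V → ℝ} {γ γ' Λ : ℝ} {C : ℕ → ℝ} {H : Fam T}
  {F om : T.S → Tn 4 1} {N : ℝ}

/-- decay of the cell norms at the root end -/
def Far (T : TD M) (L : T.V → ℝ) (om : T.S → Tn 4 1) : Prop :=
  ∃ E1 R1 : ℝ, 0 ≤ E1 ∧ 0 ≤ R1 ∧
    ∀ x0 : E4, R1 ≤ ‖x0‖ → QC 4 (E1 / ‖x0‖ ^ 2) (clX T L om (Sum.inr T.root) x0)

theorem far (m1 : M1) (cel : CEL T) (fl : FL T) (hγ : 0 < γ) (h2 : γ ≤ 1) (hΛ : 2 ≤ Λ)
    (hL : T.Long L) (hH : Cls T γ C Λ L H) (hS : Sol T γ' L H F om N) {R' : ℝ}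
    (h0 : ∀ x : E4, R' ≤ ‖x‖ → F (Sum.inr T.root) x = 0) (hE : N207.N.En T L (rt T L H) om < ⊤) :
    Far T L om := by
  obtain ⟨K, k1, cel⟩ := cel γ C Λ hγ h2 hΛ
  obtain ⟨Cm, c1, m1⟩ := m1 2 K (by linarith)
  obtain ⟨E0, e0, fl⟩ := fl γ C Λ L H om hL hH hS.sec hE
  refine ⟨Cm * E0, max 8 (2 * |R'|), by positivity, by positivity, fun x0 hx j => ?_⟩
  have x1 : 8 ≤ ‖x0‖ := (le_max_left _ _).trans hx
  have x2 : 2 * |R'| ≤ ‖x0‖ := (le_max_right _ _).trans hx
  obtain ⟨a1, a2, a3, a4, -, a6⟩ := cel L H hL hH (Sum.inr T.root) x0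
    ⟨by linarith, fun e => absurd rfl e⟩
  have := m1 _ _ 0 _ le_rfl (by positivity) a2 (Ce.sm_clX hS.sec a1) a3 a4
    (fun j => CKA.zero.congr isOpen_ball fun y hy => ?_) (fl x0 x1) j
  · rwa [zero_add, ← mul_div_assoc] at this
  · have e : ‖rad T (Sum.inr T.root) x0 • y‖ ≤ ‖x0‖ / 4 := by
      rw [norm_smul, show rad T (Sum.inr T.root) x0 = ‖x0‖ / 8 from rfl,
        Real.norm_of_nonneg (by positivity)]
      nlinarith [mem_ball_zero_iff.1 hy]
    have e2 := norm_sub_norm_le x0 (-(rad T (Sum.inr T.root) x0 • y))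
    rw [sub_neg_eq_add, norm_neg] at e2
    rw [a6 om y hy]
    simp only [clY]
    rw [hS.eq _ _ (a1 y hy), h0 _ (by unfold pt; linarith [le_abs_self R', abs_nonneg R'])]
    simp

theorem Far.tendsto (h : T.Ok) (hf : Far T L om) :
    Tendsto (om (Sum.inr T.root)) (cocompact E4) (𝓝 0) := by
  obtain ⟨E1, R1, e1, -, hf⟩ := hf
  have t1 : Tendsto (fun x : E4 => ‖x‖) (cocompact E4) atTop := tendsto_norm_cocompact_atTop
  refine squeeze_zero_norm' ?_ (t1.const_div_atTop E1)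
  filter_upwards [t1.eventually_ge_atTop R1, t1.eventually_gt_atTop 0] with x h1 h2
  refine (pi_norm_le_iff_of_nonneg (by positivity)).2 fun I => ?_
  have := (hf x h1 (I 0)).bdd (mem_ball_self one_pos)
  have e : (![I 0] : Fin 1 → Fin 4) = I := by funext i; fin_cases i; rfl
  simp only [clX, pt_zero, e, TD.un, Sum.elim_inr, id, h.eps_root, one_pow, one_mul, rad,
    Pi.smul_apply, smul_eq_mul, norm_mul, norm_inv] at this
  rw [Real.norm_of_nonneg (by positivity), inv_mul_le_iff₀ (by positivity)] at this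
  refine this.trans ?_
  rw [show ‖x‖ / 8 * (E1 / ‖x‖ ^ 2) = E1 / ‖x‖ / 8 by field_simp]
  exact div_le_self (by positivity) (by norm_num)

theorem Far.pv (hf : Far T L om) (h0 : 0 ≤ γ') (h1 : γ' ≤ 1) (hN : 0 < N) :
    PV T γ' L om N T.root := by
  obtain ⟨E1, R1, e1, r1, hf⟩ := hf
  have e2 : 0 ≤ E1 / N := by positivity
  set R := 16 + 2 * R1 + 2 * (E1 / N) with hR
  have R0 : 0 < R := by linarith
  have key : ∀ x : E4, 4 / 5 * R ≤ ‖x‖ →
      QC 4 (N * R ^ (-(γ' / 2))) (clX T L om (Sum.inr T.root) x) := fun x hx => by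
    refine (hf x (by linarith)).amono ?_
    have p1 : R⁻¹ ≤ R ^ (-(γ' / 2)) := by
      rw [← Real.rpow_neg_one]; exact Real.rpow_le_rpow_of_exponent_le (by linarith) (by linarith)
    refine le_trans ?_ (mul_le_mul_of_nonneg_left p1 hN.le)
    have x0 : 0 < ‖x‖ := by linarith
    rw [← div_eq_mul_inv, div_le_div_iff₀ (by positivity) R0]
    have p2 : 2 * E1 ≤ N * R := by
      have : N * (E1 / N) = E1 := by field_simp
      rw [hR]; nlinarith
    have p3 : R ^ 2 ≤ 2 * ‖x‖ ^ 2 := by nlinarith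
    nlinarith [mul_le_mul_of_nonneg_left p3 hN.le, mul_le_mul_of_nonneg_right p2 R0.le]
  refine ⟨0, R, fun g _ x => by simp, by simpa using hN.le, by linarith, fun e => absurd rfl e,
    fun x _ hx => (key x hx).amono (mul_le_of_le_one_right hN.le
      (Real.rpow_le_one_of_one_le_of_nonpos (by linarith) (by linarith))), fun x hx _ => ?_⟩
  rw [lin_zero, sub_zero]
  exact (key x (by linarith)).aof_le (by norm_num)

theorem x1_of {κ N1 N2 : ℝ} {o : Tn 4 1} {A : E4 →L[ℝ] E4} {x0 : E4} (hx : x0 ≠ 0)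
    (h1 : QC 4 N1 o) (h2 : QC 4 N2 (o - lin A x0)) {K : ℝ} (e1 : N1 ≤ K) (e2 : N2 ≤ K * κ) :
    X1 κ K o := fun j => by
  refine ⟨((h1 j).of_le (by norm_num)).mono e1, fun p q => ?_⟩
  refine ((((h2 j).pd q).pd p).mono e2).congr isOpen_ball fun y hy => ?_
  obtain ⟨c, hc⟩ : ∃ c : ℝ, ∀ z, pderiv q (fun y => lin A x0 y ![j]) z = c :=
    ⟨_, fun z => by rw [Ce.lin_eq A hx, Ce.pd_affine]⟩
  have e : pderiv q (fun y => o y ![j]) =ᶠ[𝓝 y]
      fun z => pderiv q (fun y => (o - lin A x0) y ![j]) z + c := by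
    filter_upwards [isOpen_ball.mem_nhds hy] with z hz
    have d1 := (h1 j).diffAt isOpen_ball hz
    have d2 : DifferentiableAt ℝ (fun y => lin A x0 y ![j]) z :=
      ((Ce.sm_lin A hx univ ![j]).contDiffAt univ_mem).differentiableAt (by simp)
    rw [← hc z]
    simp only [pderiv, Pi.sub_apply, fderiv_fun_sub d1 d2, sub_apply,
      sub_add_cancel]
  rw [pd_congr p e]
  simp only [pderiv, fderiv_add_const]

set_option maxHeartbeats 1600000 in
theorem stepC (h : T.Ok) (ce : CE T) (nc : NC T) (C : ℕ → ℝ) (h0 : 0 < γ') (h1 : 2 * γ' ≤ γ)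
    (h2 : γ ≤ 1) (hΛ : 2 ≤ Λ) : ∃ Cf l0 : ℝ, 1 ≤ Cf ∧
      ∀ L H F om N, Lg T l0 L → Cls T γ C Λ L H → Sol T γ' L H F om N → Far T L om →
        ∀ N', 0 < N' → N ≤ N' → (∀ s, ∀ x0 ∈ T.gK L s, QC 4 N' (clX T L om s x0)) →
        XN T γ' L (Cf * N') om := by
  obtain ⟨Ce, l2, c2, ce⟩ := ce γ γ' C Λ h0 (by linarith) h2 hΛ
  obtain ⟨Cn, c3, nc⟩ := nc γ γ' C Λ h0 (by linarith) (by linarith) h2 hΛ
  have hr := h.r_pos
  set c := 8 / T.r with hc
  have c4 : 8 ≤ c := by rw [hc, le_div_iff₀ hr]; linarith [h.r_lt]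
  have cr : c * T.r = 8 := div_mul_cancel₀ _ hr.ne'
  have z0 : 0 ≤ Ce * (1 + 4 * (Cn * c)) := by positivity
  refine ⟨c + Ce * (1 + 4 * (Cn * c)), l2, by linarith,
    fun L H F om N hL hH hS hf N' N1 hN hq s x0 hx => ?_⟩
  have N0 := hS.nn
  have z1 : N' ≤ (c + Ce * (1 + 4 * (Cn * c))) * N' := le_mul_of_one_le_left N1.le (by linarith)
  have triv : 1 ≤ c * kap T γ' L s x0 →
      X1 (kap T γ' L s x0) ((c + Ce * (1 + 4 * (Cn * c))) * N') (clX T L om s x0) := fun e j =>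
    ⟨((hq s x0 hx j).of_le (by norm_num)).mono z1, fun p q =>
      (((hq s x0 hx j).pd q).pd p).mono (by
        nlinarith [mul_le_mul_of_nonneg_left e N1.le,
          mul_nonneg (mul_nonneg z0 N1.le) (kap_nonneg (L := L) γ' s x0)])⟩
  rcases s with a | w
  · exact triv (by show 1 ≤ c * 1; linarith)
  have x1 : 1 ≤ ‖x0‖ := le_trans (by norm_num) hx.1
  have x2 : 0 < ‖x0‖ := by linarith
  have w0 := wt_nonneg (L := L) γ' w x0
  have w1 := le_wt (L := L) γ' w x0
  have w2 : 0 < ‖x0‖ ^ (-γ') := by positivity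
  rcases le_total ‖x0‖ 8 with b1 | b1
  · have := rp_neg (a := 1) x2 (c := c) (by linarith) (by linarith) h0.le (by linarith)
    rw [Real.one_rpow] at this
    exact triv (this.trans (mul_le_mul_of_nonneg_left w1 (by linarith)))
  have src : ∀ x ∈ T.gK L (Sum.inr w), ∀ m : ℝ, m ≤ N' →
      N * T.wt γ' L w x + T.wt γ L w x * m ≤ 2 * N' * T.wt γ' L w x := fun x hx m hm => by
    have u1 := wt_mono h (show γ' ≤ γ by linarith) hx
    have u2 := wt_nonneg (L := L) γ w x
    nlinarith [mul_le_mul_of_nonneg_left hm u2, mul_le_mul_of_nonneg_left u1 N1.le,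
      mul_le_mul_of_nonneg_right hN (u2.trans u1)]
  have p2 : ∀ s : ℝ, 0 < s → s ^ (-γ') ≤ (3 / 2 / s) ^ γ' ∧ (3 / 2 / s) ^ γ' ≤ 2 * s ^ (-γ') :=
    fun s hs => by
      rw [Real.rpow_neg hs.le, ← Real.inv_rpow hs.le]
      exact ⟨Real.rpow_le_rpow (by positivity) (by rw [inv_eq_one_div]; gcongr; norm_num) h0.le,
        rp_pos (by positivity) (by positivity) (by rw [← div_eq_mul_inv]; gcongr; norm_num)
          one_le_two h0.le (by linarith)⟩
  have fin : ∀ {b P : ℝ} {A : E4 →L[ℝ] E4}, 3 ≤ b → 0 ≤ P → P ≤ 2 * N' →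
      P * (‖x0‖ / b) ^ γ' + 4 * N' * ‖x0‖ ^ (-γ') ≤ 2 * c * N' * T.wt γ' L w x0 →
      ‖A‖ ≤ Cn * prof (3 / 2) b γ' P (2 * N') b →
      LB (Cn * prof (3 / 2) b γ' P (2 * N') ‖x0‖) (clX T L om (Sum.inr w) x0 - lin A x0) →
      X1 (T.wt γ' L w x0) ((c + Ce * (1 + 4 * (Cn * c))) * N') (clX T L om (Sum.inr w) x0) := by
    intro b P A a1 a2 a3 a4 a5 a6
    have u1 : ‖A‖ ≤ Cn * (c * N') := by
      refine a5.trans (mul_le_mul_of_nonneg_left ?_ c3.le)
      have : (3 / 2 / b) ^ γ' ≤ 1 :=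
        Real.rpow_le_one (by positivity) ((div_le_one (by linarith)).2 (by linarith)) h0.le
      rw [prof, div_self (by linarith), Real.one_rpow]
      nlinarith
    have u2 : Cn * prof (3 / 2) b γ' P (2 * N') ‖x0‖ ≤ Cn * (2 * c * N' * T.wt γ' L w x0) := by
      refine mul_le_mul_of_nonneg_left (le_trans ?_ a4) c3.le
      rw [prof]; nlinarith [(p2 _ x2).2]
    refine x1_of (norm_pos_iff.1 x2) (hq _ x0 hx) ((ce L H F om N hL hH hS).2 w x0 hx A _
      (by positivity) (a6.amono (mul_nonneg c3.le (prof_nonneg (by norm_num) (by linarith) a2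
        (by positivity) x2.le)) u2)) z1 ?_
    have u3 : (N + ‖A‖) * T.wt γ' L w x0 ≤ (N' + Cn * (c * N')) * T.wt γ' L w x0 := by gcongr
    have u4 : 0 ≤ c * N' * T.wt γ' L w x0 := by positivity
    nlinarith [mul_le_mul_of_nonneg_left u3 c2.le, mul_nonneg (mul_nonneg c2.le c3.le) u4]
  by_cases hw : w = T.root
  · subst hw
    obtain ⟨E1, R1, e1, r1, hf⟩ := hf
    set P := N' * ‖x0‖ ^ (-γ') with hP
    have P0 : 0 < P := by positivity
    have P1 : P ≤ N' := mul_le_of_le_one_right N1.le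
      (Real.rpow_le_one_of_one_le_of_nonpos x1 (by linarith))
    have e2 : 0 ≤ E1 / P := by positivity
    set b := 2 * ‖x0‖ + R1 + E1 / P with hb
    obtain ⟨A, -, a2, a3⟩ := nc L H F om N hL.1 hH hS T.root b P (2 * N')
      (fun x => if ‖x‖ = b then P else N') (by linarith) (fun e => absurd rfl e) P0.le
      (by positivity) fun x hx => by
        have hx' : x ∈ T.gK L (Sum.inr T.root) := ⟨hx.1, fun e => absurd rfl e⟩
        have hm : (if ‖x‖ = b then P else N') ≤ N' := by split_ifs <;> linarith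
        refine ⟨?_, (src x hx' _ hm).trans ?_, fun _ => by linarith, fun e => by rw [if_pos e]⟩
        · split_ifs with e
          · refine (hf x (by linarith)).amono ?_
            rw [e, div_le_iff₀ (by positivity)]
            have : P * (E1 / P) = E1 := by field_simp
            nlinarith [mul_le_mul_of_nonneg_left (show E1 / P ≤ b ^ 2 by nlinarith) P0.le]
          · exact hq _ x hx'
        · have := (p2 ‖x‖ (by linarith [hx.1])).1
          have : 0 ≤ P * (‖x‖ / b) ^ γ' := by positivity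
          simp only [wt, if_true, add_zero, prof]
          nlinarith
    refine fin (by linarith) P0.le (by linarith) ?_ a2 (a3 x0 b1 (by linarith))
    have : (‖x0‖ / b) ^ γ' ≤ 1 :=
      Real.rpow_le_one (by positivity) ((div_le_one (by linarith)).2 (by linarith)) h0.le
    have u1 := mul_le_mul_of_nonneg_left w1 N1.le
    nlinarith [mul_le_mul_of_nonneg_right c4 (mul_nonneg N1.le w0)]
  · set b := 3 / 4 * T.r * Real.exp (L w) with hb
    have b2 : 12 ≤ b := by linarith [hL.1 w hw]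
    have b0 : 0 < b := by linarith
    have he := Real.exp_pos (L w)
    have p1 : ∀ s : ℝ, 0 < s → (Real.exp (-L w) * s) ^ γ' ≤ (s / b) ^ γ' ∧
        (s / b) ^ γ' ≤ c * (Real.exp (-L w) * s) ^ γ' := fun s hs => by
      rw [Real.exp_neg, ← div_eq_inv_mul]
      exact ⟨Real.rpow_le_rpow (by positivity) (div_le_div_of_nonneg_left hs.le b0
        (by nlinarith [h.r_lt])) h0.le, rp_pos (by positivity) (by positivity) (by
          rw [← mul_div_assoc, div_le_div_iff₀ b0 he, show c * s * b =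
            3 / 4 * (c * T.r) * (s * Real.exp (L w)) by rw [hb]; ring, cr]
          linarith [mul_pos hs he])
          (by linarith) h0.le (by linarith)⟩
    rcases le_total ‖x0‖ (4 / 5 * b) with b3 | b3
    · obtain ⟨A, -, a2, a3⟩ := nc L H F om N hL.1 hH hS w b (2 * N') (2 * N') (fun _ => N')
        (by linarith) (fun _ => le_rfl) (by positivity) (by positivity) fun x hx => by
          have hx' : x ∈ T.gK L (Sum.inr w) := ⟨hx.1, fun _ => hx.2⟩
          refine ⟨hq _ x hx', (src x hx' _ le_rfl).trans ?_, fun _ => by linarith,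
            fun _ => by linarith⟩
          have x3 : 0 < ‖x‖ := by linarith [hx.1]
          simp only [wt, if_neg hw, prof]
          nlinarith [(p2 _ x3).1, (p1 _ x3).1]
      refine fin (by linarith) (by positivity) le_rfl ?_ a2 (a3 x0 b1 b3)
      simp only [wt, if_neg hw]
      nlinarith [mul_le_mul_of_nonneg_left (p1 _ x2).2 N1.le,
        mul_le_mul_of_nonneg_right c4 (mul_pos N1 w2).le, mul_pos N1 w2]
    · have := rp_pos (a := 1) (t := Real.exp (-L w) * ‖x0‖) (c := c) zero_le_one (by positivity) (by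
        rw [Real.exp_neg, ← div_eq_inv_mul, ← mul_div_assoc, one_le_div he]
        nlinarith) (by linarith) h0.le (by linarith)
      rw [Real.one_rpow] at this
      refine triv (this.trans (mul_le_mul_of_nonneg_left ?_ (by linarith)))
      show _ ≤ T.wt γ' L w x0
      simp only [wt, if_neg hw]
      linarith

theorem x3_zero (h : T.Ok) (hL : T.Long L) (hF : (T.glob L).Sec F) (hY : YN T γ' L 0 F)
    (s : T.S) (x : E4) (hx : x ∈ (T.glob L).U s) : F s x = 0 := by
  obtain ⟨s', x', h1, e⟩ := exists_gK h hL hx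
  refine hF.compat.eq_zero (h.glob_ok hL) hx ((h.glob_pou hL).sub s' h1) e.symm ?_
  funext I
  have := (hY s' x' h1 (I 0)).bdd (mem_ball_self one_pos)
  have e : (![I 0] : Fin 1 → Fin 4) = I := by funext i; fin_cases i; rfl
  have r : rad T s' x' ≠ 0 := by
    rcases s' with a | w
    · show (1 / 8 : ℝ) ≠ 0; norm_num
    · have : 3 / 2 ≤ ‖x'‖ := h1.1
      show ‖x'‖ / 8 ≠ 0; positivity
  simp only [clY, pt_zero, e, zero_mul, Pi.smul_apply, smul_eq_mul, norm_le_zero_iff] at this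
  exact (mul_eq_zero.1 this).resolve_left r

end As

variable {M : Type*} {T : TD M}

open As in
theorem x3_of (h : T.Ok) {g : T.V → Fam T} {γ γ' : ℝ} (m1 : M1) (cel : CEL T) (gbc : GBC T g γ)
    (lex : LEX T) (we : WE T) (cx : CX T) (fl : FL T) (rb : RB T) (ce : CE T) (nc : NC T)
    (ct : CT T) (h0 : 0 < γ') (h1 : 2 * γ' ≤ γ) (h2 : γ ≤ 1) : X3 T g γ' := by
  obtain ⟨C, Λ, T1, hΛ, gbc⟩ := gbc
  obtain ⟨Ca, la, ca, sA⟩ := stepA h we cx rb ce ct C h0 h1 h2 hΛ
  obtain ⟨Cb, lb, cb, sB⟩ := stepB h ce nc C h0 h1 h2 hΛ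
  obtain ⟨Cf, lf, cf, sC⟩ := stepC h ce nc C h0 h1 h2 hΛ
  have cab : 1 ≤ Cb * Ca := one_le_mul_of_one_le_of_one_le cb ca
  set D := Finset.univ.sup T.dep with hD
  have cK : 1 ≤ Ca * (Cb * Ca) ^ D := one_le_mul_of_one_le_of_one_le ca (one_le_pow₀ cab)
  refine ⟨Cf * (Ca * (Cb * Ca) ^ D), T1, by positivity, fun T0 hT => ?_⟩
  obtain ⟨l0, gbc⟩ := gbc T0 hT
  refine ⟨max l0 (max la (max lb lf)), fun L hL F N R' hN hF hY hR => ?_⟩
  have hH := gbc L (lg_mono hL (le_max_left _ _))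
  have hA : Lg T la L := lg_mono hL (by simp)
  have hB : Lg T lb L := lg_mono hL (by simp)
  have hC : Lg T lf L := lg_mono hL (by simp)
  rcases hN.eq_or_lt with rfl | N0
  · refine ⟨0, Atl.Sec.zero, fun s x hx => ?_, fun s x0 _ j => ?_, tendsto_const_nhds⟩
    · rw [x3_zero h hL.1 hF hY s x hx, Pi.zero_apply, lapT_zero']; rfl
    · simp only [clX, Pi.zero_apply, smul_zero, mul_zero, zero_mul]
      refine ⟨CKA.zero, fun p q => CKA.zero.congr isOpen_ball fun y _ => ?_⟩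
      rw [show pderiv q (fun _ : E4 => (0 : ℝ)) = fun _ => 0 from funext fun _ => pd_const _ 0,
        pd_const]
  obtain ⟨om, o1, o2, o3⟩ := lex γ C Λ L _ hΛ hL.1 hH F R' hF hR
  have hS : Sol T γ' L (gbL T g T0 L) F om N := ⟨hN, hF, hY, o1, o2⟩
  have hf := far m1 cel fl (by linarith) h2 hΛ hL.1 hH hS hR o3
  have hle : ∀ n : ℕ, N ≤ (Cb * Ca) ^ n * N := fun n => le_mul_of_one_le_left hN (one_le_pow₀ cab)
  have pv : ∀ v, PV T γ' L om ((Cb * Ca) ^ T.dep v * N) v := fun v => by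
    induction v using h.ind with
    | h0 => rw [h.dep_root, pow_zero, one_mul]; exact hf.pv h0.le (by linarith) N0
    | h1 w hw ih =>
      have := sB L _ F om N hB hH hS w _ hw ((hle _).trans (le_mul_of_one_le_left
        (hN.trans (hle _)) ca)) ((sA L _ F om N hA hH hS _ _ (hle _) ih).2 w hw rfl)
      rwa [h.dep_par w hw, pow_succ', mul_assoc, mul_assoc]
  refine ⟨om, o1, o2, ?_, hf.tendsto h⟩
  rw [mul_assoc]
  refine sC L _ F om N hC hH hS hf _ (by positivity) (le_mul_of_one_le_left hN cK) fun s x0 hx =>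
    ((sA L _ F om N hA hH hS _ _ (hle _) (pv _)).1 s rfl x0 hx).amono ?_
  rw [mul_assoc]
  gcongr
  exact Finset.le_sup (f := T.dep) (Finset.mem_univ _)

end Crest.Agent.N207.M

end
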