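import Crest.Agent.N207.M.Defs
import Crest.Agent.N207.Ga.Met3
import Crest.Agent.N207.Ga.Ten

/-!
# Row 207, X3 (helper88): the metric read in the doubled cells (`CEL`)
-/

set_option autoImplicit false

open scoped ContDiff
open Metric Set Filter Topology
open Crest.GeometryTopology.CoordMetric
open Crest.Agent.NLib.Ell Crest.Agent.N207.I Crest.Agent.N207.CB Crest.Agent.N207.N
  Crest.Agent.N207.Ga Crest.Agent.N207.K
open Crest.Agent.R238 (Ell)

noncomputable section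

namespace Crest.Agent.N207.M

namespace Cel

theorem ell_mono {lo hi lo' hi' : ℝ} {A : Matrix (Fin 4) (Fin 4) ℝ} (h : Ell lo hi A)
    (h1 : lo' ≤ lo) (h2 : hi ≤ hi') : Ell lo' hi' A := ⟨h.1, fun z => by
  have h0 : 0 ≤ ∑ i, z i ^ 2 := Finset.sum_nonneg fun _ _ => sq_nonneg _
  exact ⟨(mul_le_mul_of_nonneg_right h1 h0).trans (h.2 z).1,
    (h.2 z).2.trans (mul_le_mul_of_nonneg_right h2 h0)⟩⟩

variable {M : Type*} {T : TD M} {L : T.V → ℝ} {γ : ℝ} {w : T.V} {x0 y : E4}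

theorem nrm_le (hy : y ∈ BB) : ‖y‖ ≤ 2 := (mem_ball_zero_iff.1 hy).le

theorem pt_mem {s : T.S} (hx : x0 ∈ T.gK L s) (hy : y ∈ BB) : pt T s x0 y ∈ (T.glob L).U s := by
  rcases s with a | w
  · have := ball_norm (mem_closedBall_zero_iff.1 hx) (nrm_le hy)
    exact mem_ball_zero_iff.2 (this.trans_lt (by norm_num))
  · obtain ⟨h1, h2⟩ := cell_norm x0 (nrm_le hy)
    refine ⟨lt_of_lt_of_le (by linarith [hx.1]) h1, fun hw => h2.trans_lt ?_⟩
    have := hx.2 hw
    have := hx.1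
    linarith

theorem wt_cell (h0 : 0 < γ) (h1 : γ ≤ 1) (hx : 0 < ‖x0‖) (hy : y ∈ BB) :
    T.wt γ L w (x0 + (‖x0‖ / 8) • y) ≤ 2 * T.wt γ L w x0 := by
  obtain ⟨h2, h3⟩ := cell_norm x0 (nrm_le hy)
  have h4 : (2 : ℝ) ^ γ ≤ 2 := by simpa using Real.rpow_le_rpow_of_exponent_le one_le_two h1
  have h5 : ‖x0 + (‖x0‖ / 8) • y‖ ^ (-γ) ≤ 2 * ‖x0‖ ^ (-γ) := by
    refine (Real.rpow_le_rpow_of_nonpos (x := ‖x0‖ / 2) (by positivity) (by linarith)
      (by linarith)).trans ?_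
    rw [Real.div_rpow hx.le zero_le_two, Real.rpow_neg zero_le_two, div_inv_eq_mul, mul_comm]
    gcongr
  unfold TD.wt
  split_ifs
  · linarith
  · have h6 : (Real.exp (-L w) * ‖x0 + (‖x0‖ / 8) • y‖) ^ γ ≤ 2 * (Real.exp (-L w) * ‖x0‖) ^ γ := by
      refine (Real.rpow_le_rpow (y := 2 * (Real.exp (-L w) * ‖x0‖)) (by positivity) ?_ h0.le).trans ?_
      · rw [mul_left_comm]; gcongr; linarith
      · rw [Real.mul_rpow zero_le_two (by positivity)]; gcongr
    linarith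

theorem wt_bd (h0 : 0 < γ) (h1 : γ ≤ 1) (hx : x0 ∈ T.gK L (Sum.inr w)) :
    T.wt γ L w x0 ≤ 2 + |T.r| := by
  have h2 : ‖x0‖ ^ (-γ) ≤ 1 := Real.rpow_le_one_of_one_le_of_nonpos (by linarith [hx.1]) (by linarith)
  have := abs_nonneg T.r
  unfold TD.wt
  split_ifs with hw
  · linarith
  · have h3 : Real.exp (-L w) * ‖x0‖ ≤ 1 + |T.r| := by
      have h4 := hx.2 hw
      rw [Real.exp_neg, inv_mul_le_iff₀ (Real.exp_pos _)]
      have := le_abs_self T.r
      have := Real.exp_pos (L w)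
      nlinarith
    have h5 := (Real.rpow_le_rpow (by positivity) h3 h0.le).trans
      (Real.rpow_le_rpow_of_exponent_le (by linarith) h1)
    rw [Real.rpow_one] at h5
    linarith

end Cel

open Cel in
theorem cel {M : Type*} (T : TD M) : CEL T := by
  intro γ C Λ h0 h1 hΛ
  have hS : 0 ≤ sm (fun k => |C k|) 5 := sm_nonneg fun _ => abs_nonneg _
  have hC : ∀ k ≤ 5, C k ≤ sm (fun k => |C k|) 5 := fun k hk =>
    (le_abs_self _).trans (le_sm (C := fun k => |C k|) (fun _ => abs_nonneg _) hk)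
  set S := sm (fun k => |C k|) 5
  have hr := abs_nonneg T.r
  have hSr : 0 ≤ S * |T.r| := mul_nonneg hS hr
  refine ⟨Λ + 1 + 4 * S * (2 + |T.r|), by nlinarith, fun L H _ hH s x0 hx => ?_⟩
  have hm : ∀ y ∈ BB, pt T s x0 y ∈ (T.glob L).U s := fun y hy => pt_mem hx hy
  have he : 0 < T.eps L (T.un s) ^ 2 := pow_pos (TD.eps_pos L _) 2
  have hR : IsRiemannianOn (H s) ((T.glob L).U s) := by
    convert riem_smul (hH.met.riem s) (inv_pos.2 he) using 1
    funext x
    rw [rt, smul_smul, inv_mul_cancel₀ he.ne', one_smul]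
  have hsm : ∀ a b, ContDiffOn ℝ ∞ (fun y => clM T H s x0 y a b) BB := fun a b =>
    (hR.contDiffOn a b).comp (f := pt T s x0) (by unfold pt; fun_prop) hm
  have hK : (Λ + 1 + 4 * S * (2 + |T.r|))⁻¹ ≤ Λ⁻¹ := inv_anti₀ (by linarith) (by nlinarith)
  have hneck : ∀ w, s = Sum.inr w → ∀ a b,
      CKA (1 / 2) BB 4 (2 * (2 * S * T.wt γ L w x0)) (TD.dv (clM T H s x0) a b) := by
    rintro w rfl a b
    have hp : 0 < ‖x0‖ := by linarith [hx.1]
    refine CKA.of_bounds isOpen_ball (convex_ball _ _) (by norm_num) (by norm_num)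
      (((hsm a b).sub contDiffOn_const).of_le (Jt.kle _)) fun j hj y hy => ?_
    refine (norm_aff_le (TD.dv (H (Sum.inr w)) a b) x0 (by positivity : 0 < ‖x0‖ / 8) j y).trans ?_
    have h2 := hH.neck w j a b _ (hm y hy)
    have h3 := (cell_norm x0 (nrm_le hy)).1
    have h4 : 0 < ‖x0 + (‖x0‖ / 8) • y‖ := lt_of_lt_of_le (by positivity) h3
    have h5 : (‖x0‖ / 8) ^ j * (‖x0 + (‖x0‖ / 8) • y‖ ^ j)⁻¹ ≤ 1 := by
      rw [← div_eq_mul_inv, div_le_one (by positivity)]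
      gcongr; linarith
    have h6 := wt_cell (T := T) (L := L) (w := w) h0 h1 hp hy
    have h7 := wt_nonneg (T := T) (γ := γ) (L := L) (w := w) (x := x0 + (‖x0‖ / 8) • y)
    calc _ ≤ (‖x0‖ / 8) ^ j * (S * (‖x0 + (‖x0‖ / 8) • y‖ ^ j)⁻¹ *
          T.wt γ L w (x0 + (‖x0‖ / 8) • y)) := by
          refine mul_le_mul_of_nonneg_left (h2.trans ?_) (by positivity)
          change _ * (‖x0 + (‖x0‖ / 8) • y‖ ^ j)⁻¹ * T.wt γ L w (x0 + (‖x0‖ / 8) • y) ≤ _
          gcongr; exact hC j hj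
      _ = (‖x0‖ / 8) ^ j * (‖x0 + (‖x0‖ / 8) • y‖ ^ j)⁻¹ *
          (S * T.wt γ L w (x0 + (‖x0‖ / 8) • y)) := by ring
      _ ≤ 1 * (S * (2 * T.wt γ L w x0)) := by gcongr
      _ = _ := by ring
  refine ⟨hm, ⟨isOpen_ball, hsm, fun y hy => hR.posDef _ (hm y hy)⟩, fun a b => ?_,
    fun y hy => ?_, fun w e => ⟨fun y hy => ?_, fun a b => (hneck w e a b).mono ?_⟩,
    fun om y _ => ?_⟩
  · rcases s with a0 | w
    · refine (CKA.of_bounds (M := S) isOpen_ball (convex_ball _ _) (by norm_num) (by norm_num)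
        ((hsm a b).of_le (Jt.kle _)) fun j hj y hy => ?_).mono (by nlinarith)
      refine (norm_aff_le (fun y => H (Sum.inl a0) y a b) x0 (by norm_num : (0 : ℝ) < 1 / 8) j
        y).trans ?_
      have h2 := (hH.ball a0 j a b _ ((ball_norm (mem_closedBall_zero_iff.1 hx)
        (nrm_le hy)).trans (by norm_num))).trans (hC j hj)
      calc _ ≤ 1 * S := by gcongr; exact pow_le_one₀ (by norm_num) (by norm_num)
        _ = S := one_mul _
    · have h2 := wt_bd h0 h1 hx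
      refine (((hneck w rfl a b).add isOpen_ball
        (CKA.const ((1 : Matrix (Fin 4) (Fin 4) ℝ) a b))).congr isOpen_ball
        fun y _ => by simp [TD.dv]).mono ?_
      have h3 : ‖(1 : Matrix (Fin 4) (Fin 4) ℝ) a b‖ ≤ 1 := one_abs a b
      nlinarith
  · rcases s with a0 | w
    · exact ell_mono (hH.ellb a0 _ ((ball_norm (mem_closedBall_zero_iff.1 hx)
        (nrm_le hy)).trans (by norm_num))) hK (by nlinarith)
    · exact ell_mono (hH.elln w _ (hm y hy)) (hK.trans (inv_anti₀ two_pos hΛ)) (by nlinarith)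
  · subst e; exact hH.elln w _ (hm y hy)
  · have h2 := wt_nonneg (T := T) (γ := γ) (L := L) (w := w) (x := x0)
    have : 4 * S ≤ Λ + 1 + 4 * S * (2 + |T.r|) := by nlinarith
    nlinarith
  · have hrad : 0 < rad T s x0 := by
      rcases s with a0 | w
      · simp [rad]
      · have := hx.1
        simp only [rad, Sum.elim_inr]; linarith
    have e1 := lapT_cs one_ne_zero (T.eps L (T.un s) ^ 2 * rad T s x0)⁻¹ (clM T H s x0)
      (fun y => om s (pt T s x0 y)) y
    have e2 := lapT_cs he.ne' 1 (H s) (om s) (pt T s x0 y)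
    have e3 := lapT_af (H s) (om s) x0 (rad T s x0) y
    simp only [one_smul, inv_one, one_mul, mul_one] at e1 e2
    change lapT (fun y => clM T H s x0 y) ((T.eps L (T.un s) ^ 2 * rad T s x0)⁻¹ •
      fun y => om s (pt T s x0 y)) y = rad T s x0 • lapT (fun y => T.eps L (T.un s) ^ 2 • H s y)
        (om s) (pt T s x0 y)
    rw [e1, e2]
    change _ • lapT (fun y => H s (x0 + rad T s x0 • y)) (fun y => om s (x0 + rad T s x0 • y)) y = _
    rw [e3, smul_smul, smul_smul, pt]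
    congr 1
    field_simp

end Crest.Agent.N207.M
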