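import Crest.Agent.N207.M.Ct1

/-!
# Row 207, X3 (helper83): `ct : CT T`
-/

set_option autoImplicit false

open scoped ContDiff
open Metric Set Filter Topology
open Crest.GeometryTopology.CoordMetric
open Crest.Agent.NLib.Ell Crest.Agent.N207.I Crest.Agent.N207.CB Crest.Agent.N207.N
  Crest.Agent.N207.Ga
open Crest.Agent.R238 (Ell)

noncomputable section

namespace Crest.Agent.N207.M

namespace Ct

/-- `1` on `t ≤ 1`, `0` on `2 ≤ t` -/
def ps (t : ℝ) : ℝ := 1 - Real.smoothTransition (t - 1)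

theorem ps_sm : ContDiff ℝ ∞ ps :=
  contDiff_const.sub (Real.smoothTransition.contDiff.comp (contDiff_id.sub contDiff_const))

theorem ps_one {s R : ℝ} (hR : 0 < R) (h : s ≤ R) : ps (s / R) = 1 := by
  rw [ps, Real.smoothTransition.zero_of_nonpos (by linarith [(div_le_one hR).2 h]), sub_zero]

theorem ps_zero {s R : ℝ} (hR : 0 < R) (h : 2 * R ≤ s) : ps (s / R) = 0 := by
  rw [ps, Real.smoothTransition.one_of_one_le (by linarith [(le_div_iff₀ hR).2 h]), sub_self]

theorem ps_abs (t : ℝ) : |1 - ps t| ≤ 1 := by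
  rw [ps, sub_sub_cancel, abs_of_nonneg (Real.smoothTransition.nonneg _)]
  exact Real.smoothTransition.le_one _

variable {M : Type*} {T : TD M} {L : T.V → ℝ}

/-- the linear part, cut at both ends -/
def cz (e R : ℝ) (A : E4 →L[ℝ] E4) : Tn 4 1 := fun x I =>
  ps (‖x‖ / R) * (e * ((1 - ps (‖x‖ / 4)) * A x (I 0)))

open Classical in
/-- the cut field -/
def cv (T : TD M) (L : T.V → ℝ) (om : T.S → Tn 4 1) (v : T.V) (A : E4 →L[ℝ] E4) (R : ℝ) :
    T.S → Tn 4 1 :=
  (fun s => smT (radF T (fun u => if Dsc T v u then 1 else 0)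
    (fun u t => if u = v then ps (t / R) else if Dsc T v u then 1 else 0) s) (om s)) -
    nkT T v (cz (T.eps L v ^ 2) R A)

variable {om : T.S → Tn 4 1} {v : T.V} {A : E4 →L[ℝ] E4} {R : ℝ}

theorem cv_sec (h : T.Ok) (hL : T.Long L) (ho : (T.glob L).Sec om)
    (hA : ∀ g ∈ T.Γ v, ∀ x, A (g x) = g (A x)) (hR : 16 ≤ R)
    (hv : v ≠ T.root → 2 * R ≤ T.r / 4 * Real.exp (L v)) : (T.glob L).Sec (cv T L om v A R) := by
  have hR0 : 0 < R := by linarith
  refine (ho.smT (radF_comp (fun w s hs => ?_) fun w hw s hs => ?_) (radF_sm fun w => ?_)).sub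
    (nkT_sec h hL (fun I x hx => ?_) (fun x hx => ?_) (fun hw x hx => ?_) fun γ hγ x _ => ?_)
  · by_cases e : w = v
    · simp only [e, if_true, dsc_self, ps_one hR0 (show s ≤ R by linarith)]
    · simp only [if_neg e]
  · by_cases e : w = v
    · subst e
      simp only [if_true, if_neg (not_dsc_par h hw), ps_zero hR0 ((hv hw).trans hs.le)]
    · rw [if_neg e, propext (dsc_par h e hw)]
  · by_cases e : w = v
    · simp only [e, if_true]
      exact (ps_sm.comp (contDiff_id.div_const R)).contDiffOn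
    · simp only [if_neg e]
      exact contDiffOn_const
  · have h0 : ContDiffAt ℝ ∞ (fun y : E4 => ‖y‖) x :=
      contDiffAt_norm ℝ (norm_pos_iff.1 (zero_lt_one.trans hx.1))
    exact ((ps_sm.contDiffAt.comp x (h0.div_const R)).mul (contDiffAt_const.mul
      ((contDiffAt_const.sub (ps_sm.contDiffAt.comp x (h0.div_const 4))).mul
        ((EuclideanSpace.proj (I 0) : E4 →L[ℝ] ℝ).comp A).contDiff.contDiffAt))).contDiffWithinAt
  · funext I
    simp [cz, ps_one four_pos hx.le]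
  · funext I
    simp [cz, ps_zero hR0 ((hv hw).trans hx.le)]
  · funext I
    have e : (WithLp.toLp 2 fun j => cz (T.eps L v ^ 2) R A (γ x) ![j] : E4) =
        (ps (‖x‖ / R) * (T.eps L v ^ 2 * (1 - ps (‖x‖ / 4)))) • γ (A x) := by
      ext j
      simp only [cz, γ.norm_map, hA γ hγ, PiLp.smul_apply, smul_eq_mul, Matrix.cons_val_zero]
      ring
    rw [pull_iso, e, map_smul, γ.symm_apply_apply]
    simp only [cz, PiLp.smul_apply, smul_eq_mul]
    ring

theorem cv_ne {s : T.S} (hs : s ≠ Sum.inr v) :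
    (Dsc T v (T.un s) → cv T L om v A R s = om s) ∧
      (¬ Dsc T v (T.un s) → cv T L om v A R s = 0) := by
  rcases s with a | w
  · constructor <;> intro hd <;> funext y I <;>
      simp only [TD.un, Sum.elim_inl] at hd <;> simp [cv, smT, radF, nkT, hd]
  · have e : w ≠ v := fun e => hs (by rw [e])
    constructor <;> intro hd <;> funext y I <;>
      simp only [TD.un, Sum.elim_inr, id] at hd <;> simp [cv, smT, radF, nkT, hd, e]

theorem cv_eq (x : E4) (I : Fin 1 → Fin 4) : cv T L om v A R (Sum.inr v) x I = ps (‖x‖ / R) *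
    (om (Sum.inr v) x I - T.eps L v ^ 2 * ((1 - ps (‖x‖ / 4)) * A x (I 0))) := by
  simp only [cv, smT, radF, nkT, cz, Pi.sub_apply, Sum.elim_inr, if_true]
  ring

theorem clX_cv {x : E4} (y : E4) (I : Fin 1 → Fin 4) :
    clX T L (cv T L om v A R) (Sum.inr v) x y I = ps (‖x + (‖x‖ / 8) • y‖ / R) *
      (clX T L om (Sum.inr v) x y I - (1 - ps (‖x + (‖x‖ / 8) • y‖ / 4)) * lin A x y I) := by
  have := (TD.eps_pos L v).ne'
  simp only [clX, Pi.smul_apply, smul_eq_mul, cv_eq, pt_inr, lin, TD.un, Sum.elim_inr, id, rad,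
    mul_inv]
  rw [mul_sub, mul_sub, mul_sub]
  congr 1
  · ring
  · field_simp

theorem ev_cell (x : E4) {S : Set ℝ} (hS : IsOpen S) (hx : ‖x‖ ∈ S) :
    ∀ᶠ y in 𝓝 (0 : E4), ‖x + (‖x‖ / 8) • y‖ ∈ S := by
  have : Continuous fun y : E4 => ‖x + (‖x‖ / 8) • y‖ := by fun_prop
  exact this.continuousAt.preimage_mem_nhds (hS.mem_nhds (by simpa using hx))

end Ct

open Ct in
/-- **CT** -/
theorem ct {M : Type*} {T : TD M} (h : T.Ok) (hM : M2W) (hC : CEL T) : CT T := by
  intro γ C Λ hγ hγ1 hΛ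
  obtain ⟨K, hK, hcel⟩ := hC γ C Λ hγ hγ1 hΛ
  obtain ⟨C2, c2, hm⟩ := hM 0 (2 * K)
  obtain ⟨C1, c1, h1⟩ := exists_cut ps_sm 2 2
  obtain ⟨C3, c3, h3⟩ := exists_cut (contDiff_const.sub ps_sm : ContDiff ℝ ∞ fun t => 1 - ps t) 4 2
  obtain ⟨C4, c4, h4⟩ := exists_lin 2
  have hK0 : 0 < K := by linarith
  obtain ⟨D, hD⟩ : ∃ D, D = 8 * ((C3 + 1) * C4) := ⟨_, rfl⟩
  have d0 : 0 ≤ D := by rw [hD]; positivity
  refine ⟨10 + (C2 * K + 64) * D + (C2 * (2 * K) + 4) * (8 * C1), by positivity,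
    fun L H om hL hH ho v A R Mo hA hR hv hq => ?_⟩
  have hR0 : 0 < R := by linarith
  have sV := cv_sec h hL ho hA hR hv
  have p1 : 0 ≤ (C2 * K + 64) * D := by positivity
  have p2 : 0 ≤ (C2 * (2 * K) + 4) * (8 * C1) := by positivity
  refine ⟨cv T L om v A R, ⟨sV, 2 * R, fun x hx => ?_⟩, fun s hs => cv_ne hs,
    fun x0 a1 a2 y hy j => ?_, fun x hx j => ?_⟩
  · by_cases e : v = T.root
    · subst e
      funext I
      rw [cv_eq, ps_zero hR0 hx, zero_mul]
      rfl
    · rw [(cv_ne (fun e' => e (Sum.inr.inj e').symm)).2 (not_dsc_root h e)]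
      rfl
  · rw [clX_cv, ps_one hR0 (by linarith [(norm_BB (x := x0) hy).2]), one_mul, sub_sub_cancel_left,
      abs_neg, abs_mul]
    have := mul_le_mul (ps_abs (‖x0 + (‖x0‖ / 8) • y‖ / 4)) (lin_le A (x := x0) (by linarith) hy ![j])
      (abs_nonneg _) zero_le_one
    nlinarith [norm_nonneg A]
  obtain ⟨b1, b2, -, -, b5, b6⟩ := hcel L H hL hH _ x hx
  obtain ⟨b3, b4⟩ := b5 v rfl
  have hx1 : 3 / 2 ≤ ‖x‖ := hx.1
  have hx0 : 0 < ‖x‖ := by linarith
  obtain ⟨w0, w2⟩ := wt_bd h hγ.le (w := v) (x := x) (by simpa [pt_zero] using b1 0 zero_BB)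
  have g1 := riemOn_mono b2 isOpen_ball B1_sub
  have key : ∀ (o : Tn 4 1) (N : ℝ), SmT o B1 → QC 2 N o →
      |lapT (clM T H (Sum.inr v) x) o 0 ![j]| ≤
        C2 * (K * T.wt γ L v x * N) + |lap0 (fun z => o z ![j]) 0| := fun o N so qo => by
    have := (hm B1 _ o _ N (by nlinarith) g1 so
      (fun a b => ((b4 a b).subset B1_sub).of_le (by norm_num)) (fun y hy => b3 y (B1_sub hy)) qo j).bdd
      zero_B1
    rw [Real.norm_eq_abs] at this
    linarith [abs_sub_abs_le_abs_sub (lapT (clM T H (Sum.inr v) x) o 0 ![j])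
      (lap0 (fun z => o z ![j]) 0)]
  have sX : SmT (clX T L om (Sum.inr v) x) B1 := clX_sm (ho.sm _) fun y hy => b1 y (B1_sub hy)
  rw [← b6 _ 0 zero_BB, ← b6 _ 0 zero_BB]
  refine ⟨fun a => ?_, fun a1 a2 => ?_, fun a => ?_⟩
  · obtain ⟨o, ho'⟩ : ∃ o : Tn 4 1, o = fun y I =>
      (1 - ps (‖x + (‖x‖ / 8) • y‖ / 4)) * lin A x y I := ⟨_, rfl⟩
    have so : SmT o B1 := fun I y hy => by
      have n0 : x + (‖x‖ / 8) • y ≠ 0 :=
        norm_pos_iff.1 (by linarith [(Cu.norm_cell hx0 hy).1])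
      have n1 : ContDiffAt ℝ ∞ (fun y : E4 => ‖x + (‖x‖ / 8) • y‖) y :=
        (contDiffAt_const.add (contDiffAt_id.const_smul _)).norm ℝ n0
      rw [ho']
      exact (contDiffAt_const.sub (ps_sm.contDiffAt.comp y (n1.div_const 4))).contDiffWithinAt.mul
        (lin_sm A x B1 I y hy)
    have e : clX T L (cv T L om v A R) (Sum.inr v) x =ᶠ[𝓝 0] clX T L om (Sum.inr v) x - o := by
      filter_upwards [ev_cell x isOpen_Iio a] with y hy
      funext I
      rw [clX_cv, ps_one hR0 (le_of_lt hy), one_mul, ho']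
      rfl
    have qo : QC 2 (D * ‖A‖) o := fun i => by
      have q1 : CKA (1 / 2) B1 2 (C3 + 1) fun y => 1 - ps (‖x + (‖x‖ / 8) • y‖ / 4) := by
        rcases le_total ‖x‖ 16 with a1 | a1
        · exact (h3 x 4 hx0 four_pos (by linarith)).mono (by linarith)
        · refine ((CKA.const (1 : ℝ)).mono (by simp [c3])).congr isOpen_ball fun y hy => ?_
          rw [ps_zero four_pos (by linarith [(Cu.norm_cell hx0 hy).1]), sub_zero]
      rw [ho']
      exact (q1.mul isOpen_ball (h4 A x hx0 i)).mono (le_of_eq (by rw [hD]; ring))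
    have l0 : |lap0 (fun z => o z ![j]) 0| ≤ 64 * D * (‖A‖ * T.wt γ L v x) := by
      rcases le_or_gt ‖x‖ 16 with a1 | a1
      · have := wt_lo (T := T) (L := L) hγ1 (w := v) (x := x) (by linarith)
        have q2 : 0 ≤ D * ‖A‖ := by positivity
        nlinarith [lap0_le (qo j), mul_le_mul_of_nonneg_left
          (this.trans (mul_le_mul_of_nonneg_right a1 w0.le)) q2]
      · have e2 : (fun z => o z ![j]) =ᶠ[𝓝 0] fun z => lin A x z ![j] := by
          filter_upwards [ev_cell x isOpen_Ioi a1] with y hy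
          rw [ho']
          simp only [ps_zero four_pos (show 2 * 4 ≤ ‖x + (‖x‖ / 8) • y‖ by
            linarith [mem_Ioi.1 hy]), sub_zero, one_mul]
        rw [lap0_congr e2, lap0_lin A hx0, abs_zero]
        positivity
    rw [(lapT_congr EventuallyEq.rfl e).eq_of_nhds, lap_sub g1 sX so zero_B1, Pi.sub_apply,
      sub_sub_cancel_left, abs_neg]
    have q3 : 0 ≤ ‖A‖ * T.wt γ L v x := by positivity
    nlinarith [key o _ so qo, mul_nonneg p2 q3]
  · have qo : QC 2 (8 * C1 * Mo) (clX T L (cv T L om v A R) (Sum.inr v) x) := fun i => by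
      refine (((h1 x R hx0 hR0 a2).mul isOpen_ball (hq x a1 a2 i)).mono
        (le_of_eq (by ring))).congr isOpen_ball fun y hy => ?_
      rw [clX_cv, ps_zero four_pos (by linarith [(Cu.norm_cell hx0 hy).1]), sub_zero, one_mul]
      rfl
    have m0 : 0 ≤ Mo := (hq x a1 a2 j).nonneg zero_B1
    have q1 := key _ _ (clX_sm (sV.sm _) fun y hy => b1 y (B1_sub hy)) qo
    have q2 : C2 * (K * T.wt γ L v x * (8 * C1 * Mo)) ≤ C2 * (K * 2 * (8 * C1 * Mo)) := by gcongr
    nlinarith [lap0_le (qo j), mul_nonneg p1 m0]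
  · have e : clX T L (cv T L om v A R) (Sum.inr v) x =ᶠ[𝓝 0] 0 := by
      filter_upwards [ev_cell x isOpen_Ioi a] with y hy
      funext I
      rw [clX_cv, ps_zero hR0 (le_of_lt hy), zero_mul]
      rfl
    rw [(lapT_congr EventuallyEq.rfl e).eq_of_nhds, lap_zero]
    rfl

end Crest.Agent.N207.M

end
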