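import Crest.Agent.N207.M.Df2
import Crest.Agent.N207.CB.Cut
import Crest.Agent.N207.AI.Ev

/-!
# Row 207, X3 (helper83): kit for `CT` and `NC` (Laplacians, cut-offs and linear fields in a cell)
-/

set_option autoImplicit false

open scoped ContDiff RealInnerProductSpace
open Metric Set Filter Topology
open Crest.GeometryTopology.CoordMetric
open Crest.Agent.NLib.Ell Crest.Agent.N207.I Crest.Agent.N207.CB Crest.Agent.N207.N
  Crest.Agent.N207.Ga
open Crest.Agent.R238 (Ell)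

noncomputable section

namespace Crest.Agent.N207.M

namespace Ct

theorem lap_sub {k : ℕ} {G : MetricField 4} {U : Set E4} {S T : Tn 4 k} {y : E4}
    (hG : IsRiemannianOn G U) (hS : SmT S U) (hT : SmT T U) (hy : y ∈ U) :
    lapT G (S - T) y = lapT G S y - lapT G T y := by
  have h1 : cov G (S - T) =ᶠ[𝓝 y] cov G S - cov G T :=
    ev_of_on hG.isOpen hy fun z hz => cov_sub (hS.dAt hG.isOpen hz) (hT.dAt hG.isOpen hz)
  have h2 : cov G (cov G (S - T)) y = cov G (cov G S) y - cov G (cov G T) y := by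
    rw [(cov_congr EventuallyEq.rfl h1).eq_of_nhds]
    exact cov_sub ((hS.cov hG).dAt hG.isOpen hy) ((hT.cov hG).dAt hG.isOpen hy)
  funext I
  simp only [lapT, trT, h2, Pi.sub_apply, mul_sub, Finset.sum_sub_distrib]

theorem lap_zero {k : ℕ} (G : MetricField 4) : lapT G (0 : Tn 4 k) = 0 := by
  funext y I
  simp [lapT, cov_zero, trT]

theorem lap0_congr {f g : E4 → ℝ} {y : E4} (h : f =ᶠ[𝓝 y] g) : lap0 f y = lap0 g y :=
  Finset.sum_congr rfl fun i _ => pd_congr i (pd_congr_ev i h)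

theorem lap0_cka {U : Set E4} (hU : IsOpen U) {k : ℕ} {f : E4 → ℝ} {N : ℝ}
    (h : CKA (1 / 2) U (k + 2) N f) : CKA (1 / 2) U k (4 * N) (lap0 f) := by
  have h1 := CKA.sum_le hU fun i : Fin 4 => (h.pd i).pd i
  rw [Fintype.card_fin] at h1
  exact_mod_cast h1

theorem zero_B1 : (0 : E4) ∈ B1 := mem_ball_self one_pos

theorem zero_BB : (0 : E4) ∈ BB := mem_ball_self two_pos

theorem B1_sub : B1 ⊆ BB := ball_subset_ball one_le_two

theorem lap0_le {f : E4 → ℝ} {N : ℝ} (h : CKA (1 / 2) B1 2 N f) : |lap0 f 0| ≤ 4 * N :=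
  (lap0_cka (k := 0) isOpen_ball h).bdd zero_B1

theorem one_eq (I : Fin 1 → Fin 4) : I = ![I 0] := funext fun s => by
  rw [Subsingleton.elim s 0]; rfl

/-- radial functions in the cells -/
theorem exists_cut {Φ : ℝ → ℝ} (hΦ : ContDiff ℝ ∞ Φ) (B : ℝ) (k : ℕ) : ∃ C, 0 ≤ C ∧
    ∀ (x : E4) (R : ℝ), 0 < ‖x‖ → 0 < R → ‖x‖ ≤ B * R →
      CKA (1 / 2) B1 k C fun y => Φ (‖x + (‖x‖ / 8) • y‖ / R) := by
  obtain ⟨M0, h0, hM⟩ := Cu.exists_cka_unit (Φ := fun x : E4 => ‖x‖)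
    (fun x hx => (contDiffAt_norm ℝ hx).contDiffWithinAt) k
  obtain ⟨C, hC⟩ := Crest.Agent.NLib.Ell.comp 4 k (1 / 2) (B * M0) (by norm_num)
    (by norm_num) ℝ ℝ Φ univ (closedBall 0 (B * M0)) isOpen_univ
    (isCompact_closedBall _ _) (subset_univ _) hΦ.contDiffOn
  refine ⟨max C 0, le_max_right _ _, fun x R hx hR hB => ?_⟩
  have h1 : CKA (1 / 2) B1 k (B * M0) fun y => ‖x‖ / R * ‖‖x‖⁻¹ • x + (1 / 8 : ℝ) • y‖ := by
    refine ((hM _ (Cu.norm_unit hx)).const_mul isOpen_ball _).mono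
      (mul_le_mul_of_nonneg_right ?_ h0)
    rw [abs_of_nonneg (by positivity), div_le_iff₀ hR]
    exact hB
  refine ((hC B1 _ isOpen_ball (fun y hy => mem_closedBall_zero_iff.2 (h1.bdd hy)) h1).mono
    (le_max_left _ _)).congr isOpen_ball fun y _ => ?_
  rw [Cu.cell_eq hx, norm_smul, norm_norm]
  congr 1
  ring

theorem lin_eq (A : E4 →L[ℝ] E4) {x : E4} (hx : 0 < ‖x‖) (y : E4) (I : Fin 1 → Fin 4) :
    lin A x y I = 8 * A (‖x‖⁻¹ • x + (1 / 8 : ℝ) • y) (I 0) := by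
  rw [lin, Cu.cell_eq hx, map_smul, PiLp.smul_apply, smul_eq_mul]
  field_simp

theorem norm_proj_comp (A : E4 →L[ℝ] E4) (j : Fin 4) :
    ‖(EuclideanSpace.proj j : E4 →L[ℝ] ℝ).comp A‖ ≤ ‖A‖ :=
  ContinuousLinearMap.opNorm_le_bound _ (norm_nonneg _) fun v =>
    (PiLp.norm_apply_le (A v) j).trans (A.le_opNorm v)

/-- the linear fields in the cells -/
theorem exists_lin (k : ℕ) : ∃ C, 0 ≤ C ∧ ∀ (A : E4 →L[ℝ] E4) (x : E4), 0 < ‖x‖ →
    QC k (C * ‖A‖) (lin A x) := by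
  obtain ⟨M0, h0, hM⟩ := Cu.exists_cka_unit (Φ := fun x : E4 => x) contDiffOn_id k
  refine ⟨8 * M0, by positivity, fun A x hx j => ?_⟩
  refine (((((hM _ (Cu.norm_unit hx)).clm isOpen_ball _ (norm_proj_comp A j)).const_mul
    isOpen_ball 8).mono (le_of_eq ?_)).congr isOpen_ball fun y _ => lin_eq A hx y _)
  rw [abs_of_pos (by norm_num)]
  ring

theorem lin_sm (A : E4 →L[ℝ] E4) (x : E4) (U : Set E4) : SmT (lin A x) U := fun I =>
  (contDiff_const.mul (((EuclideanSpace.proj (I 0) : E4 →L[ℝ] ℝ).comp A).contDiff.comp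
    (contDiff_const.add (contDiff_id.const_smul _)))).contDiffOn

theorem pd_lin (A : E4 →L[ℝ] E4) {x : E4} (hx : 0 < ‖x‖) (i j : Fin 4) :
    pderiv i (fun y => lin A x y ![j]) = fun _ => A (EuclideanSpace.single i 1) j := by
  funext y
  have h : HasFDerivAt (fun y : E4 => lin A x y ![j])
      ((EuclideanSpace.proj j : E4 →L[ℝ] ℝ).comp A) y := by
    have e : (fun y : E4 => lin A x y ![j]) = fun y => 8 * A (‖x‖⁻¹ • x) j +
        ((EuclideanSpace.proj j : E4 →L[ℝ] ℝ).comp A) y := by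
      funext z
      rw [lin_eq A hx, map_add, map_smul]
      simp
      ring
    rw [e]
    exact (ContinuousLinearMap.hasFDerivAt _).const_add _
  rw [pderiv, h.fderiv]
  rfl

theorem lap0_lin (A : E4 →L[ℝ] E4) {x : E4} (hx : 0 < ‖x‖) (j : Fin 4) (y : E4) :
    lap0 (fun y => lin A x y ![j]) y = 0 := by
  simp only [lap0, pd_lin A hx, pd_const, Finset.sum_const_zero]

theorem norm_BB {x y : E4} (hy : y ∈ BB) :
    3 / 4 * ‖x‖ ≤ ‖x + (‖x‖ / 8) • y‖ ∧ ‖x + (‖x‖ / 8) • y‖ ≤ 5 / 4 * ‖x‖ := by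
  have h1 : ‖(‖x‖ / 8) • y‖ ≤ ‖x‖ / 4 := by
    rw [norm_smul, Real.norm_of_nonneg (by positivity)]
    nlinarith [mem_ball_zero_iff.1 hy, norm_nonneg x]
  have h2 := norm_add_le x ((‖x‖ / 8) • y)
  have h3 := norm_sub_le (x + (‖x‖ / 8) • y) ((‖x‖ / 8) • y)
  rw [add_sub_cancel_right] at h3
  constructor <;> linarith

theorem lin_le (A : E4 →L[ℝ] E4) {x y : E4} (hx : 0 < ‖x‖) (hy : y ∈ BB) (I : Fin 1 → Fin 4) :
    |lin A x y I| ≤ 10 * ‖A‖ := by
  have h1 : |A (x + (‖x‖ / 8) • y) (I 0)| ≤ ‖A‖ * (5 / 4 * ‖x‖) :=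
    ((PiLp.norm_apply_le _ _).trans (A.le_opNorm _)).trans
      (mul_le_mul_of_nonneg_left (norm_BB hy).2 (norm_nonneg _))
  rw [lin, abs_mul, abs_of_pos (by positivity), inv_mul_le_iff₀ (by positivity)]
  linarith

/-- equivariant vector fields as invariant 1-forms -/
theorem pull_iso (γ : Iso4) (Z : Tn 4 1) (x : E4) (I : Fin 1 → Fin 4) :
    pullT γ Z x I = γ.symm (WithLp.toLp 2 fun j => Z (γ x) ![j]) (I 0) := by
  have hf : fderiv ℝ γ x = (γ.toContinuousLinearEquiv : E4 →L[ℝ] E4) :=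
    γ.toContinuousLinearEquiv.hasFDerivAt.fderiv
  have e : ∀ v : E4, γ.symm v (I 0) = ⟪γ (EuclideanSpace.single (I 0) 1), v⟫ := fun v => by
    rw [← γ.symm.inner_map_map, γ.symm_apply_apply, EuclideanSpace.inner_single_left]; simp
  rw [pullT, AI.evT_one, hf, e, PiLp.inner_apply]
  exact Finset.sum_congr rfl fun j _ => by simp [mul_comm]

variable {M : Type*} {T : TD M} {L : T.V → ℝ}

theorem pt_inr (w : T.V) (x y : E4) : pt T (Sum.inr w) x y = x + (‖x‖ / 8) • y := rfl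

theorem pt_zero (s : T.S) (x : E4) : pt T s x 0 = x := by simp [pt]

theorem clX_sm {om : T.S → Tn 4 1} {s : T.S} {x : E4} {U : Set E4}
    (h : SmT (om s) ((T.glob L).U s)) (hU : ∀ y ∈ U, pt T s x y ∈ (T.glob L).U s) :
    SmT (clX T L om s x) U := fun I =>
  contDiffOn_const.mul ((h I).comp (contDiff_const.add (contDiff_id.const_smul _)).contDiffOn hU)

theorem wt_bd (h : T.Ok) {γ : ℝ} (hγ : 0 ≤ γ) {w : T.V} {x : E4}
    (hx : x ∈ (T.glob L).U (Sum.inr w)) : 0 < T.wt γ L w x ∧ T.wt γ L w x ≤ 2 := by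
  have h0 : 0 < ‖x‖ := zero_lt_one.trans hx.1
  have h1 : ‖x‖ ^ (-γ) ≤ 1 := Real.rpow_le_one_of_one_le_of_nonpos hx.1.le (by linarith)
  have h2 : 0 < ‖x‖ ^ (-γ) := Real.rpow_pos_of_pos h0 _
  unfold TD.wt
  split_ifs with hw
  · constructor <;> linarith
  · have h3 : Real.exp (-L w) * ‖x‖ ≤ 1 := by
      rw [Real.exp_neg, inv_mul_le_iff₀ (Real.exp_pos _)]
      nlinarith [hx.2 hw, h.r_lt, Real.exp_pos (L w)]
    have h4 : (Real.exp (-L w) * ‖x‖) ^ γ ≤ 1 := Real.rpow_le_one (by positivity) h3 hγ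
    have h5 : 0 ≤ (Real.exp (-L w) * ‖x‖) ^ γ := by positivity
    constructor <;> linarith

theorem wt_lo {γ : ℝ} (hγ1 : γ ≤ 1) {w : T.V} {x : E4} (h1 : 1 ≤ ‖x‖) :
    1 ≤ ‖x‖ * T.wt γ L w x := by
  have h0 : 0 < ‖x‖ := zero_lt_one.trans_le h1
  have h2 : ‖x‖ ^ (-1 : ℝ) ≤ ‖x‖ ^ (-γ) := Real.rpow_le_rpow_of_exponent_le h1 (by linarith)
  have h3 : ‖x‖ ^ (-γ) ≤ T.wt γ L w x := by
    unfold TD.wt
    split_ifs
    · linarith
    · exact le_add_of_nonneg_right (by positivity)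
  rw [Real.rpow_neg_one] at h2
  calc (1 : ℝ) = ‖x‖ * ‖x‖⁻¹ := (mul_inv_cancel₀ h0.ne').symm
    _ ≤ _ := mul_le_mul_of_nonneg_left (h2.trans h3) h0.le

theorem dsc_self (v : T.V) : Dsc T v v := ⟨le_rfl, by simp⟩

theorem dsc_par (h : T.Ok) {v u : T.V} (h1 : u ≠ v) (h2 : u ≠ T.root) :
    Dsc T v u ↔ Dsc T v (T.par u) := by
  have e := h.dep_par u h2
  constructor
  · rintro ⟨a, b⟩
    have c : T.dep v ≠ T.dep u := fun c => h1 (by simpa [c] using b)
    refine ⟨by omega, ?_⟩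
    rwa [show T.dep u - T.dep v = T.dep (T.par u) - T.dep v + 1 by omega,
      Function.iterate_succ_apply] at b
  · rintro ⟨a, b⟩
    refine ⟨by omega, ?_⟩
    rwa [show T.dep u - T.dep v = T.dep (T.par u) - T.dep v + 1 by omega,
      Function.iterate_succ_apply]

theorem not_dsc_par (h : T.Ok) {v : T.V} (hv : v ≠ T.root) : ¬ Dsc T v (T.par v) := fun a => by
  have := h.dep_par v hv
  have := a.1
  omega

theorem not_dsc_root (h : T.Ok) {v : T.V} (hv : v ≠ T.root) : ¬ Dsc T v T.root := fun a => by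
  have := h.dep_par v hv
  have := a.1
  have := h.dep_root
  omega

end Ct

end Crest.Agent.N207.M

end
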