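import Crest.Agent.N207.M.Df2

/-!
# Row 207, X3 (helper90): `L²` norms on one cell from global integrals
-/

set_option autoImplicit false

open scoped ContDiff ENNReal
open Metric Set Filter Topology MeasureTheory
open Crest.GeometryTopology.CoordMetric
open Crest.Agent.N207.I Crest.Agent.N207.I.TD Crest.Agent.N207.CB Crest.Agent.N207.N
  Crest.Agent.N207.Ga
open Crest.Agent.R238 (Ell)

noncomputable section

namespace Crest.Agent.N207.M

theorem cell_int {U : Set E4} (hU : IsOpen U) {F u : E4 → ℝ} {x0 : E4} {ρ c : ℝ} (a : ℝ)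
    (hρ : 0 < ρ) (hc : 0 ≤ c) (hF : IntegrableOn F U) (h0 : ∀ x ∈ U, 0 ≤ F x)
    (hu : ContinuousOn u U) (hs : ∀ y ∈ BB, x0 + ρ • y ∈ U)
    (hb : ∀ y ∈ BB, u (x0 + ρ • y) ^ 2 ≤ c * F (x0 + ρ • y)) :
    IntegrableOn (fun y => (a * u (x0 + ρ • y)) ^ 2) BB ∧
      ∫ y in BB, (a * u (x0 + ρ • y)) ^ 2 ≤ a ^ 2 * c / ρ ^ 4 * ∫ x in U, F x := by
  have hd : ∀ z ∈ BB, HasFDerivWithinAt (fun z : E4 => x0 + ρ • z)
      (ρ • ContinuousLinearMap.id ℝ E4) BB z := fun z _ =>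
    (((hasFDerivAt_id z).const_smul ρ).const_add x0).hasFDerivWithinAt
  have inj : InjOn (fun z : E4 => x0 + ρ • z) BB :=
    fun z _ z' _ h => smul_right_injective _ hρ.ne' (add_left_cancel h)
  have dt : |(ρ • ContinuousLinearMap.id ℝ E4).det| = ρ ^ 4 := by
    rw [ContinuousLinearMap.det, ContinuousLinearMap.toLinearMap_smul, LinearMap.det_smul]
    simp [abs_of_pos hρ]
  have sU : (fun z : E4 => x0 + ρ • z) '' BB ⊆ U := by rintro _ ⟨y, hy, rfl⟩; exact hs y hy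
  have i1 := (integrableOn_image_iff_integrableOn_abs_det_fderiv_smul volume measurableSet_ball hd
    inj F).1 (hF.mono_set sU)
  have e1 := integral_image_eq_integral_abs_det_fderiv_smul volume measurableSet_ball hd inj F
  simp only [dt, smul_eq_mul] at i1 e1
  have i2 := i1.const_mul (a ^ 2 * c / ρ ^ 4)
  have k : ∀ y ∈ BB, (a * u (x0 + ρ • y)) ^ 2 ≤ a ^ 2 * c / ρ ^ 4 * (ρ ^ 4 * F (x0 + ρ • y)) :=
    fun y hy => by
      rw [mul_pow, ← mul_assoc, div_mul_cancel₀ _ (by positivity), mul_assoc]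
      exact mul_le_mul_of_nonneg_left (hb y hy) (sq_nonneg a)
  have c1 : ContinuousOn (fun y : E4 => (a * u (x0 + ρ • y)) ^ 2) BB :=
    (continuousOn_const.mul (hu.comp (by fun_prop) hs)).pow 2
  have i3 : IntegrableOn (fun y => (a * u (x0 + ρ • y)) ^ 2) BB :=
    i2.mono' (c1.aestronglyMeasurable measurableSet_ball) (by
      filter_upwards [ae_restrict_mem measurableSet_ball] with y hy
      rw [Real.norm_of_nonneg (sq_nonneg _)]; exact k y hy)
  refine ⟨i3, (setIntegral_mono_on i3 i2 measurableSet_ball k).trans ?_⟩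
  rw [integral_const_mul, ← e1]
  refine mul_le_mul_of_nonneg_left (setIntegral_mono_set hF ?_ sU.eventuallyLE) (by positivity)
  filter_upwards [ae_restrict_mem hU.measurableSet] with x hx using h0 x hx

variable {M : Type*} {T : TD M} {L : T.V → ℝ} {H : Fam T} {γ Λ : ℝ} {C : ℕ → ℝ}

theorem nsq_nn {k : ℕ} {G : MetricField 4} {U : Set E4} {y : E4} (hG : IsRiemannianOn G U)
    (hy : y ∈ U) (S : Tn 4 k) : 0 ≤ nsq G S y := Ar.ipA_nonneg (hG.posDef y hy) _

theorem ell_monoX {A : Matrix (Fin 4) (Fin 4) ℝ} {Λ : ℝ} (h : Ell 2⁻¹ 2 A) (hΛ : 2 ≤ Λ) :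
    Ell Λ⁻¹ Λ A := ⟨h.1, fun z =>
  have p : 0 ≤ ∑ i, z i ^ 2 := Finset.sum_nonneg fun _ _ => sq_nonneg _
  ⟨(mul_le_mul_of_nonneg_right (inv_anti₀ two_pos hΛ) p).trans (h.2 z).1,
    (h.2 z).2.trans (mul_le_mul_of_nonneg_right hΛ p)⟩⟩

theorem rw_pos {s : T.S} {x : E4} (hx : x ∈ (T.glob L).U s) : 0 < Sk.rw T L s x := by
  rcases s with a | w
  · exact mul_pos (eps_pos _ _) one_pos
  · exact mul_pos (eps_pos _ _) (zero_lt_one.trans hx.1)

theorem rw_cont (s : T.S) : Continuous (Sk.rw T L s) := by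
  rcases s with a | w
  · show Continuous fun _ : E4 => T.eps L (T.un (Sum.inl a)) * 1
    fun_prop
  · show Continuous fun x : E4 => T.eps L (T.un (Sum.inr w)) * ‖x‖
    fun_prop

theorem rw_eq (s : T.S) (x : E4) : Sk.rw T L s x = 8 * (T.eps L (T.un s) * rad T s x) := by
  rcases s with a | w <;> simp only [Sk.rw, rad, Sum.elim_inl, Sum.elim_inr] <;> ring

theorem nrm_cell2 (x0 : E4) {y : E4} {ρ : ℝ} (hρ : 0 ≤ ρ) (hy : y ∈ BB) :
    ‖x0‖ - 2 * ρ ≤ ‖x0 + ρ • y‖ ∧ ‖x0 + ρ • y‖ ≤ ‖x0‖ + 2 * ρ := by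
  have h1 : ‖ρ • y‖ ≤ 2 * ρ := by
    rw [norm_smul, Real.norm_of_nonneg hρ]; nlinarith [mem_ball_zero_iff.1 hy]
  have h2 := norm_add_le x0 (ρ • y)
  have h3 := norm_le_norm_add_norm_sub' x0 (x0 + ρ • y)
  rw [sub_add_cancel_left, norm_neg] at h3
  exact ⟨by linarith, by linarith⟩

/-- the doubled cell -/
theorem cell2 (h : T.Ok) (hC : Cls T γ C Λ L H) (hΛ : 2 ≤ Λ) {s : T.S} {x0 : E4}
    (hx : x0 ∈ T.gK L s) : 0 < rad T s x0 ∧ ∀ y ∈ BB, x0 + rad T s x0 • y ∈ (T.glob L).U s ∧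
      Ell Λ⁻¹ Λ (H s (x0 + rad T s x0 • y)) ∧
      3 / 4 * Sk.rw T L s x0 ≤ Sk.rw T L s (x0 + rad T s x0 • y) ∧
      Sk.rw T L s (x0 + rad T s x0 • y) ≤ 5 / 4 * Sk.rw T L s x0 := by
  rcases s with a | w
  · have e := eps_pos L (T.vx a)
    refine ⟨by norm_num [rad], fun y hy => ?_⟩
    have := (nrm_cell2 x0 (ρ := 1 / 8) (by norm_num) hy).2
    have := mem_gK_inl.1 hx
    exact ⟨mem_glob_inl.2 (show ‖x0 + (1 / 8 : ℝ) • y‖ < 2 by linarith),
      hC.ellb a _ (show ‖x0 + (1 / 8 : ℝ) • y‖ ≤ _ by linarith),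
      by simp only [Sk.rw, Sum.elim_inl, TD.un]; linarith,
      by simp only [Sk.rw, Sum.elim_inl, TD.un]; linarith⟩
  · have e := eps_pos L w
    obtain ⟨h1, h2⟩ := mem_gK_inr.1 hx
    refine ⟨show 0 < ‖x0‖ / 8 by linarith, fun y hy => ?_⟩
    obtain ⟨k1, k2⟩ := nrm_cell2 x0 (ρ := ‖x0‖ / 8) (by positivity) hy
    have m : x0 + (‖x0‖ / 8) • y ∈ (T.glob L).U (Sum.inr w) := mem_glob_inr.2 ⟨by linarith,
      fun hw => by linarith [h2 hw, mul_pos h.r_pos (Real.exp_pos (L w))]⟩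
    refine ⟨m, ell_monoX (hC.elln w _ m) hΛ, ?_, ?_⟩ <;>
      simp only [Sk.rw, rad, Sum.elim_inr, TD.un, id] <;> nlinarith

theorem dens_rt (om : Tn 4 1) (s : T.S) (x : E4) :
    √(rt T L H s x).det * nsq (rt T L H s) om x =
      T.eps L (T.un s) ^ 2 * (√(H s x).det * nsq (H s) om x) := by
  have e := eps_pos L (T.un s)
  rw [rt_eq, nsq_smul_met (eps2_ne L _), sqrt_det_smul]
  field_simp

theorem cx (h : T.Ok) (hE : PE) : CX T := by
  intro γ C Λ q hΛ
  obtain ⟨CE, c1, hE⟩ := hE Λ (by linarith)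
  obtain ⟨D, l0, D0, hl⟩ := exists_scf h (A := 4 / T.r) (τ := 1) le_rfl one_pos
  obtain ⟨n, hn⟩ : ∃ n : ℝ, n = ∑ s, (Nat.card (T.grp s) : ℝ) + 1 := ⟨_, rfl⟩
  have n0 : 0 < n := by rw [hn]; positivity
  obtain ⟨p, hp⟩ : ∃ p, p = 2 * q - 6 := ⟨_, rfl⟩
  refine ⟨√(8 ^ 6 * CE * n * Real.exp (|p| * (D + 1)) * Real.exp (|p| * D)), l0, by positivity,
    fun L H hL hC om ⟨hom, R, hR⟩ S hS hI s x0 hx j => ?_⟩
  obtain ⟨l, hl⟩ := hl L hL
  have ok := h.glob_ok hL.1
  have pou := h.glob_pou hL.1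
  obtain ⟨Z, z1, z2⟩ := exists_cs h hL.1 hom.compat hR
  have ct := hom.ct_ip hC.met hom
  have nn := fun s x (hx : x ∈ (T.glob L).U s) => nsq_nn (hC.met.riem s) hx (om s)
  have i1 : (T.glob L).Intg T.χ (rt T L H) fun s x =>
      Real.exp (p * l s x) * nsq (rt T L H s) (om s) x :=
    Atl.intg_of_cs ok hC.met pou z1
      (fun s => ((continuousOn_const.mul (hl.sm s).continuousOn).rexp).mul (ct s))
      ((z2.ip_left om).of_imp fun _ _ _ e => mul_eq_zero_of_right _ e)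
  have i2 : (T.glob L).Intg T.χ (rt T L H) fun s x =>
      Sk.rw T L s x ^ p * nsq (rt T L H s) (om s) x :=
    Atl.intg_of_cs ok hC.met pou z1
      (fun s => ((rw_cont s).continuousOn.rpow_const fun x hx => .inl (rw_pos hx).ne').mul (ct s))
      ((z2.ip_left om).of_imp fun _ _ _ e => mul_eq_zero_of_right _ e)
  have b1 : mu T L H (fun s x => Real.exp (p * l s x) * nsq (rt T L H s) (om s) x) ≤
      Real.exp (|p| * D) * S ^ 2 := by
    refine (Atl.int_mono ok pou i1 (i2.const_mul (Real.exp (|p| * D))) fun s x hx => ?_).trans ?_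
    · rw [← mul_assoc, Real.rpow_def_of_pos (rw_pos hx), ← Real.exp_add]
      refine mul_le_mul_of_nonneg_right (Real.exp_le_exp.2 ?_) (nn s x hx)
      have := (le_abs_self _).trans ((abs_mul p _).le.trans
        (mul_le_mul_of_nonneg_left (hl.cmp s x hx) (abs_nonneg p)))
      linarith
    · rw [Atl.int_const_mul]
      exact mul_le_mul_of_nonneg_left (hp ▸ hI) (Real.exp_pos _).le
  obtain ⟨i3, b2⟩ := Atl.int_U_le (f := fun s x => Real.exp (p * l s x) *
      nsq (rt T L H s) (om s) x) ok hC.met pou (fun a b x hx y hy e => by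
      have := hom.compat.nsq ok hC.met a b x hx y hy e
      beta_reduce at this ⊢
      rw [hl.comp a b x hx y hy e, this])
    (Atl.Ct.ms ok fun s => ((continuousOn_const.mul (hl.sm s).continuousOn).rexp).mul (ct s))
    (fun s x hx => mul_nonneg (Real.exp_pos _).le (nn s x hx)) i1 s
  obtain ⟨r0, hc⟩ := cell2 h hC hΛ hx
  have w0 := rw_pos (pou.sub s hx)
  have e0 := eps_pos L (T.un s)
  obtain ⟨i4, b3⟩ := cell_int (ok.isOpen s) (u := fun x => om s x ![j])
    (c := CE / T.eps L (T.un s) ^ 2 * Real.exp (|p| * (D + 1) - p * Real.log (Sk.rw T L s x0)))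
    (T.eps L (T.un s) ^ 2 * rad T s x0)⁻¹ r0 (by positivity) i3
    (fun x hx => mul_nonneg (Real.sqrt_nonneg _) (mul_nonneg (Real.exp_pos _).le (nn s x hx)))
    (hom.sm s _).continuousOn (fun y hy => (hc y hy).1) fun y hy => by
      obtain ⟨k1, k2, k3, k4⟩ := hc y hy
      set x := x0 + rad T s x0 • y
      have a1 := (Finset.single_le_sum (f := fun j => om s x ![j] ^ 2) (fun _ _ => sq_nonneg _)
        (Finset.mem_univ j)).trans (hE (H s) (om s) x k2).1
      have a2 : |Real.log (Sk.rw T L s x) - Real.log (Sk.rw T L s x0)| ≤ 1 := by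
        have u1 := Real.log_le_sub_one_of_pos (div_pos (rw_pos k1) w0)
        have u2 := Real.log_le_sub_one_of_pos (div_pos w0 (rw_pos k1))
        rw [Real.log_div (rw_pos k1).ne' w0.ne'] at u1
        rw [Real.log_div w0.ne' (rw_pos k1).ne'] at u2
        have u3 : Sk.rw T L s x / Sk.rw T L s x0 ≤ 2 := by rw [div_le_iff₀ w0]; linarith
        have u4 : Sk.rw T L s x0 / Sk.rw T L s x ≤ 2 := by rw [div_le_iff₀ (rw_pos k1)]; linarith
        exact abs_le.2 ⟨by linarith, by linarith⟩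
      have a3 : |p * (l s x - Real.log (Sk.rw T L s x0))| ≤ |p| * (D + 1) := by
        rw [abs_mul]
        exact mul_le_mul_of_nonneg_left ((abs_sub_le _ _ _).trans
          (add_le_add (hl.cmp s x k1) a2)) (abs_nonneg p)
      have a4 : 1 ≤ Real.exp (|p| * (D + 1) - p * Real.log (Sk.rw T L s x0)) *
          Real.exp (p * l s x) := by
        rw [← Real.exp_add]
        exact Real.one_le_exp (by linarith [(abs_le.1 a3).1])
      have a5 : 0 ≤ CE * (√(H s x).det * nsq (H s) (om s) x) := (sq_nonneg _).trans a1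
      rw [mul_left_comm √_, dens_rt]
      calc _ ≤ _ := a1
        _ ≤ _ := le_mul_of_one_le_left a5 a4
        _ = _ := by field_simp
  refine ⟨i4, b3.trans ?_⟩
  have b4 : (Nat.card ((T.glob L).Γ s) : ℝ) ≤ n := by
    have := Finset.single_le_sum (f := fun s => (Nat.card (T.grp s) : ℝ))
      (fun _ _ => Nat.cast_nonneg _) (Finset.mem_univ s)
    rw [hn]; exact this.trans (by linarith)
  have b5 := b2.trans ((mul_le_mul_of_nonneg_left b1 (Nat.cast_nonneg _)).trans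
    (mul_le_mul_of_nonneg_right b4 (by positivity)))
  refine (mul_le_mul_of_nonneg_left b5 (by positivity)).trans (le_of_eq ?_)
  have e1 : Real.exp (|p| * (D + 1) - p * Real.log (Sk.rw T L s x0)) =
      Real.exp (|p| * (D + 1)) * (Sk.rw T L s x0 ^ (-q)) ^ 2 * Sk.rw T L s x0 ^ 6 := by
    rw [Real.rpow_def_of_pos w0, ← Real.exp_nat_mul, ← Real.exp_add,
      ← Real.exp_log (pow_pos w0 6), ← Real.exp_add, Real.log_pow, hp]
    congr 1; push_cast; ring
  rw [e1, mul_pow, mul_pow, Real.sq_sqrt (by positivity)]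
  generalize Sk.rw T L s x0 ^ (-q) = w
  rw [rw_eq]
  field_simp

theorem fl (h : T.Ok) (hE : PE) : FL T := by
  intro γ C Λ L H om hL hC hom hf
  obtain ⟨CE, c1, hE⟩ := hE 2 one_le_two
  have ok := h.glob_ok hL
  have pou := h.glob_pou hL
  have hc := hom.cov ok hC.met
  have nn : ∀ s, ∀ x ∈ (T.glob L).U s, 0 ≤ enD T L (rt T L H) om s x := fun s x hx =>
    add_nonneg (nsq_nn (hC.met.riem s) hx _)
      (div_nonneg (nsq_nn (hC.met.riem s) hx _) (sq_nonneg _))
  have i1 : (T.glob L).Intg T.χ (rt T L H) (enD T L (rt T L H) om) :=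
    (Atl.intg_iff (f := enD T L (rt T L H) om) ok hC.met pou (Atl.Ct.ms ok fun s => (hc.ct_ip hC.met hc s).add
      ((hom.ct_ip hC.met hom s).div ((rw_cont s).continuousOn.pow 2)
        fun x hx => (pow_pos (rw_pos hx) 2).ne'))).2
      ((Atl.lint_mono ok fun s x hx => by rw [abs_of_nonneg (nn s x hx)]).trans_lt hf)
  have n0 := Atl.card_pos ok (Sum.inr T.root)
  have p0 := fun x (hx : x ∈ (T.glob L).U (Sum.inr T.root)) =>
    mul_nonneg (Atl.den_nonneg (G := rt T L H) pou (Sum.inr T.root) x) (nn _ x hx)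
  have I0 := setIntegral_nonneg (μ := volume) (ok.isOpen _).measurableSet p0
  refine ⟨√(8 ^ 6 * 2 * CE * Nat.card ((T.glob L).Γ (Sum.inr T.root)) *
    ∫ x in (T.glob L).U (Sum.inr T.root), (T.glob L).den T.χ (rt T L H) (Sum.inr T.root) x *
      enD T L (rt T L H) om (Sum.inr T.root) x), Real.sqrt_nonneg _, fun x0 hx j => ?_⟩
  have m : ∀ y ∈ BB, x0 + (‖x0‖ / 8) • y ∈ (T.glob L).U (Sum.inr T.root) := fun y hy =>
    mem_glob_inr.2 ⟨by linarith [(nrm_cell2 x0 (ρ := ‖x0‖ / 8) (by positivity) hy).1],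
      fun hw => absurd rfl hw⟩
  have x1 : 0 < ‖x0‖ := by linarith
  obtain ⟨i4, b3⟩ := cell_int (ok.isOpen _) (u := fun x => om (Sum.inr T.root) x ![j])
    (c := 2 * CE * Nat.card ((T.glob L).Γ (Sum.inr T.root)) * ‖x0‖ ^ 2)
    (T.eps L T.root ^ 2 * (‖x0‖ / 8))⁻¹ (by positivity : 0 < ‖x0‖ / 8) (by positivity)
    (i1 (Sum.inr T.root)) p0 (hom.sm _ _).continuousOn m fun y hy => by
      obtain ⟨k1, k2⟩ := nrm_cell2 x0 (ρ := ‖x0‖ / 8) (by positivity) hy
      have k := m y hy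
      set x := x0 + (‖x0‖ / 8) • y
      have a1 := (Finset.single_le_sum (f := fun j => om (Sum.inr T.root) x ![j] ^ 2)
        (fun _ _ => sq_nonneg _) (Finset.mem_univ j)).trans
        (hE (H _) (om (Sum.inr T.root)) x (hC.elln _ x k)).1
      have a2 := dens_rt (L := L) (H := H) (om (Sum.inr T.root)) (Sum.inr T.root) x
      have a3 : Sk.rw T L (Sum.inr T.root) x = ‖x‖ := by simp [Sk.rw, TD.un, h.eps_root]
      have a4 := mul_nonneg (Real.sqrt_nonneg (rt T L H (Sum.inr T.root) x).det)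
        (nsq_nn (hC.met.riem _) k (cov (rt T L H (Sum.inr T.root)) (om (Sum.inr T.root))))
      have a5 := mul_nonneg (Real.sqrt_nonneg (rt T L H (Sum.inr T.root) x).det)
        (nsq_nn (hC.met.riem _) k (om (Sum.inr T.root)))
      simp only [TD.un, Sum.elim_inr, id, h.eps_root, one_pow, one_mul] at a2
      have x2 : 0 < ‖x‖ := by linarith
      have a6 : 1 ≤ 2 * ‖x0‖ ^ 2 / ‖x‖ ^ 2 := by
        rw [le_div_iff₀ (by positivity)]; nlinarith
      rw [Atl.den, h.glob_χ_mid hL (by linarith) (fun hw => absurd rfl hw), if_pos rfl, enD, a3]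
      rw [← a2] at a1
      calc _ ≤ _ := a1
        _ ≤ 2 * ‖x0‖ ^ 2 / ‖x‖ ^ 2 * _ + 2 * CE * ‖x0‖ ^ 2 * _ := le_add_of_le_of_nonneg
          (le_mul_of_one_le_left (by positivity) a6) (mul_nonneg (by positivity) a4)
        _ = _ := by field_simp; ring
  refine ⟨i4, b3.trans (le_of_eq ?_)⟩
  rw [div_pow √_, Real.sq_sqrt (by positivity), h.eps_root]
  field_simp

end Crest.Agent.N207.M

end
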