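import Crest.Agent.N207.M.Nd2

/-!
# Row 207, gauge block (helper50): the linear part of an equivariant field on a neck
-/

set_option autoImplicit false
open Set Filter Topology Metric
open scoped ContDiff RealInnerProductSpace
open Crest.GeometryTopology.CoordMetric

noncomputable section

namespace Crest.Agent.N207.M

open Hd I

variable {x y : E4} {a b g P Q : ℝ} {Γ : Subgroup Iso4} {V : E4 → E4} {U : Set E4}

theorem sum_inv_eq_zero [Fintype Γ] (hne : Γ ≠ ⊥)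
    (hfree : ∀ γ ∈ Γ, ∀ x : E4, x ≠ 0 → γ x = x → γ = 1) (v : E4) :
    ∑ γ : Γ, (γ : Iso4).symm v = 0 := by
  by_contra h
  obtain ⟨⟨γ0, h0⟩, h1⟩ := (Subgroup.ne_bot_iff_exists_ne_one).1 hne
  refine h1 (Subtype.ext (hfree γ0 h0 _ h ?_))
  rw [map_sum, ← Equiv.sum_comp (Equiv.mulRight (⟨γ0, h0⟩ : Γ))]
  refine Finset.sum_congr rfl fun γ _ => ?_
  simp only [Equiv.coe_mulRight, Subgroup.coe_mul]
  exact γ0.apply_symm_apply _

/-- an equivariant field is bounded by its oscillation on spheres -/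
theorem norm_le_osc [Finite Γ] (hne : Γ ≠ ⊥)
    (hfree : ∀ γ ∈ Γ, ∀ x : E4, x ≠ 0 → γ x = x → γ = 1) (he : ∀ γ ∈ Γ, V (γ x) = γ (V x)) {m : ℝ}
    (ho : ∀ y : E4, ‖y‖ = ‖x‖ → ‖V y - V x‖ ≤ m) : ‖V x‖ ≤ m := by
  have := Fintype.ofFinite Γ
  have h1 : ∑ γ : Γ, (γ : Iso4).symm (V ((γ : Iso4) x) - V x) = (Fintype.card Γ : ℝ) • V x := by
    simp only [map_sub, Finset.sum_sub_distrib, sum_inv_eq_zero hne hfree, sub_zero,
      fun γ : Γ => he γ γ.2, LinearIsometryEquiv.symm_apply_apply, Finset.sum_const,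
      Finset.card_univ, Nat.cast_smul_eq_nsmul]
  have h2 : ‖(Fintype.card Γ : ℝ) • V x‖ ≤ ∑ _γ : Γ, m := by
    rw [← h1]
    refine (norm_sum_le _ _).trans (Finset.sum_le_sum fun γ _ => ?_)
    rw [LinearIsometryEquiv.norm_map]
    exact ho _ (LinearIsometryEquiv.norm_map _ _)
  have h3 : (0 : ℝ) < Fintype.card Γ := by exact_mod_cast Fintype.card_pos
  rw [norm_smul, Finset.sum_const, Finset.card_univ, nsmul_eq_mul, Real.norm_of_nonneg h3.le] at h2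
  exact le_of_mul_le_mul_left h2 h3

theorem fderiv_eqv (γ : Iso4) (he : ∀ᶠ z in 𝓝 x, V (γ z) = γ (V z))
    (h1 : DifferentiableAt ℝ V x) (h2 : DifferentiableAt ℝ V (γ x)) (v : E4) :
    fderiv ℝ V (γ x) (γ v) = γ (fderiv ℝ V x v) := by
  have hγ : ∀ z, HasFDerivAt γ (γ.toContinuousLinearEquiv : E4 →L[ℝ] E4) z := fun z =>
    γ.toContinuousLinearEquiv.hasFDerivAt
  have e1 := (h2.hasFDerivAt.comp x (hγ x)).fderiv
  have e2 := ((hγ (V x)).comp x h1.hasFDerivAt).fderiv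
  have e3 : fderiv ℝ (V ∘ γ) x = fderiv ℝ (γ ∘ V) x := Filter.EventuallyEq.fderiv_eq he
  rw [e1, e2] at e3
  exact congrArg (fun T : E4 →L[ℝ] E4 => T v) e3

theorem An_iso (γ : Iso4) (hx : x ∈ An a b) : γ x ∈ An a b := by
  unfold An at hx ⊢
  simpa using hx

/-- from the decay of the second derivatives to the linear part -/
theorem lin_part [Finite Γ] (hne : Γ ≠ ⊥) (hfree : ∀ γ ∈ Γ, ∀ x : E4, x ≠ 0 → γ x = x → γ = 1)
    (ha : 0 < a) (hab : 2 * a ≤ b) (hg0 : 0 < g) (hg : g ≤ 1) (hP : 0 ≤ P) (hQ : 0 ≤ Q)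
    (hU : IsOpen U) (hsub : An a b ⊆ U) (hV : ContDiffOn ℝ 2 V U)
    (he : ∀ γ ∈ Γ, ∀ x ∈ U, V (γ x) = γ (V x))
    (h2 : ∀ x ∈ An a b, ∀ i j k,
      ‖x‖ * |pderiv i (pderiv j fun y => V y k) x| ≤ prof a b g P Q ‖x‖) :
    ∃ A : E4 →L[ℝ] E4, (∀ γ ∈ Γ, ∀ v, A (γ v) = γ (A v)) ∧
      (∀ x ∈ An (2 * a) b, ‖fderiv ℝ V x - A‖ ≤ 128 * (16 + g⁻¹) * prof a b g P Q ‖x‖) ∧
      ∀ x ∈ An (4 * a) b, ‖V x - A x‖ ≤ 2048 * (16 + g⁻¹) * (‖x‖ * prof a b g P Q ‖x‖) := by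
  have := Fintype.ofFinite Γ
  have hb : 0 < b := by linarith
  have c2 : ∀ x ∈ An a b, ContDiffAt ℝ 2 V x := fun x hx => hV.contDiffAt (hU.mem_nhds (hsub hx))
  have d1 : ∀ x ∈ An a b, DifferentiableAt ℝ V x := fun x hx =>
    (c2 x hx).differentiableAt (by norm_num)
  have s2 : An (2 * a) b ⊆ An a b := An_mono (by linarith) le_rfl
  have e64 : ∀ r, prof a b g (64 * P) (64 * Q) r = 64 * prof a b g P Q r := fun r => by
    unfold prof; ring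
  have hK : ∀ z ∈ An a b, ‖z‖ * ‖fderiv ℝ (fderiv ℝ V) z‖ ≤ prof a b g (64 * P) (64 * Q) ‖z‖ :=
    fun z hz => by
      have hp := pos_of_An ha hz
      have := norm_D2_le (c2 z hz) (m := prof a b g P Q ‖z‖ / ‖z‖) fun i j k => by
        rw [le_div_iff₀ hp, mul_comm]; exact h2 z hz i j k
      rw [← mul_div_assoc, le_div_iff₀ hp] at this
      rw [e64]; linarith
  obtain ⟨y0, hy0, hmin⟩ := (isCompact_An (2 * a) b).exists_isMinOn
    (f := fun z : E4 => prof a b g P Q ‖z‖)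
    ⟨EuclideanSpace.single 0 b, by constructor <;> simp [abs_of_pos hb, hab]⟩ (by
      unfold prof
      refine (continuousOn_const.mul (ContinuousOn.rpow_const (by fun_prop) fun _ _ =>
        Or.inr hg0.le)).add (continuousOn_const.mul (ContinuousOn.rpow_const ?_ fun _ _ =>
        Or.inr hg0.le))
      exact continuousOn_const.div continuous_norm.continuousOn fun z hz =>
        (pos_of_An (by linarith) hz).ne')
  have hc : (0 : ℝ) < Fintype.card Γ := by exact_mod_cast Fintype.card_pos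
  set A : E4 →L[ℝ] E4 := (Fintype.card Γ : ℝ)⁻¹ • ∑ γ : Γ, fderiv ℝ V ((γ : Iso4) y0) with hA
  have hA1 : ∀ γ ∈ Γ, ∀ v, A (γ v) = γ (A v) := fun δ hδ v => by
    simp only [hA, _root_.smul_apply, _root_.sum_apply, map_smul, map_sum]
    congr 1
    rw [← Equiv.sum_comp (Equiv.mulLeft (⟨δ, hδ⟩ : Γ))]
    refine Finset.sum_congr rfl fun γ _ => ?_
    have hm := s2 (An_iso γ hy0)
    exact fderiv_eqv δ (eventually_of_mem (hU.mem_nhds (hsub hm)) (he δ hδ)) (d1 _ hm)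
      (d1 _ (An_iso δ hm)) v
  have hA2 : ∀ x ∈ An (2 * a) b,
      ‖fderiv ℝ V x - A‖ ≤ 128 * (16 + g⁻¹) * prof a b g P Q ‖x‖ := fun x hx => by
    have e1 : fderiv ℝ V x - A =
        (Fintype.card Γ : ℝ)⁻¹ • ∑ γ : Γ, (fderiv ℝ V x - fderiv ℝ V ((γ : Iso4) y0)) := by
      rw [Finset.sum_sub_distrib, smul_sub, Finset.sum_const, Finset.card_univ,
        ← Nat.cast_smul_eq_nsmul ℝ, smul_smul, inv_mul_cancel₀ hc.ne', one_smul]
    have e2 : ‖∑ γ : Γ, (fderiv ℝ V x - fderiv ℝ V ((γ : Iso4) y0))‖ ≤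
        ∑ _γ : Γ, 128 * (16 + g⁻¹) * prof a b g P Q ‖x‖ := by
      refine (norm_sum_le _ _).trans (Finset.sum_le_sum fun γ _ => ?_)
      have k1 := chain_le (f := fderiv ℝ V) ha hg0 hg (by positivity) (by positivity)
        (fun z hz => ((c2 z hz).fderiv_right (m := 1) (by norm_num)).differentiableAt
          (by norm_num)) hK hx (An_iso γ hy0)
      have k2 : prof a b g P Q ‖y0‖ ≤ prof a b g P Q ‖x‖ := hmin hx
      rw [e64, e64, LinearIsometryEquiv.norm_map] at k1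
      have k3 : 0 ≤ 16 + g⁻¹ := by positivity
      nlinarith [mul_le_mul_of_nonneg_left k2 k3]
    rw [Finset.sum_const, Finset.card_univ, nsmul_eq_mul] at e2
    rw [e1, norm_smul, norm_inv, Real.norm_of_nonneg hc.le, inv_mul_le_iff₀ hc]
    exact e2
  refine ⟨A, hA1, hA2, fun x hx => ?_⟩
  have hp : 0 < ‖x‖ := pos_of_An (by linarith) hx
  have s4 : An (‖x‖ / 2) ‖x‖ ⊆ An (2 * a) b := An_mono (by linarith [hx.1]) hx.2
  have hxa : x ∈ An a b := An_mono (by linarith) le_rfl hx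
  refine norm_le_osc (V := fun z => V z - A z) hne hfree
    (fun γ hγ => by simp only [he γ hγ x (hsub hxa), hA1 γ hγ, map_sub]) fun y hy => ?_
  have k := sph_le (f := fun z => V z - A z) (K := 128 * (16 + g⁻¹) * (2 * prof a b g P Q ‖x‖)) hp
    (fun z hz => (d1 z (s2 (s4 hz))).sub A.differentiableAt) (fun z hz => by
      rw [fderiv_fun_sub (d1 z (s2 (s4 hz))) A.differentiableAt, A.fderiv]
      exact (hA2 z (s4 hz)).trans (mul_le_mul_of_nonneg_left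
        (prof_half ha hb hg0.le hg hP hQ hp hz.1 hz.2) (by positivity))) hy rfl
  have k3 : 0 ≤ (16 + g⁻¹) * (‖x‖ * prof a b g P Q ‖x‖) :=
    mul_nonneg (by positivity) (mul_nonneg hp.le (prof_nonneg ha.le hb.le hP hQ hp.le))
  nlinarith

theorem lap0_pd {w : E4 → ℝ} (hU : IsOpen U) (hw : ContDiffOn ℝ ∞ w U) (j : Fin 4) (hx : x ∈ U) :
    lap0 (pderiv j w) x = pderiv j (lap0 w) x := by
  unfold lap0
  rw [pd_sum j _ fun i _ => dAt (sm_pd hU (sm_pd hU hw i) i) hU hx]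
  refine Finset.sum_congr rfl fun i _ => ?_
  rw [pd_comm j i (c2At (sm_pd hU hw i) hU hx)]
  exact pd_congr_on i hU hx fun z hz => pd_comm i j (c2At hw hU hz)

theorem sm_lap0 {w : E4 → ℝ} (hU : IsOpen U) (hw : ContDiffOn ℝ ∞ w U) :
    ContDiffOn ℝ ∞ (lap0 w) U :=
  ContDiffOn.sum fun i _ => sm_pd hU (sm_pd hU hw i) i

/-- decay of the second derivatives -/
theorem d2_decay {w : E4 → ℝ} (ha : 0 < a) (hP : 0 ≤ P) (hQ : 0 ≤ Q) (hU : IsOpen U)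
    (hsub : An a b ⊆ U) (hw : ContDiffOn ℝ ∞ w U) (i j : Fin 4)
    (hl : ∀ x ∈ An a b,
      ‖x‖ ^ 3 * |pderiv i (pderiv j (lap0 w)) x| ≤ (1 - g ^ 2) * prof a b g P Q ‖x‖)
    (h1 : ∀ x ∈ An a b, ‖x‖ = a → a * |pderiv i (pderiv j w) x| ≤ Q)
    (h2 : ∀ x ∈ An a b, ‖x‖ = b → b * |pderiv i (pderiv j w) x| ≤ P) (hx : x ∈ An a b) :
    ‖x‖ * |pderiv i (pderiv j w) x| ≤ prof a b g P Q ‖x‖ := by
  refine mp_prof ha hP hQ (fun y hy => c2At (sm_pd hU (sm_pd hU hw j) i) hU (hsub hy))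
    (fun y h h' => ?_) h1 h2 hx
  have hy : y ∈ An a b := ⟨h.le, h'.le⟩
  rw [lap0_pd hU (sm_pd hU hw j) i (hsub hy),
    pd_congr_on i hU (hsub hy) fun z hz => lap0_pd hU hw j hz]
  exact hl y hy

/-- **ND**: neck decay -/
theorem nd [Finite Γ] (hne : Γ ≠ ⊥) (hfree : ∀ γ ∈ Γ, ∀ x : E4, x ≠ 0 → γ x = x → γ = 1)
    (ha : 0 < a) (hab : 2 * a ≤ b) (hg0 : 0 < g) (hg : g ≤ 1) (hP : 0 ≤ P) (hQ : 0 ≤ Q)
    (hU : IsOpen U) (hsub : An a b ⊆ U) (hV : ContDiffOn ℝ ∞ V U)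
    (he : ∀ γ ∈ Γ, ∀ x ∈ U, V (γ x) = γ (V x))
    (hl : ∀ x ∈ An a b, ∀ i j k, ‖x‖ ^ 3 * |pderiv i (pderiv j (lap0 fun y => V y k)) x| ≤
      (1 - g ^ 2) * prof a b g P Q ‖x‖)
    (h1 : ∀ x ∈ An a b, ‖x‖ = a → ∀ i j k, a * |pderiv i (pderiv j fun y => V y k) x| ≤ Q)
    (h2 : ∀ x ∈ An a b, ‖x‖ = b → ∀ i j k, b * |pderiv i (pderiv j fun y => V y k) x| ≤ P) :
    ∃ A : E4 →L[ℝ] E4, (∀ γ ∈ Γ, ∀ v, A (γ v) = γ (A v)) ∧
      (∀ x ∈ An a b, ∀ i j k,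
        ‖x‖ * |pderiv i (pderiv j fun y => V y k) x| ≤ prof a b g P Q ‖x‖) ∧
      (∀ x ∈ An (2 * a) b, ‖fderiv ℝ V x - A‖ ≤ 128 * (16 + g⁻¹) * prof a b g P Q ‖x‖) ∧
      ∀ x ∈ An (4 * a) b, ‖V x - A x‖ ≤ 2048 * (16 + g⁻¹) * (‖x‖ * prof a b g P Q ‖x‖) := by
  have k : ∀ x ∈ An a b, ∀ i j k,
      ‖x‖ * |pderiv i (pderiv j fun y => V y k) x| ≤ prof a b g P Q ‖x‖ := fun x hx i j k =>
    d2_decay ha hP hQ hU hsub ((contDiff_coord k).comp_contDiffOn hV) i j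
      (fun y hy => hl y hy i j k) (fun y hy h => h1 y hy h i j k) (fun y hy h => h2 y hy h i j k) hx
  obtain ⟨A, a1, a2, a3⟩ := lin_part hne hfree ha hab hg0 hg hP hQ hU hsub
    (hV.of_le (Jt.kle 2)) he k
  exact ⟨A, a1, k, a2, a3⟩

end Crest.Agent.N207.M

end
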