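import Crest.Agent.N207.Ga.Defs
import Crest.Agent.N207.M.Nd3
import Crest.Agent.N207.I.Cal4
import Crest.Agent.N207.I.Car3

/-!
# Row 207, X3 (helper50): the class of metrics and the leaves
-/

set_option autoImplicit false

open scoped ContDiff ENNReal
open Metric Set Filter Topology MeasureTheory
open Crest.GeometryTopology.CoordMetric
open Crest.Agent.NLib.Ell Crest.Agent.N207.I Crest.Agent.N207.CB Crest.Agent.N207.N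
  Crest.Agent.N207.Ga
open Crest.Agent.R238 (Ell)

noncomputable section

namespace Crest.Agent.N207.M

/-- the doubled cell -/
abbrev BB : Set E4 := ball 0 2

/-- **M1**: interior estimate for the rough Laplacian on 1-forms, `L²` on the right -/
def M1 : Prop := ∀ (k : ℕ) (K : ℝ), 1 ≤ K → ∃ C : ℝ, 0 < C ∧
  ∀ (G : MetricField 4) (o : Tn 4 1) (N S : ℝ), 0 ≤ N → 0 ≤ S → IsRiemannianOn G BB → SmT o BB →
    (∀ a b, CKA (1 / 2) BB (k + 2) K fun y => G y a b) → (∀ y ∈ BB, Ell K⁻¹ K (G y)) →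
    (∀ j, CKA (1 / 2) BB k N fun y => lapT G o y ![j]) →
    (∀ j, IntegrableOn (fun y => o y ![j] ^ 2) BB ∧ ∫ y in BB, o y ![j] ^ 2 ≤ S ^ 2) →
    ∀ j, CKA (1 / 2) B1 (k + 2) (C * (N + S)) fun y => o y ![j]

/-- **M2**: the rough Laplacian of an almost flat metric is almost the flat Laplacian -/
def M2 : Prop := ∀ k : ℕ, ∃ C : ℝ, 0 < C ∧
  ∀ (U : Set E4) (G : MetricField 4) (o : Tn 4 1) (w Mo : ℝ), w ≤ 1 → IsRiemannianOn G U → SmT o U →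
    (∀ a b, CKA (1 / 2) U (k + 2) w (TD.dv G a b)) → (∀ y ∈ U, Ell 2⁻¹ 2 (G y)) →
    (∀ j, CKA (1 / 2) U (k + 2) Mo fun y => o y ![j]) →
    ∀ j, CKA (1 / 2) U k (C * (w * Mo)) fun y => lapT G o y ![j] - lap0 (fun z => o z ![j]) y

/-- **PW**: pointwise comparison with the flat quantities -/
def PW : Prop := ∀ τ : ℝ, 0 < τ → ∃ ε : ℝ, 0 < ε ∧
  ∀ (G : MetricField 4) (o : Tn 4 1) (f : E4 → ℝ) (x : E4) (ρ : ℝ), 0 < ρ → (G x).PosDef →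
    (∀ a b, |TD.dv G a b x| ≤ ε) → (∀ a b c, ρ * |pderiv c (fun y => G y a b) x| ≤ ε) →
    ∑ j, Hd.g2 (fun y => o y ![j]) x ≤
        (1 + τ) * (√(G x).det * nsq G (cov G o) x) + τ * ((∑ j, o x ![j] ^ 2) / ρ ^ 2) ∧
      ∑ j, o x ![j] ^ 2 ≤ (1 + τ) * (√(G x).det * nsq G o x) ∧
      √(G x).det * (nsq G (dT f) x * nsq G o x) ≤ (1 + τ) * (Hd.g2 f x * ∑ j, o x ![j] ^ 2)

/-- **PE**: pointwise comparison for elliptic matrices -/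
def PE : Prop := ∀ Λ : ℝ, 1 ≤ Λ → ∃ C : ℝ, 1 ≤ C ∧
  ∀ (G : MetricField 4) (o : Tn 4 1) (x : E4), Ell Λ⁻¹ Λ (G x) →
    ∑ j, o x ![j] ^ 2 ≤ C * (√(G x).det * nsq G o x) ∧
      √(G x).det * nsq G o x ≤ C * ∑ j, o x ![j] ^ 2

variable {M : Type*} (T : TD M)

/-- the class of metrics on `glob L` (vertex units) -/
structure Cls (γ : ℝ) (C : ℕ → ℝ) (Λ : ℝ) (L : T.V → ℝ) (H : Fam T) : Prop where
  met : (T.glob L).IsMet (rt T L H)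
  neck : ∀ w (k : ℕ) p q, ∀ x ∈ (T.glob L).U (Sum.inr w),
    ‖iteratedFDeriv ℝ k (TD.dv (H (Sum.inr w)) p q) x‖ ≤ C k * (‖x‖ ^ k)⁻¹ * T.wt γ L w x
  elln : ∀ w, ∀ x ∈ (T.glob L).U (Sum.inr w), Ell 2⁻¹ 2 (H (Sum.inr w) x)
  ball : ∀ a (k : ℕ) p q, ∀ x : E4, ‖x‖ ≤ 15 / 8 →
    ‖iteratedFDeriv ℝ k (fun y => H (Sum.inl a) y p q) x‖ ≤ C k
  ellb : ∀ a, ∀ x : E4, ‖x‖ ≤ 15 / 8 → Ell Λ⁻¹ Λ (H (Sum.inl a) x)

/-- **GBC**: the reference metrics are in one class -/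
def GBC (g : T.V → Fam T) (γ : ℝ) : Prop :=
  ∃ (C : ℕ → ℝ) (Λ T1 : ℝ), 2 ≤ Λ ∧ ∀ T0, T1 ≤ T0 → ∃ l0 : ℝ, ∀ L, Lg T l0 L →
    Cls T γ C Λ L (gbL T g T0 L)

/-- **HG**: the Hardy inequality on `glob L`, uniform in the class -/
def HG : Prop := ∀ (γ : ℝ) (C : ℕ → ℝ) (Λ : ℝ), 2 ≤ Λ → ∃ c : ℝ, 0 < c ∧
  ∀ L H, T.Long L → Cls T γ C Λ L H → ∀ (U : T.S → Tn 4 1) (S : Set T.Car),
    (T.glob L).Sec U → (T.glob L).CS S → (T.glob L).Van U S →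
    c * (T.glob L).int T.χ (rt T L H) (fun s x => nsq (rt T L H s) (U s) x / Sk.rw T L s x ^ 2) ≤
      (T.glob L).int T.χ (rt T L H) fun s x => nsq (rt T L H s) (cov (rt T L H s) (U s)) x

/-- **LEX**: existence of a finite energy solution -/
def LEX : Prop := ∀ (γ : ℝ) (C : ℕ → ℝ) (Λ : ℝ) (L : T.V → ℝ) (H : Fam T), 2 ≤ Λ → T.Long L →
  Cls T γ C Λ L H → ∀ (F : T.S → Tn 4 1) (R' : ℝ), (T.glob L).Sec F →
    (∀ x : E4, R' ≤ ‖x‖ → F (Sum.inr T.root) x = 0) →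
    ∃ om : T.S → Tn 4 1, (T.glob L).Sec om ∧
      (∀ s, ∀ x ∈ (T.glob L).U s, lapT (rt T L H s) (om s) x = F s x) ∧ N.En T L (rt T L H) om < ⊤

/-- **TRF**: transfer of the source norm to the doubled cells -/
def TRF : Prop := ∀ γ' : ℝ, 0 < γ' → γ' ≤ 1 → ∃ C l0 : ℝ, 0 < C ∧ ∀ L, Lg T l0 L →
  ∀ (F : T.S → Tn 4 1) (N : ℝ), 0 ≤ N → (T.glob L).Sec F → YN T γ' L N F →
    ∀ s, ∀ x0 ∈ T.gK L s, ∀ j,
      CKA (1 / 2) BB 2 (C * N * kap T γ' L s x0) fun y => clY T F s x0 y ![j]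

/-- **CEL**: the metric read in the doubled cells -/
def CEL : Prop := ∀ (γ : ℝ) (C : ℕ → ℝ) (Λ : ℝ), 0 < γ → γ ≤ 1 → 2 ≤ Λ → ∃ K : ℝ, Λ ≤ K ∧
  ∀ L H, T.Long L → Cls T γ C Λ L H → ∀ s, ∀ x0 ∈ T.gK L s,
    (∀ y ∈ BB, pt T s x0 y ∈ (T.glob L).U s) ∧ IsRiemannianOn (clM T H s x0) BB ∧
    (∀ a b, CKA (1 / 2) BB 4 K fun y => clM T H s x0 y a b) ∧
    (∀ y ∈ BB, Ell K⁻¹ K (clM T H s x0 y)) ∧
    (∀ w, s = Sum.inr w → (∀ y ∈ BB, Ell 2⁻¹ 2 (clM T H s x0 y)) ∧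
      ∀ a b, CKA (1 / 2) BB 4 (K * T.wt γ L w x0) (TD.dv (clM T H s x0) a b)) ∧
    ∀ om : T.S → Tn 4 1, ∀ y ∈ BB, lapT (clM T H s x0) (clX T L om s x0) y =
      clY T (fun s => lapT (rt T L H s) (om s)) s x0 y

end Crest.Agent.N207.M

end
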