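import Crest.Agent.N207.M.Scl

/-!
# Row 207, X3 (helper50): the second layer of leaves
-/

set_option autoImplicit false

open scoped ContDiff ENNReal
open Metric Set Filter Topology MeasureTheory
open Crest.GeometryTopology.CoordMetric
open Crest.Agent.NLib.Ell Crest.Agent.N207.I Crest.Agent.N207.CB Crest.Agent.N207.N
  Crest.Agent.N207.Ga
open Crest.Agent.R238 (Ell)

noncomputable section

namespace Crest.Agent.N207.M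

/-- cell norm -/
def QC (k : ℕ) (N : ℝ) (o : Tn 4 1) : Prop := ∀ j, CKA (1 / 2) B1 k N fun y => o y ![j]

/-- `L²` norm on the doubled cell -/
def LB (S : ℝ) (o : Tn 4 1) : Prop :=
  ∀ j, IntegrableOn (fun y => o y ![j] ^ 2) BB ∧ ∫ y in BB, o y ![j] ^ 2 ≤ S ^ 2

/-- the linear field `A x` read in the neck cell with centre `x0` -/
def lin (A : E4 →L[ℝ] E4) (x0 : E4) : Tn 4 1 := fun y I =>
  (‖x0‖ / 8)⁻¹ * A (x0 + (‖x0‖ / 8) • y) (I 0)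

/-- **M2W**: `M2` without smallness -/
def M2W : Prop := ∀ (k : ℕ) (W : ℝ), ∃ C : ℝ, 0 < C ∧
  ∀ (U : Set E4) (G : MetricField 4) (o : Tn 4 1) (w Mo : ℝ), w ≤ W → IsRiemannianOn G U → SmT o U →
    (∀ a b, CKA (1 / 2) U (k + 2) w (TD.dv G a b)) → (∀ y ∈ U, Ell 2⁻¹ 2 (G y)) →
    (∀ j, CKA (1 / 2) U (k + 2) Mo fun y => o y ![j]) →
    ∀ j, CKA (1 / 2) U k (C * (w * Mo)) fun y => lapT G o y ![j] - lap0 (fun z => o z ![j]) y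

variable {M : Type*} (T : TD M)

/-- the integral for the metric `rt T L H` -/
abbrev mu (L : T.V → ℝ) (H : Fam T) (f : T.S → E4 → ℝ) : ℝ := (T.glob L).int T.χ (rt T L H) f

/-- `u` is a descendant of `v` (or `v`) -/
def Dsc (v u : T.V) : Prop := T.dep v ≤ T.dep u ∧ T.par^[T.dep u - T.dep v] u = v

/-- sections vanishing far out -/
def SecC (L : T.V → ℝ) (om : T.S → Tn 4 1) : Prop :=
  (T.glob L).Sec om ∧ ∃ R : ℝ, ∀ x : E4, R ≤ ‖x‖ → om (Sum.inr T.root) x = 0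

/-- `om` solves `Δ om = F`, `F` of size `N` -/
structure Sol (γ' : ℝ) (L : T.V → ℝ) (H : Fam T) (F om : T.S → Tn 4 1) (N : ℝ) : Prop where
  nn : 0 ≤ N
  secF : (T.glob L).Sec F
  yn : YN T γ' L N F
  sec : (T.glob L).Sec om
  eq : ∀ s, ∀ x ∈ (T.glob L).U s, lapT (rt T L H s) (om s) x = F s x

/-- **H4**: Hardy with constant `4` where the scale function varies -/
def H4 : Prop := ∀ (γ : ℝ) (C : ℕ → ℝ) (Λ σ : ℝ), 0 < γ → 2 ≤ Λ → |σ| < 2 →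
  ∃ θ A τ D l0 : ℝ, θ < 1 ∧ 0 ≤ D ∧ ∀ L, Lg T l0 L → ∃ l, Scf T L A τ D l ∧
    ∀ H, Cls T γ C Λ L H → ∀ U, SecC T L U →
      σ ^ 2 * mu T L H (fun s x => nsq (rt T L H s) (dT (l s)) x * nsq (rt T L H s) (U s) x) ≤
        θ * mu T L H fun s x => nsq (rt T L H s) (cov (rt T L H s) (U s)) x

/-- **WE**: the weighted energy estimate -/
def WE : Prop := ∀ (γ : ℝ) (C : ℕ → ℝ) (Λ σ : ℝ), 0 < γ → 2 ≤ Λ → |σ| < 2 →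
  ∃ Cw l0 : ℝ, 0 < Cw ∧ ∀ L H, Lg T l0 L → Cls T γ C Λ L H → ∀ om, SecC T L om →
    mu T L H (fun s x => Sk.rw T L s x ^ (2 * σ - 2) * nsq (rt T L H s) (om s) x) ≤
      Cw * mu T L H fun s x =>
        Sk.rw T L s x ^ (2 * σ + 2) * nsq (rt T L H s) (lapT (rt T L H s) (om s)) x

/-- **CX**: extraction of one cell from the weighted integral -/
def CX : Prop := ∀ (γ : ℝ) (C : ℕ → ℝ) (Λ q : ℝ), 2 ≤ Λ → ∃ Cx l0 : ℝ, 0 < Cx ∧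
  ∀ L H, Lg T l0 L → Cls T γ C Λ L H → ∀ om, SecC T L om → ∀ S : ℝ, 0 ≤ S →
    mu T L H (fun s x => Sk.rw T L s x ^ (2 * q - 6) * nsq (rt T L H s) (om s) x) ≤ S ^ 2 →
    ∀ s, ∀ x0 ∈ T.gK L s, LB (Cx * S * Sk.rw T L s x0 ^ (-q)) (clX T L om s x0)

/-- **FL**: far cells of a finite energy section -/
def FL : Prop := ∀ (γ : ℝ) (C : ℕ → ℝ) (Λ : ℝ) (L : T.V → ℝ) (H : Fam T) (om : T.S → Tn 4 1),
  T.Long L → Cls T γ C Λ L H → (T.glob L).Sec om → N.En T L (rt T L H) om < ⊤ →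
    ∃ E0 : ℝ, 0 ≤ E0 ∧ ∀ x0 : E4, 8 ≤ ‖x0‖ → LB (E0 / ‖x0‖ ^ 2) (clX T L om (Sum.inr T.root) x0)

/-- **RB**: the weighted integral of a pointwise bounded source -/
def RB : Prop := ∀ (γ : ℝ) (C : ℕ → ℝ) (Λ q δ : ℝ), 2 ≤ Λ → 0 < δ → ∃ Cr : ℝ, 0 < Cr ∧
  ∀ L H, T.Long L → Cls T γ C Λ L H → ∀ (E : T.S → Tn 4 1) (B : ℝ), 0 ≤ B →
    (∀ s, ∀ x ∈ T.gK L s, ∀ j,
      Sk.rw T L s x ^ q * |clY T E s x 0 ![j]| ≤ B * kap T δ L s x) →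
    mu T L H (fun s x => Sk.rw T L s x ^ (2 * q - 2) * nsq (rt T L H s) (E s) x) ≤ (Cr * B) ^ 2

/-- **CE**: the interior estimate in the cells -/
def CE : Prop := ∀ (γ γ' : ℝ) (C : ℕ → ℝ) (Λ : ℝ), 0 < γ' → γ' ≤ γ → γ ≤ 1 → 2 ≤ Λ →
  ∃ Ce l0 : ℝ, 0 < Ce ∧ ∀ L H F om N, Lg T l0 L → Cls T γ C Λ L H → Sol T γ' L H F om N →
    (∀ s, ∀ x0 ∈ T.gK L s, ∀ S : ℝ, 0 ≤ S → LB S (clX T L om s x0) →
      QC 4 (Ce * (N * kap T γ' L s x0 + S)) (clX T L om s x0)) ∧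
    ∀ w, ∀ x0 ∈ T.gK L (Sum.inr w), ∀ (A : E4 →L[ℝ] E4) (S : ℝ), 0 ≤ S →
      LB S (clX T L om (Sum.inr w) x0 - lin A x0) →
      QC 4 (Ce * ((N + ‖A‖) * T.wt γ' L w x0 + S)) (clX T L om (Sum.inr w) x0 - lin A x0)

/-- **NC**: neck decay in the cells -/
def NC : Prop := ∀ (γ γ' : ℝ) (C : ℕ → ℝ) (Λ : ℝ), 0 < γ' → γ' ≤ 1 / 2 → 0 < γ → γ ≤ 1 → 2 ≤ Λ →
  ∃ Cn : ℝ, 0 < Cn ∧ ∀ L H F om N, T.Long L → Cls T γ C Λ L H → Sol T γ' L H F om N →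
    ∀ (w : T.V) (b P Q : ℝ) (m : E4 → ℝ), 3 ≤ b →
      (w ≠ T.root → b ≤ 3 / 4 * T.r * Real.exp (L w)) → 0 ≤ P → 0 ≤ Q →
      (∀ x ∈ Hd.An (3 / 2) b, QC 4 (m x) (clX T L om (Sum.inr w) x) ∧
        N * T.wt γ' L w x + T.wt γ L w x * m x ≤ prof (3 / 2) b γ' P Q ‖x‖ ∧
        (‖x‖ = 3 / 2 → m x ≤ Q) ∧ (‖x‖ = b → m x ≤ P)) →
      ∃ A : E4 →L[ℝ] E4, (∀ g ∈ T.Γ w, ∀ v, A (g v) = g (A v)) ∧
        ‖A‖ ≤ Cn * prof (3 / 2) b γ' P Q b ∧ ∀ x0 : E4, 8 ≤ ‖x0‖ → ‖x0‖ ≤ 4 / 5 * b →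
          LB (Cn * prof (3 / 2) b γ' P Q ‖x0‖) (clX T L om (Sum.inr w) x0 - lin A x0)

/-- **CT**: cutting `om` at the radius `R` of the neck `v` -/
def CT : Prop := ∀ (γ : ℝ) (C : ℕ → ℝ) (Λ : ℝ), 0 < γ → γ ≤ 1 → 2 ≤ Λ → ∃ Ct : ℝ, 0 < Ct ∧
  ∀ L H om, T.Long L → Cls T γ C Λ L H → (T.glob L).Sec om →
    ∀ (v : T.V) (A : E4 →L[ℝ] E4) (R Mo : ℝ), (∀ g ∈ T.Γ v, ∀ x, A (g x) = g (A x)) → 16 ≤ R →
      (v ≠ T.root → 2 * R ≤ T.r / 4 * Real.exp (L v)) →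
      (∀ x : E4, R ≤ ‖x‖ → ‖x‖ ≤ 2 * R → QC 2 Mo (clX T L om (Sum.inr v) x - lin A x)) →
      ∃ V, SecC T L V ∧
        (∀ s, s ≠ Sum.inr v → (Dsc T v (T.un s) → V s = om s) ∧ (¬ Dsc T v (T.un s) → V s = 0)) ∧
        (∀ x0 : E4, 3 / 2 ≤ ‖x0‖ → ‖x0‖ ≤ 4 / 5 * R → ∀ y ∈ BB, ∀ j,
          |clX T L V (Sum.inr v) x0 y ![j] - clX T L om (Sum.inr v) x0 y ![j]| ≤ Ct * ‖A‖) ∧
        ∀ x ∈ T.gK L (Sum.inr v), ∀ j,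
          (‖x‖ < R → |clY T (fun s => lapT (rt T L H s) (V s)) (Sum.inr v) x 0 ![j] -
            clY T (fun s => lapT (rt T L H s) (om s)) (Sum.inr v) x 0 ![j]| ≤
              Ct * (‖A‖ * T.wt γ L v x)) ∧
          (R ≤ ‖x‖ → ‖x‖ ≤ 2 * R →
            |clY T (fun s => lapT (rt T L H s) (V s)) (Sum.inr v) x 0 ![j]| ≤ Ct * Mo) ∧
          (2 * R < ‖x‖ → clY T (fun s => lapT (rt T L H s) (V s)) (Sum.inr v) x 0 ![j] = 0)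

end Crest.Agent.N207.M

end
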