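import Crest.Agent.N207.I.Car3
import Crest.Agent.Lib.ODEFlow

/-!
# Row 207, block M (helper52): transitions of an atlas and the averaged flat connection

* `tr_uniq`, `tr_inv`: transitions are unique up to the deck group and have invertible derivative;
* `acc A χ s y v`: the acceleration of the connection `∑ χ a • (flat connection of the chart a)`;
* `acc_sm`, `acc_nat`: smoothness and naturality.
-/

set_option autoImplicit false

open scoped ContDiff Topology
open Set Filter Metric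

noncomputable section

namespace Crest.Agent.N207.M

open Crest.Agent.N207.I

variable {X : Type*} {α : Type} {A : Atl X α}

/-- two nearby points of a chart with the same image are equal -/
theorem near_eq (h : A.Ok) {a : α} {x : E4} (hx : x ∈ A.U a) :
    ∀ᶠ p : E4 × E4 in 𝓝 (x, x), A.c a p.1 = A.c a p.2 → p.1 = p.2 := by
  have := h.fin a
  have h1 : ∀ γ : A.Γ a, ∀ᶠ p : E4 × E4 in 𝓝 (x, x), γ.1 p.1 = p.2 → p.1 = p.2 := by
    intro γ
    by_cases e : γ.1 x = x
    · have : γ.1 = 1 := h.free a γ.1 γ.2 x hx e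
      exact Eventually.of_forall fun p hp => by rw [this] at hp; exact hp
    · have hc : Continuous fun p : E4 × E4 => γ.1 p.1 - p.2 :=
        (γ.1.continuous.comp continuous_fst).sub continuous_snd
      have : ∀ᶠ p : E4 × E4 in 𝓝 (x, x), γ.1 p.1 - p.2 ≠ 0 :=
        hc.continuousAt.eventually_ne (sub_ne_zero.2 e)
      filter_upwards [this] with p hp e'
      exact absurd (sub_eq_zero.2 e') hp
  have h2 : ∀ᶠ p : E4 × E4 in 𝓝 (x, x), p.1 ∈ A.U a ∧ p.2 ∈ A.U a :=
    (continuous_fst.continuousAt.eventually ((h.isOpen a).mem_nhds hx)).and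
      (continuous_snd.continuousAt.eventually ((h.isOpen a).mem_nhds hx))
  filter_upwards [eventually_all.2 h1, h2] with p hp hU e
  obtain ⟨γ, hγ, e'⟩ := (h.fib a _ hU.1 _ hU.2).1 e
  exact hp ⟨γ, hγ⟩ e'

/-- two continuous lifts which agree at a point agree near it -/
theorem lift_eq (h : A.Ok) {Y : Type*} {l : Filter Y} {a : α} {x : E4} (hx : x ∈ A.U a)
    {p q : Y → E4} (hp : Tendsto p l (𝓝 x)) (hq : Tendsto q l (𝓝 x)) :
    ∀ᶠ y in l, A.c a (p y) = A.c a (q y) → p y = q y :=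
  (hp.prodMk_nhds hq).eventually (near_eq h hx)

theorem tr_cont {a b : α} {x : E4} {F : E4 → E4} (t : A.Tr a b x F) : ContinuousAt F x :=
  t.sm.self_of_nhds.continuousAt

theorem tr_ev (h : A.Ok) {a b : α} {x : E4} {F : E4 → E4} (t : A.Tr a b x F) :
    ∀ᶠ z in 𝓝 x, A.Tr a b z F := by
  filter_upwards [(h.isOpen a).mem_nhds t.mem, (tr_cont t).eventually ((h.isOpen b).mem_nhds t.mem'),
    t.sm.eventually_nhds, t.eq.eventually_nhds] with z h1 h2 h3 h4
  exact ⟨h1, h2, h3, h4⟩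

theorem tr_id {a : α} {x : E4} (hx : x ∈ A.U a) : A.Tr a a x id :=
  ⟨hx, hx, Eventually.of_forall fun _ => contDiffAt_id, Eventually.of_forall fun _ => rfl⟩

theorem tr_comp {a b c : α} {x : E4} {F G : E4 → E4} (t : A.Tr a b x F) (t' : A.Tr b c (F x) G) :
    A.Tr a c x (G ∘ F) := by
  refine ⟨t.mem, t'.mem', ?_, ?_⟩
  · filter_upwards [t.sm, (tr_cont t).eventually t'.sm] with z h1 h2
    exact h2.comp z h1
  · filter_upwards [t.eq, (tr_cont t).eventually t'.eq] with z h1 h2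
    exact h2.trans h1

/-- transitions with the same value have the same germ -/
theorem tr_eq (h : A.Ok) {a b : α} {x : E4} {F G : E4 → E4} (t : A.Tr a b x F) (t' : A.Tr a b x G)
    (e : F x = G x) : F =ᶠ[𝓝 x] G := by
  filter_upwards [lift_eq h t.mem' (tr_cont t) (e ▸ tr_cont t' : Tendsto G (𝓝 x) (𝓝 (F x))),
    t.eq, t'.eq] with z h1 h2 h3
  exact h1 (h2.trans h3.symm)

theorem tr_uniq (h : A.Ok) {a b : α} {x : E4} {F G : E4 → E4} (t : A.Tr a b x F)
    (t' : A.Tr a b x G) : ∃ γ ∈ A.Γ b, G =ᶠ[𝓝 x] γ ∘ F := by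
  obtain ⟨γ, hγ, e⟩ := (h.fib b _ t.mem' _ t'.mem').1
    (t.eq.self_of_nhds.trans t'.eq.self_of_nhds.symm)
  exact ⟨γ, hγ, tr_eq h t' (tr_comp t (h.tr_iso hγ t.mem')) e.symm⟩

theorem tr_symm (h : A.Ok) {a b : α} {x : E4} {F : E4 → E4} (t : A.Tr a b x F) :
    ∃ G, A.Tr b a (F x) G ∧ G (F x) = x ∧ (G ∘ F) =ᶠ[𝓝 x] id ∧ (F ∘ G) =ᶠ[𝓝 (F x)] id := by
  obtain ⟨G, t', e⟩ := h.loc b a _ t.mem' _ t.mem t.eq.self_of_nhds
  refine ⟨G, t', e, tr_eq h (tr_comp t t') (tr_id t.mem) e,
    tr_eq h (tr_comp t' (e.symm ▸ t)) (tr_id t.mem') ?_⟩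
  simp [e]

theorem tr_diff {a b : α} {x : E4} {F : E4 → E4} (t : A.Tr a b x F) : DifferentiableAt ℝ F x :=
  t.sm.self_of_nhds.differentiableAt (by simp)

theorem tr_inv (h : A.Ok) {a b : α} {x : E4} {F : E4 → E4} (t : A.Tr a b x F) :
    (fderiv ℝ F x).IsInvertible := by
  obtain ⟨G, t', e, h1, h2⟩ := tr_symm h t
  have e1 : (fderiv ℝ G (F x)).comp (fderiv ℝ F x) = ContinuousLinearMap.id ℝ E4 := by
    rw [← fderiv_comp x (tr_diff t') (tr_diff t), h1.fderiv_eq, fderiv_id]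
  have e2 : (fderiv ℝ F x).comp (fderiv ℝ G (F x)) = ContinuousLinearMap.id ℝ E4 := by
    have := fderiv_comp (F x) (e.symm ▸ tr_diff t : DifferentiableAt ℝ F (G (F x))) (tr_diff t')
    rw [e] at this
    rw [← this, h2.fderiv_eq, fderiv_id]
  exact ContinuousLinearMap.IsInvertible.of_inverse e2 e1

/-- second derivative in the direction `v` -/
def d2 (F : E4 → E4) (y v : E4) : E4 := fderiv ℝ (fderiv ℝ F) y v v

/-- the Christoffel term of the pull-back of the flat connection -/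
def cnF (F : E4 → E4) (y v : E4) : E4 := (fderiv ℝ F y).inverse (d2 F y v)

theorem d2_congr {F G : E4 → E4} {y : E4} (e : F =ᶠ[𝓝 y] G) (v : E4) : d2 F y v = d2 G y v := by
  unfold d2
  rw [e.fderiv.fderiv_eq]

theorem cnF_congr {F G : E4 → E4} {y : E4} (e : F =ᶠ[𝓝 y] G) (v : E4) :
    cnF F y v = cnF G y v := by
  unfold cnF
  rw [d2_congr e, e.fderiv_eq]

theorem d2_comp {F G : E4 → E4} {y : E4} (hF : ContDiffAt ℝ ∞ F y) (hG : ContDiffAt ℝ ∞ G (F y))
    (v : E4) : d2 (G ∘ F) y v = d2 G (F y) (fderiv ℝ F y v) + fderiv ℝ G (F y) (d2 F y v) := by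
  have hF2 : ContDiffAt ℝ 2 F y := hF.of_le (by norm_cast)
  have hG2 : ContDiffAt ℝ 2 G (F y) := hG.of_le (by norm_cast)
  have dF : DifferentiableAt ℝ F y := hF2.differentiableAt (by norm_num)
  have dF' : DifferentiableAt ℝ (fderiv ℝ F) y :=
    (hF2.fderiv_right (m := 1) (by norm_num)).differentiableAt (by norm_num)
  have dG' : DifferentiableAt ℝ (fderiv ℝ G) (F y) :=
    (hG2.fderiv_right (m := 1) (by norm_num)).differentiableAt (by norm_num)
  have e : fderiv ℝ (G ∘ F) =ᶠ[𝓝 y] fun z => (fderiv ℝ G (F z)).comp (fderiv ℝ F z) := by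
    filter_upwards [hF2.eventually (by simp),
      hF2.continuousAt.eventually (hG2.eventually (by simp))] with z h1 h2
    exact fderiv_comp z (h2.differentiableAt (by norm_num)) (h1.differentiableAt (by norm_num))
  unfold d2
  have e2 := ((dG'.hasFDerivAt.comp y dF.hasFDerivAt).clm_comp dF'.hasFDerivAt).fderiv
  simp only [Function.comp_apply] at e2
  rw [e.fderiv_eq, e2]
  simp [add_comm]

theorem d2_clm (L : E4 →L[ℝ] E4) (y v : E4) : d2 L y v = 0 := by
  have : fderiv ℝ L = fun _ => L := funext fun _ => L.fderiv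
  simp [d2, this]

theorem cnF_nat {F G : E4 → E4} {y : E4} (hF : ContDiffAt ℝ ∞ F y) (hG : ContDiffAt ℝ ∞ G (F y))
    (iF : (fderiv ℝ F y).IsInvertible) (iG : (fderiv ℝ G (F y)).IsInvertible) (v : E4) :
    fderiv ℝ F y (cnF (G ∘ F) y v) = cnF G (F y) (fderiv ℝ F y v) + d2 F y v := by
  have e := fderiv_comp y (hG.differentiableAt (by simp)) (hF.differentiableAt (by simp))
  apply iG.injective
  have i2 : (fderiv ℝ (G ∘ F) y).IsInvertible := e ▸ iG.comp iF
  have e1 : fderiv ℝ (G ∘ F) y (cnF (G ∘ F) y v) = d2 (G ∘ F) y v := by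
    unfold cnF
    exact i2.self_apply_inverse _
  rw [d2_comp hF hG, e] at e1
  rw [map_add]
  unfold cnF at *
  rw [iG.self_apply_inverse]
  simpa [e] using e1

theorem cnF_tr (h : A.Ok) {a b : α} {x : E4} {F G : E4 → E4} (t : A.Tr a b x F)
    (t' : A.Tr a b x G) (v : E4) : cnF G x v = cnF F x v := by
  obtain ⟨γ, hγ, e⟩ := tr_uniq h t t'
  have t2 := h.tr_iso hγ t.mem'
  rw [cnF_congr e]
  apply (tr_inv h t).injective
  rw [cnF_nat t.sm.self_of_nhds t2.sm.self_of_nhds (tr_inv h t) (tr_inv h t2)]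
  have : cnF γ (F x) (fderiv ℝ F x v) = 0 := by
    have := d2_clm (γ.toContinuousLinearEquiv : E4 →L[ℝ] E4) (F x) (fderiv ℝ F x v)
    unfold cnF
    rw [show d2 γ (F x) (fderiv ℝ F x v) = 0 from this, map_zero]
  rw [this, zero_add]
  unfold cnF
  exact ((tr_inv h t).self_apply_inverse _).symm

theorem cnF_sm {F : E4 → E4} {y : E4} (hF : ContDiffAt ℝ ∞ F y)
    (iF : (fderiv ℝ F y).IsInvertible) (v : E4) :
    ContDiffAt ℝ ∞ (fun p : E4 × E4 => cnF F p.1 p.2) (y, v) := by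
  have h1 : ContDiffAt ℝ ∞ (fderiv ℝ F) y := hF.fderiv_right (by simp)
  have h2 : ContDiffAt ℝ ∞ (fderiv ℝ (fderiv ℝ F)) y := h1.fderiv_right (by simp)
  have h3 : ContDiffAt ℝ ∞ (fun z => (fderiv ℝ F z).inverse) y :=
    (iF.contDiffAt_map_inverse (n := ∞)).comp y h1
  exact (h3.comp (y, v) contDiffAt_fst).clm_apply
    (((h2.comp (y, v) contDiffAt_fst).clm_apply contDiffAt_snd).clm_apply contDiffAt_snd)

theorem cnF_smul (F : E4 → E4) (y v : E4) (t : ℝ) : cnF F y (t • v) = t ^ 2 • cnF F y v := by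
  simp [cnF, d2, smul_smul, sq]

open Classical in
/-- the Christoffel term of the flat connection of the chart `a`, read in the chart `s` -/
def cn (A : Atl X α) (s a : α) (y v : E4) : E4 :=
  if h : ∃ F, A.Tr s a y F then cnF h.choose y v else 0

theorem cn_eq (h : A.Ok) {s a : α} {y : E4} {F : E4 → E4} (t : A.Tr s a y F) (v : E4) :
    cn A s a y v = cnF F y v := by
  have h1 : ∃ F, A.Tr s a y F := ⟨F, t⟩
  rw [cn, dif_pos h1, cnF_tr h t h1.choose_spec]

theorem cn_smul (s a : α) (y v : E4) (t : ℝ) : cn A s a y (t • v) = t ^ 2 • cn A s a y v := by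
  unfold cn
  split_ifs
  · exact cnF_smul _ _ _ _
  · simp

variable [Fintype α] {χ : α → X → ℝ} {K : α → Set E4}

/-- the acceleration of the geodesics -/
def acc (A : Atl X α) (χ : α → X → ℝ) (s : α) (y v : E4) : E4 :=
  -∑ a, χ a (A.c s y) • cn A s a y v

theorem acc_smul (s : α) (y v : E4) (t : ℝ) : acc A χ s y (t • v) = t ^ 2 • acc A χ s y v := by
  simp only [acc, cn_smul, smul_neg, Finset.smul_sum, smul_comm (t ^ 2)]

theorem acc_zero (s : α) (y : E4) : acc A χ s y 0 = 0 := by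
  simpa using acc_smul (A := A) (χ := χ) s y 0 0

theorem acc_sm (h : A.Ok) (hp : A.PoU χ K) {s : α} {y : E4} (hy : y ∈ A.U s) (v : E4) :
    ContDiffAt ℝ ∞ (fun p : E4 × E4 => acc A χ s p.1 p.2) (y, v) := by
  refine ContDiffAt.neg (ContDiffAt.sum fun a _ => ?_)
  by_cases e : A.c s y ∈ A.c a '' K a
  · obtain ⟨x, hx, e⟩ := e
    obtain ⟨F, t, -⟩ := h.loc s a y hy x (hp.sub a hx) e.symm
    refine ContDiffAt.smul ((((hp.sm a) s).contDiffAt ((h.isOpen s).mem_nhds hy)).comp (y, v)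
      contDiffAt_fst) ((cnF_sm t.sm.self_of_nhds (tr_inv h t) v).congr_of_eventuallyEq ?_)
    filter_upwards [(continuous_fst.continuousAt (x := (y, v))).eventually (tr_ev h t)] with p hp
    exact cn_eq h hp _
  · refine (contDiffAt_const (c := 0)).congr_of_eventuallyEq ?_
    filter_upwards [(continuous_fst.continuousAt (x := (y, v))).eventually
      ((hp.cl a s y hy e).and ((h.isOpen s).mem_nhds hy))] with p hq
    have : χ a (A.c s p.1) = 0 := by
      by_contra h0
      exact hq.1 (hp.supp a s _ hq.2 h0)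
    simp [this]

theorem acc_nat (h : A.Ok) (hp : A.PoU χ K) {s b : α} {y : E4} {H : E4 → E4} (t : A.Tr s b y H)
    (v : E4) : acc A χ b (H y) (fderiv ℝ H y v) = fderiv ℝ H y (acc A χ s y v) + d2 H y v := by
  have e0 : A.c b (H y) = A.c s y := t.eq.self_of_nhds
  have e1 : ∀ a, χ a (A.c s y) • fderiv ℝ H y (cn A s a y v) =
      χ a (A.c s y) • (cn A b a (H y) (fderiv ℝ H y v) + d2 H y v) := by
    intro a
    by_cases h0 : χ a (A.c s y) = 0
    · simp [h0]
    obtain ⟨x, hx, e⟩ := hp.supp a s y t.mem h0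
    obtain ⟨F, t', -⟩ := h.loc b a (H y) t.mem' x (hp.sub a hx) (e0.trans e.symm)
    rw [cn_eq h (tr_comp t t'), cn_eq h t',
      cnF_nat t.sm.self_of_nhds t'.sm.self_of_nhds (tr_inv h t) (tr_inv h t')]
  simp only [acc, map_neg, map_sum, map_smul, e1, smul_add, Finset.sum_add_distrib,
    ← Finset.sum_smul, hp.sum s y t.mem, one_smul, e0]
  abel

/-- where `χ s = 1` the connection vanishes in the chart `s` -/
theorem acc_flat [DecidableEq α] (h : A.Ok) {s : α} {y : E4} (hy : y ∈ A.U s)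
    (h1 : ∀ a, χ a (A.c s y) = if a = s then 1 else 0) (v : E4) : acc A χ s y v = 0 := by
  have : cn A s s y v = 0 := by
    rw [cn_eq h (tr_id hy)]
    have := d2_clm (ContinuousLinearMap.id ℝ E4) y v
    unfold cnF
    rw [show d2 id y v = 0 from this, map_zero]
  simp [acc, h1, this]

end Crest.Agent.N207.M

end
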