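import Crest.Agent.N207.M.Ex1

/-!
# Row 207, block M (helper52): the local addition `ex` of an atlas

`ex A χ s (y, v)` is the time one point of the geodesic of the averaged flat connection, defined on
the open set `exD A χ s`.
-/

set_option autoImplicit false
set_option linter.unusedSectionVars false

open scoped ContDiff Topology
open Set Filter Metric

noncomputable section

namespace Crest.Agent.N207.M

open Crest.Agent.N207.I Crest.Agent.Lib.ODEFlow

variable {X : Type*} {α : Type} {A : Atl X α} [Fintype α] {χ : α → X → ℝ} {K : α → Set E4}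

/-- the spray -/
def spr (A : Atl X α) (χ : α → X → ℝ) (s : α) (p : E4 × E4) : E4 × E4 := (p.2, acc A χ s p.1 p.2)

/-- its domain -/
def sU (A : Atl X α) (s : α) : Set (E4 × E4) := A.U s ×ˢ univ

/-- the geodesic flow -/
def geo (A : Atl X α) (χ : α → X → ℝ) (s : α) (p : E4 × E4) (t : ℝ) : E4 × E4 :=
  flow (spr A χ s) (sU A s) (p, t)

/-- its domain -/
def geD (A : Atl X α) (χ : α → X → ℝ) (s : α) : Set ((E4 × E4) × ℝ) := dom (spr A χ s) (sU A s)

/-- the domain of the local addition -/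
def exD (A : Atl X α) (χ : α → X → ℝ) (s : α) : Set (E4 × E4) := {p | (p, (1 : ℝ)) ∈ geD A χ s}

/-- the local addition -/
def ex (A : Atl X α) (χ : α → X → ℝ) (s : α) (p : E4 × E4) : E4 := (geo A χ s p 1).1

theorem hd_fst {c : ℝ → E4 × E4} {p : E4 × E4} {t : ℝ} (h : HasDerivAt c p t) :
    HasDerivAt (fun r => (c r).1) p.1 t :=
  (ContinuousLinearMap.fst ℝ E4 E4).hasFDerivAt.comp_hasDerivAt t h

theorem hd_snd {c : ℝ → E4 × E4} {p : E4 × E4} {t : ℝ} (h : HasDerivAt c p t) :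
    HasDerivAt (fun r => (c r).2) p.2 t :=
  (ContinuousLinearMap.snd ℝ E4 E4).hasFDerivAt.comp_hasDerivAt t h

theorem sU_open (h : A.Ok) (s : α) : IsOpen (sU A s) := (h.isOpen s).prod isOpen_univ

theorem spr_sm (h : A.Ok) (hp : A.PoU χ K) (s : α) : ContDiffOn ℝ ∞ (spr A χ s) (sU A s) :=
  fun p hp' => (contDiffAt_snd.prodMk (acc_sm h hp hp'.1 p.2)).contDiffWithinAt

theorem spr_sm1 (h : A.Ok) (hp : A.PoU χ K) (s : α) : ContDiffOn ℝ 1 (spr A χ s) (sU A s) :=
  (spr_sm h hp s).of_le (by simp)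

theorem geD_open (h : A.Ok) (hp : A.PoU χ K) (s : α) : IsOpen (geD A χ s) :=
  isOpen_dom (sU_open h s) (spr_sm1 h hp s)

theorem exD_open (h : A.Ok) (hp : A.PoU χ K) (s : α) : IsOpen (exD A χ s) :=
  (geD_open h hp s).preimage (by fun_prop)

theorem exD_mem {s : α} {p : E4 × E4} (hp : p ∈ exD A χ s) : p.1 ∈ A.U s :=
  (mem_of_mem_dom hp).1

theorem ex_sm (h : A.Ok) (hp : A.PoU χ K) (s : α) : ContDiffOn ℝ ∞ (ex A χ s) (exD A χ s) := by
  have h1 := contDiffOn_flow (n := ⊤) le_top (sU_open h s) (spr_sm h hp s)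
  exact contDiffOn_fst.comp (t := univ) (h1.comp (f := fun p : E4 × E4 => (p, (1 : ℝ)))
    (by fun_prop) fun p hp => hp) fun _ _ => mem_univ _

theorem ex_cda (h : A.Ok) (hp : A.PoU χ K) {s : α} {p : E4 × E4} (hq : p ∈ exD A χ s) :
    ContDiffAt ℝ ∞ (ex A χ s) p := (ex_sm h hp s).contDiffAt ((exD_open h hp s).mem_nhds hq)

theorem geo_mem (h : A.Ok) (hp : A.PoU χ K) {s : α} {p : E4 × E4} {t : ℝ}
    (hq : (p, t) ∈ geD A χ s) : (geo A χ s p t).1 ∈ A.U s :=
  (flow_mem (sU_open h s) (spr_sm1 h hp s) hq).1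

theorem ex_mem (h : A.Ok) (hp : A.PoU χ K) {s : α} {p : E4 × E4} (hq : p ∈ exD A χ s) :
    ex A χ s p ∈ A.U s := geo_mem h hp hq

theorem geo_der (h : A.Ok) (hp : A.PoU χ K) {s : α} {p : E4 × E4} {t : ℝ}
    (hq : (p, t) ∈ geD A χ s) : HasDerivAt (geo A χ s p) (spr A χ s (geo A χ s p t)) t :=
  hasDerivAt_flow (sU_open h s) (spr_sm1 h hp s) hq

theorem geo_zero (h : A.Ok) (hp : A.PoU χ K) {s : α} {p : E4 × E4} (hq : p.1 ∈ A.U s) :
    geo A χ s p 0 = p := flow_zero (sU_open h s) (spr_sm1 h hp s) ⟨hq, mem_univ _⟩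

/-- a curve solving the geodesic equation on `[0, 1]` computes `ex` -/
theorem ex_of_curve (h : A.Ok) (hp : A.PoU χ K) {s : α} {c : ℝ → E4 × E4}
    (hc : ∀ t ∈ Icc (0 : ℝ) 1, (c t).1 ∈ A.U s)
    (hd : ∀ t ∈ Icc (0 : ℝ) 1, HasDerivAt c (spr A χ s (c t)) t) :
    c 0 ∈ exD A χ s ∧ ex A χ s (c 0) = (c 1).1 := by
  have := flow_of_integralCurve' (sU_open h s) (spr_sm1 h hp s) (c := c) (l := 1) rfl
    (fun t ht => ⟨hc t (by simpa using ht), mem_univ _⟩) fun t ht => hd t (by simpa using ht)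
  exact ⟨this.1, congrArg Prod.fst this.2⟩

theorem ex_smul (h : A.Ok) (hp : A.PoU χ K) {s : α} {y v : E4} {θ : ℝ}
    (hq : ((y, v), θ) ∈ geD A χ s) :
    (y, θ • v) ∈ exD A χ s ∧ ex A χ s (y, θ • v) = (geo A χ s (y, v) θ).1 := by
  have hy : y ∈ A.U s := (mem_of_mem_dom hq).1
  have hm : ∀ t ∈ Icc (0 : ℝ) 1, ((y, v), t * θ) ∈ geD A χ s := fun t ht => mul_mem_dom hq ht
  have := ex_of_curve h hp (s := s)
    (c := fun t => ((geo A χ s (y, v) (t * θ)).1, θ • (geo A χ s (y, v) (t * θ)).2))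
    (fun t ht => geo_mem h hp (hm t ht)) fun t ht => by
      have h1 : HasDerivAt (fun r => geo A χ s (y, v) (r * θ)) _ t :=
        HasDerivAt.scomp (g₁ := geo A χ s (y, v)) (h := fun r => r * θ) t (geo_der h hp (hm t ht))
          ((hasDerivAt_id t).mul_const θ)
      refine ((hd_fst h1).prodMk ((hd_snd h1).const_smul θ)).congr_deriv ?_
      simp [spr, acc_smul, smul_smul, sq]
  simpa [geo_zero h hp (p := (y, v)) hy] using this

theorem zero_mem_exD (h : A.Ok) (hp : A.PoU χ K) {s : α} {y : E4} (hy : y ∈ A.U s) :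
    (y, (0 : E4)) ∈ exD A χ s ∧ ex A χ s (y, 0) = y := by
  have := ex_smul h hp (s := s) (y := y) (v := 0) (θ := 0) (mem_dom_zero ⟨hy, mem_univ _⟩)
  rw [geo_zero h hp (p := (y, 0)) hy] at this
  simpa using this

theorem ex_zero (h : A.Ok) (hp : A.PoU χ K) {s : α} {y : E4} (hy : y ∈ A.U s) :
    ex A χ s (y, 0) = y := (zero_mem_exD h hp hy).2

/-- star-shaped domain -/
theorem exD_smul (h : A.Ok) (hp : A.PoU χ K) {s : α} {y v : E4} (hq : (y, v) ∈ exD A χ s) {θ : ℝ}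
    (hθ : θ ∈ Icc (0 : ℝ) 1) : (y, θ • v) ∈ exD A χ s :=
  (ex_smul h hp (mul_one θ ▸ mul_mem_dom hq hθ)).1

theorem ex_fderiv (h : A.Ok) (hp : A.PoU χ K) {s : α} {y : E4} (hy : y ∈ A.U s) (w v : E4) :
    fderiv ℝ (ex A χ s) (y, 0) (w, v) = w + v := by
  have hd : HasFDerivAt (ex A χ s) (fderiv ℝ (ex A χ s) (y, 0)) (y, 0) :=
    ((ex_cda h hp (zero_mem_exD h hp hy).1).differentiableAt (by simp)).hasFDerivAt
  have e1 : fderiv ℝ (ex A χ s) (y, 0) (w, 0) = w := by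
    have h1 : HasFDerivAt (fun z : E4 => ex A χ s (z, 0)) _ y :=
      HasFDerivAt.comp (g := ex A χ s) (f := fun z : E4 => (z, (0 : E4))) y hd
        (hasFDerivAt_prodMk_left y (0 : E4))
    have h2 : HasFDerivAt (fun z : E4 => ex A χ s (z, 0)) (ContinuousLinearMap.id ℝ E4) y :=
      (hasFDerivAt_id y).congr_of_eventuallyEq (by
        filter_upwards [(h.isOpen s).mem_nhds hy] with z hz
        exact ex_zero h hp hz)
    simpa using congrArg (fun L => L w) (h1.unique h2)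
  have e2 : fderiv ℝ (ex A χ s) (y, 0) (0, v) = v := by
    have h0 : ((y, v), (0 : ℝ)) ∈ geD A χ s := mem_dom_zero ⟨hy, mem_univ _⟩
    have h3 : HasDerivAt (fun t : ℝ => ((y, t • v) : E4 × E4)) (0, v) 0 := by
      simpa using (hasDerivAt_const (0 : ℝ) y).prodMk ((hasDerivAt_id (0 : ℝ)).smul_const v)
    have h1 : HasDerivAt (fun t : ℝ => ex A χ s (y, t • v))
        (fderiv ℝ (ex A χ s) (y, 0) (0, v)) 0 :=
      HasFDerivAt.comp_hasDerivAt_of_eq (l := ex A χ s) (hl := hd) (hf := h3) (hy := by simp)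
    have h2 : HasDerivAt (fun t : ℝ => ex A χ s (y, t • v)) v 0 := by
      have h4 := hd_fst (geo_der h hp h0)
      rw [geo_zero h hp (p := (y, v)) hy] at h4
      refine h4.congr_of_eventuallyEq ?_
      have hc : Continuous fun t : ℝ => (((y, v), t) : (E4 × E4) × ℝ) := by fun_prop
      filter_upwards [hc.continuousAt.eventually ((geD_open h hp s).mem_nhds h0)] with t ht
      exact (ex_smul h hp ht).2
    exact h1.unique h2
  rw [show ((w, v) : E4 × E4) = (w, 0) + (0, v) by simp, map_add, e1, e2]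

/-- straight segments where the connection vanishes -/
theorem ex_flat (h : A.Ok) (hp : A.PoU χ K) {s : α} {y v : E4}
    (hU : ∀ t ∈ Icc (0 : ℝ) 1, y + t • v ∈ A.U s)
    (h0 : ∀ t ∈ Icc (0 : ℝ) 1, acc A χ s (y + t • v) v = 0) :
    (y, v) ∈ exD A χ s ∧ ex A χ s (y, v) = y + v := by
  have := ex_of_curve h hp (s := s) (c := fun t => (y + t • v, v)) hU fun t ht => by
    have := (((hasDerivAt_id t).smul_const v).const_add y).prodMk (hasDerivAt_const t v)
    simpa [spr, h0 t ht] using this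
  simpa using this

/-- the image of a geodesic under a transition -/
theorem tr_der (h : A.Ok) (hp : A.PoU χ K) {s b : α} {c : ℝ → E4 × E4} {t : ℝ} {F : E4 → E4}
    (tF : A.Tr s b (c t).1 F) (hc : HasDerivAt c (spr A χ s (c t)) t) :
    HasDerivAt (fun r => (F (c r).1, fderiv ℝ F (c r).1 (c r).2))
      (spr A χ b (F (c t).1, fderiv ℝ F (c t).1 (c t).2)) t := by
  have h1 : HasFDerivAt (fderiv ℝ F) (fderiv ℝ (fderiv ℝ F) (c t).1) (c t).1 :=
    ((tF.sm.self_of_nhds.fderiv_right (m := 1) (by norm_cast)).differentiableAt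
      one_ne_zero).hasFDerivAt
  have h2 : HasDerivAt (fun r => F (c r).1) (fderiv ℝ F (c t).1 (c t).2) t :=
    HasFDerivAt.comp_hasDerivAt (l := F) t (tr_diff tF).hasFDerivAt (hd_fst hc)
  have h3 : HasDerivAt (fun r => fderiv ℝ F (c r).1) (fderiv ℝ (fderiv ℝ F) (c t).1 (c t).2) t :=
    HasFDerivAt.comp_hasDerivAt (l := fderiv ℝ F) t h1 (hd_fst hc)
  have h4 : HasDerivAt (fun r => fderiv ℝ F (c r).1 (c r).2)
      (acc A χ b (F (c t).1) (fderiv ℝ F (c t).1 (c t).2)) t := by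
    rw [acc_nat h hp tF, add_comm]
    exact h3.clm_apply (hd_snd hc)
  exact h2.prodMk h4

/-- geodesics read in two charts agree -/
theorem geo_compat (h : A.Ok) (hp : A.PoU χ K) {s b : α} {y v : E4} {H : E4 → E4}
    (tH : A.Tr s b y H) {l : ℝ} (hl : 0 ≤ l) (h1 : ((y, v), l) ∈ geD A χ s)
    (h2 : ((H y, fderiv ℝ H y v), l) ∈ geD A χ b) :
    ∃ F, A.Tr s b (geo A χ s (y, v) l).1 F ∧ geo A χ b (H y, fderiv ℝ H y v) l =
      (F (geo A χ s (y, v) l).1,
        fderiv ℝ F (geo A χ s (y, v) l).1 (geo A χ s (y, v) l).2) := by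
  set c := geo A χ s (y, v) with hc
  set c' := geo A χ b (H y, fderiv ℝ H y v) with hc'
  have m1 : ∀ t ∈ Icc 0 l, ((y, v), t) ∈ geD A χ s := fun t ht =>
    mem_dom_of_uIcc h1 (by rwa [uIcc_of_le hl])
  have m2 : ∀ t ∈ Icc 0 l, ((H y, fderiv ℝ H y v), t) ∈ geD A χ b := fun t ht =>
    mem_dom_of_uIcc h2 (by rwa [uIcc_of_le hl])
  let S : Set ℝ := {t | ∃ F, A.Tr s b (c t).1 F ∧ c' t = (F (c t).1, fderiv ℝ F (c t).1 (c t).2)}
  have hcl : IsClosed (S ∩ Icc 0 l) := by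
    rw [← closure_subset_iff_isClosed]
    intro t ht
    have htI : t ∈ Icc 0 l := closure_minimal inter_subset_right isClosed_Icc ht
    refine ⟨?_, htI⟩
    have fr : ∃ᶠ r in 𝓝 t, r ∈ S := (mem_closure_iff_frequently.1 ht).mono fun r hr => hr.1
    have c1 := (geo_der h hp (m1 t htI)).continuousAt
    have c2 := (geo_der h hp (m2 t htI)).continuousAt
    have e : A.c s (c t).1 = A.c b (c' t).1 := by
      by_contra e
      have := (c1.fst.prodMk c2.fst).eventually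
        (h.t2 s b _ (geo_mem h hp (m1 t htI)) _ (geo_mem h hp (m2 t htI)) e)
      obtain ⟨r, ⟨F, tF, eF⟩, hr⟩ := (fr.and_eventually this).exists
      exact hr (by rw [← hc, ← hc', eF]; exact tF.eq.self_of_nhds.symm)
    obtain ⟨F, tF, eF⟩ := h.loc s b _ (geo_mem h hp (m1 t htI)) _ (geo_mem h hp (m2 t htI)) e
    refine ⟨F, tF, ?_⟩
    have c3 := (tr_der h hp tF (geo_der h hp (m1 t htI))).continuousAt
    refine tendsto_nhds_unique_of_frequently_eq c2 c3 ?_
    have c4 : Tendsto (fun r => (c' r).1) (𝓝 t) (𝓝 (F (c t).1)) := by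
      rw [eF]; exact c2.fst
    have l1 := lift_eq h tF.mem' c3.fst c4
    refine (fr.and_eventually (l1.and (c1.fst.eventually (tr_ev h tF)))).mono ?_
    rintro r ⟨⟨G, tG, eG⟩, h3, h4⟩
    have e3 : F (c r).1 = G (c r).1 := by
      have := h3 (by
        change A.c b (F (c r).1) = A.c b (c' r).1
        rw [eG]; exact h4.eq.self_of_nhds.trans tG.eq.self_of_nhds.symm)
      change F (c r).1 = (c' r).1 at this
      rw [this, eG]
    change c' r = _
    rw [eG, e3, (tr_eq h h4 tG e3).fderiv_eq]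
  have h0 : (0 : ℝ) ∈ S := by
    refine ⟨H, ?_⟩
    rw [hc, hc', geo_zero h hp (p := (y, v)) tH.mem, geo_zero h hp (p := (H y, _)) tH.mem']
    exact ⟨tH, rfl⟩
  refine hcl.Icc_subset_of_forall_mem_nhdsWithin h0 ?_ ⟨hl, le_rfl⟩
  rintro t ⟨⟨F, tF, eF⟩, ht⟩
  have htI : t ∈ Icc 0 l := ⟨ht.1, ht.2.le⟩
  refine mem_nhdsWithin_of_mem_nhds ?_
  have c1 := (geo_der h hp (m1 t htI)).continuousAt
  have o1 : ∀ᶠ r in 𝓝 t, ((y, v), r) ∈ geD A χ s :=
    (by fun_prop : Continuous fun r : ℝ => (((y, v), r) : (E4 × E4) × ℝ)).continuousAt.eventually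
      ((geD_open h hp s).mem_nhds (m1 t htI))
  have o2 : ∀ᶠ r in 𝓝 t, ((H y, fderiv ℝ H y v), r) ∈ geD A χ b :=
    (by fun_prop : Continuous fun r : ℝ =>
      (((H y, fderiv ℝ H y v), r) : (E4 × E4) × ℝ)).continuousAt.eventually
      ((geD_open h hp b).mem_nhds (m2 t htI))
  have o3 := c1.fst.eventually (tr_ev h tF)
  have hs : ContDiffAt ℝ 1 (spr A χ b) (c' t) :=
    (spr_sm1 h hp b).contDiffAt ((sU_open h b).mem_nhds ⟨geo_mem h hp (m2 t htI), mem_univ _⟩)
  obtain ⟨Kl, W, hW, hK⟩ := hs.exists_lipschitzOnWith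
  have c2 := (geo_der h hp (m2 t htI)).continuousAt
  have c3 := (tr_der h hp tF (geo_der h hp (m1 t htI))).continuousAt
  have hW' : W ∈ 𝓝 (F (c t).1, fderiv ℝ F (c t).1 (c t).2) := eF ▸ hW
  have u := ODE_solution_unique_of_eventually (v := fun _ => spr A χ b) (s := fun _ => W)
    (f := c') (g := fun r => (F (c r).1, fderiv ℝ F (c r).1 (c r).2)) (t₀ := t)
    (Eventually.of_forall fun _ => hK)
    ((o2.and (c2.eventually hW)).mono fun r hr => ⟨geo_der h hp hr.1, hr.2⟩)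
    (((o1.and o3).and (c3.eventually hW')).mono fun r hr =>
      ⟨tr_der h hp hr.1.2 (geo_der h hp hr.1.1), hr.2⟩) eF
  filter_upwards [u, o3] with r h3 h4
  exact ⟨F, h4, h3⟩

/-- compatibility of the local addition -/
theorem ex_compat (h : A.Ok) (hp : A.PoU χ K) {s b : α} {y v : E4} {H : E4 → E4}
    (tH : A.Tr s b y H) (h1 : (y, v) ∈ exD A χ s) (h2 : (H y, fderiv ℝ H y v) ∈ exD A χ b) :
    A.c b (ex A χ b (H y, fderiv ℝ H y v)) = A.c s (ex A χ s (y, v)) := by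
  obtain ⟨F, tF, e⟩ := geo_compat h hp tH zero_le_one h1 h2
  unfold ex
  rw [e]
  exact tF.eq.self_of_nhds

/-- the deck group acts on the domain -/
theorem ex_deck (h : A.Ok) (hp : A.PoU χ K) {s : α} {γ : Iso4} (hγ : γ ∈ A.Γ s) {y v : E4}
    (h1 : (y, v) ∈ exD A χ s) :
    (γ y, γ v) ∈ exD A χ s ∧ ex A χ s (γ y, γ v) = γ (ex A χ s (y, v)) := by
  have m1 : ∀ t ∈ Icc (0 : ℝ) 1, ((y, v), t) ∈ geD A χ s := fun t ht =>
    mul_one t ▸ mul_mem_dom h1 ht
  have fd : ∀ z, fderiv ℝ γ z = (γ.toContinuousLinearEquiv : E4 →L[ℝ] E4) := fun z =>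
    γ.toContinuousLinearEquiv.fderiv
  have := ex_of_curve h hp (s := s)
    (c := fun r => (γ (geo A χ s (y, v) r).1, fderiv ℝ γ (geo A χ s (y, v) r).1
      (geo A χ s (y, v) r).2)) (fun t ht => h.inv s γ hγ _ (geo_mem h hp (m1 t ht)))
    fun t ht => tr_der h hp (h.tr_iso hγ (geo_mem h hp (m1 t ht))) (geo_der h hp (m1 t ht))
  rw [geo_zero h hp (p := (y, v)) (exD_mem h1), fd] at this
  exact this

end Crest.Agent.N207.M

end
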