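import Crest.Agent.N207.M.Ex2
import Crest.Agent.N207.I.Car3

/-!
# Row 207, block M (helper52): the spray of a stretched atlas, transfer of geodesics
-/

set_option autoImplicit false
set_option linter.unusedSectionVars false

open scoped ContDiff Topology
open Set Filter Metric

noncomputable section

namespace Crest.Agent.N207.M

open Crest.Agent.N207.I Crest.Agent.Lib.ODEFlow

theorem d2_smul (c : ℝ) (y v : E4) : d2 (fun z : E4 => c • z) y v = 0 :=
  d2_clm (c • ContinuousLinearMap.id ℝ E4) y v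

theorem fderiv_smul' (c : ℝ) (y : E4) :
    fderiv ℝ (fun z : E4 => c • z) y = c • ContinuousLinearMap.id ℝ E4 :=
  (c • ContinuousLinearMap.id ℝ E4).fderiv

theorem inv_smul' {c : ℝ} (hc : c ≠ 0) (y : E4) :
    (fderiv ℝ (fun z : E4 => c • z) y).IsInvertible := by
  rw [fderiv_smul']
  exact ContinuousLinearMap.IsInvertible.of_inverse (g := c⁻¹ • ContinuousLinearMap.id ℝ E4)
    (by ext1 v; simp [smul_smul, hc]) (by ext1 v; simp [smul_smul, hc])

theorem cnF_scale {F : E4 → E4} {a b : ℝ} (ha : a ≠ 0) (hb : b ≠ 0) {y : E4}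
    (hF : ContDiffAt ℝ ∞ F (a • y)) (iF : (fderiv ℝ F (a • y)).IsInvertible) (v : E4) :
    cnF (fun z => b • F (a • z)) y v = a⁻¹ • cnF F (a • y) (a • v) := by
  have s1 : ∀ (c : ℝ) (z : E4), ContDiffAt ℝ ∞ (fun z : E4 => c • z) z := fun c z =>
    (contDiff_const_smul c).contDiffAt
  have e1 : ∀ u, cnF ((fun z : E4 => b • z) ∘ F) (a • y) u = cnF F (a • y) u := fun u => by
    apply iF.injective
    rw [cnF_nat hF (s1 b _) iF (inv_smul' hb _), cnF, d2_smul, map_zero, zero_add, cnF,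
      iF.self_apply_inverse]
  have i2 : (fderiv ℝ ((fun z : E4 => b • z) ∘ F) (a • y)).IsInvertible := by
    rw [fderiv_comp _ ((s1 b _).differentiableAt (by simp)) (hF.differentiableAt (by simp))]
    exact (inv_smul' hb _).comp iF
  have := cnF_nat (F := fun z : E4 => a • z) (G := (fun z : E4 => b • z) ∘ F) (y := y) (s1 a y)
    ((s1 b _).comp _ hF) (inv_smul' ha y) i2 v
  rw [d2_smul, add_zero, e1, fderiv_smul'] at this
  simp only [smul_apply, ContinuousLinearMap.id_apply] at this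
  rw [← this, inv_smul_smul₀ ha]
  rfl

section Gen

theorem norm_scale {F G : Type*} [NormedAddCommGroup F] [NormedSpace ℝ F] [NormedAddCommGroup G]
    [NormedSpace ℝ G] (Ψ : F → G) (q0 : F) {ρ c : ℝ} (hρ : 0 < ρ) (hc : 0 < c) (j : ℕ) (p : F) :
    ‖iteratedFDeriv ℝ j (fun p => c • Ψ (q0 + ρ • p)) p‖ ≤
      c * (ρ ^ j * ‖iteratedFDeriv ℝ j Ψ (q0 + ρ • p)‖) := by
  let e1 : F ≃L[ℝ] F := ContinuousLinearEquiv.equivOfInverse (ρ • ContinuousLinearMap.id ℝ F)
    (ρ⁻¹ • ContinuousLinearMap.id ℝ F) (fun v => by simp [smul_smul, hρ.ne'])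
    fun v => by simp [smul_smul, hρ.ne']
  let e2 : G ≃L[ℝ] G := ContinuousLinearEquiv.equivOfInverse (c • ContinuousLinearMap.id ℝ G)
    (c⁻¹ • ContinuousLinearMap.id ℝ G) (fun v => by simp [smul_smul, hc.ne'])
    fun v => by simp [smul_smul, hc.ne']
  have n1 : ‖(e1 : F →L[ℝ] F)‖ ≤ ρ := ContinuousLinearMap.opNorm_le_bound _ hρ.le fun v => by
    simp [e1, norm_smul, abs_of_pos hρ]
  have n2 : ‖(e2 : G →L[ℝ] G)‖ ≤ c := ContinuousLinearMap.opNorm_le_bound _ hc.le fun v => by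
    simp [e2, norm_smul, abs_of_pos hc]
  have h1 := e1.iteratedFDerivWithin_comp_right (fun z => Ψ (q0 + z)) uniqueDiffOn_univ
    (x := p) (mem_univ _) j
  rw [preimage_univ, iteratedFDerivWithin_univ, iteratedFDerivWithin_univ,
    iteratedFDeriv_comp_add_left] at h1
  have h2 := e2.iteratedFDeriv_comp_left (f := (fun z => Ψ (q0 + z)) ∘ e1) (x := p) (i := j)
  have h3 : (fun p => c • Ψ (q0 + ρ • p)) = e2 ∘ (fun z => Ψ (q0 + z)) ∘ e1 := rfl
  rw [h3, h2, h1]
  refine (ContinuousLinearMap.norm_compContinuousMultilinearMap_le _ _).trans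
    (mul_le_mul n2 ((ContinuousMultilinearMap.norm_compContinuousLinearMap_le _ _).trans ?_)
      (norm_nonneg _) hc.le)
  rw [mul_comm, Finset.prod_const, Finset.card_univ, Fintype.card_fin]
  exact mul_le_mul_of_nonneg_right (pow_le_pow_left₀ (norm_nonneg _) n1 j) (norm_nonneg _)

variable {X X' : Type*} {α α' : Type} {A : Atl X α} [Fintype α] {χ : α → X → ℝ} {K : α → Set E4}
  {A' : Atl X' α'} [Fintype α'] {χ' : α' → X' → ℝ} {K' : α' → Set E4}

/-- the deviation from the flat addition -/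
def dev (A : Atl X α) (χ : α → X → ℝ) (s : α) (q : E4 × E4) : E4 := ex A χ s q - q.1 - q.2

theorem dev_cda (h : A.Ok) (hp : A.PoU χ K) {s : α} {p : E4 × E4} (hq : p ∈ exD A χ s) :
    ContDiffAt ℝ ∞ (dev A χ s) p := ((ex_cda h hp hq).sub contDiffAt_fst).sub contDiffAt_snd

theorem dev_zero (h : A.Ok) (hp : A.PoU χ K) {s : α} {y : E4} (hy : y ∈ A.U s) :
    dev A χ s (y, 0) = 0 := by simp [dev, ex_zero h hp hy]

theorem dev_der (h : A.Ok) (hp : A.PoU χ K) {s : α} {y : E4} (hy : y ∈ A.U s) :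
    HasFDerivAt (dev A χ s) (0 : E4 × E4 →L[ℝ] E4) (y, 0) := by
  have hd : HasFDerivAt (ex A χ s) (fderiv ℝ (ex A χ s) (y, 0)) (y, 0) :=
    ((ex_cda h hp (zero_mem_exD h hp hy).1).differentiableAt (by simp)).hasFDerivAt
  refine ((hd.sub hasFDerivAt_fst).sub hasFDerivAt_snd).congr_fderiv ?_
  refine ContinuousLinearMap.ext fun p => ?_
  simp [ex_fderiv h hp hy p.1 p.2]

/-- initial data whose geodesic stays in `W` up to time one -/
def stay (A : Atl X α) (χ : α → X → ℝ) (s : α) (W : Set E4) : Set (E4 × E4) :=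
  {q | ∀ t ∈ Icc (0 : ℝ) 1, (q, t) ∈ geD A χ s ∧ (geo A χ s q t).1 ∈ W}

theorem stay_sub {s : α} {W : Set E4} : stay A χ s W ⊆ exD A χ s := fun _ hq =>
  (hq 1 ⟨zero_le_one, le_rfl⟩).1

theorem stay_open (h : A.Ok) (hp : A.PoU χ K) (s : α) {W : Set E4} (hW : IsOpen W) :
    IsOpen (stay A χ s W) := by
  refine isOpen_iff_mem_nhds.2 fun q hq => ?_
  refine isCompact_Icc.eventually_forall_of_forall_eventually
    (P := fun q t => (q, t) ∈ geD A χ s ∧ (geo A χ s q t).1 ∈ W) fun t ht => ?_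
  have h1 := (geD_open h hp s).mem_nhds (hq t ht).1
  have h2 : ContinuousAt (flow (spr A χ s) (sU A s)) (q, t) :=
    (contDiffOn_flow (n := 1) le_rfl (sU_open h s) (spr_sm1 h hp s)).continuousOn.continuousAt h1
  filter_upwards [h1, h2.fst.eventually (hW.mem_nhds (hq t ht).2)] with z h3 h4
  exact ⟨h3, h4⟩

theorem stay_zero (h : A.Ok) (hp : A.PoU χ K) {s : α} {W : Set E4} {y : E4} (hy : y ∈ A.U s)
    (hW : y ∈ W) : (y, (0 : E4)) ∈ stay A χ s W := fun t ht => by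
  have h1 : ((y, (0 : E4)), t) ∈ geD A χ s := mul_one t ▸ mul_mem_dom (zero_mem_exD h hp hy).1 ht
  have h2 := (ex_smul h hp h1).2
  rw [smul_zero, ex_zero h hp hy] at h2
  exact ⟨h1, h2 ▸ hW⟩

/-- uniform radius and jets over a compact set -/
theorem exists_mod (h : A.Ok) (hp : A.PoU χ K) (s : α) {W C : Set E4} (hW : IsOpen W)
    (hC : IsCompact C) (hU : C ⊆ A.U s) (hCW : C ⊆ W) (m : ℕ) :
    ∀ᶠ z in 𝓝[>] (0 : ℝ), ∀ y ∈ C, ∀ v : E4, ‖v‖ ≤ z → (y, v) ∈ stay A χ s W ∧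
      ∀ j ≤ m, ‖iteratedFDeriv ℝ j (dev A χ s) (y, v)‖ ≤ z⁻¹ := by
  have h1 : ∀ᶠ v in 𝓝 (0 : E4), ∀ y ∈ C, (y, v) ∈ stay A χ s W :=
    hC.eventually_forall_of_forall_eventually (P := fun v y => (y, v) ∈ stay A χ s W) fun y hy =>
      (continuous_swap.tendsto ((0 : E4), y)).eventually
        ((stay_open h hp s hW).mem_nhds (stay_zero h hp (hU hy) (hCW hy)))
  obtain ⟨ρ, hρ, h2⟩ := Metric.eventually_nhds_iff_ball.1 h1
  have h3 : ∀ q ∈ C ×ˢ closedBall (0 : E4) (ρ / 2), q ∈ stay A χ s W := fun q hq =>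
    h2 q.2 (closedBall_subset_ball (by linarith) hq.2) q.1 hq.1
  have h4 : ∀ j : ℕ, ∃ B, ∀ q ∈ C ×ˢ closedBall (0 : E4) (ρ / 2),
      ‖iteratedFDeriv ℝ j (dev A χ s) q‖ ≤ B := fun j =>
    (hC.prod (isCompact_closedBall _ _)).exists_bound_of_continuousOn fun q hq =>
      ((dev_cda h hp (stay_sub (h3 q hq))).continuousAt_iteratedFDeriv
        (by exact_mod_cast le_top)).continuousWithinAt
  choose B hB using h4
  have h5 : ∀ᶠ z in 𝓝[>] (0 : ℝ), ∀ j ∈ Finset.range (m + 1), B j ≤ z⁻¹ :=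
    (Finset.eventually_all _).2 fun j _ => tendsto_inv_nhdsGT_zero.eventually_ge_atTop _
  filter_upwards [h5, nhdsWithin_le_nhds (Iic_mem_nhds (half_pos hρ))] with z h6 h7 y hy v hv
  have h8 : (y, v) ∈ C ×ˢ closedBall (0 : E4) (ρ / 2) :=
    ⟨hy, mem_closedBall_zero_iff.2 (hv.trans h7)⟩
  exact ⟨h3 _ h8, fun j hj => (hB j _ h8).trans (h6 j (Finset.mem_range.2 (by omega)))⟩

theorem ex_transfer (h : A.Ok) (hp : A.PoU χ K) (h' : A'.Ok) (hp' : A'.PoU χ' K') {s : α} {s' : α'}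
    {W : Set E4} {c : ℝ} (hc : c ≠ 0) (hW : ∀ x, c • x ∈ W → x ∈ A.U s ∧
      ∀ u, acc A χ s x u = c⁻¹ • acc A' χ' s' (c • x) (c • u)) {q : E4 × E4}
    (hq : c • q ∈ stay A' χ' s' W) : q ∈ exD A χ s ∧ dev A χ s q = c⁻¹ • dev A' χ' s' (c • q) := by
  have e : ∀ y : E4, c • c⁻¹ • y = y := fun y => smul_inv_smul₀ hc y
  have := ex_of_curve h hp (s := s) (c := fun t => c⁻¹ • geo A' χ' s' (c • q) t)
    (fun t ht => (hW _ (by rw [Prod.smul_fst, e]; exact (hq t ht).2)).1) fun t ht => by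
      refine ((geo_der h' hp' (hq t ht).1).const_smul c⁻¹).congr_deriv ?_
      simp only [spr, Prod.smul_fst, Prod.smul_snd, Prod.smul_mk]
      rw [(hW _ (by rw [e]; exact (hq t ht).2)).2, e, e]
  rw [geo_zero h' hp' (exD_mem (stay_sub hq)), inv_smul_smul₀ hc] at this
  refine ⟨this.1, ?_⟩
  rw [dev, dev, this.2]
  simp [smul_sub, ex, smul_smul, hc]

theorem jet_transfer (h : A.Ok) (hp : A.PoU χ K) (h' : A'.Ok) (hp' : A'.PoU χ' K') {s : α}
    {s' : α'} {W : Set E4} (hWo : IsOpen W) {c : ℝ} (hc : 0 < c) (hW : ∀ x, c • x ∈ W → x ∈ A.U s ∧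
      ∀ u, acc A χ s x u = c⁻¹ • acc A' χ' s' (c • x) (c • u)) {q : E4 × E4}
    (hq : c • q ∈ stay A' χ' s' W) (j : ℕ) : ‖iteratedFDeriv ℝ j (dev A χ s) q‖ ≤
      c⁻¹ * (c ^ j * ‖iteratedFDeriv ℝ j (dev A' χ' s') (c • q)‖) := by
  have h1 : dev A χ s =ᶠ[𝓝 q] fun p => c⁻¹ • dev A' χ' s' (0 + c • p) := by
    filter_upwards [(continuous_const_smul c).continuousAt.eventually
      ((stay_open h' hp' s' hWo).mem_nhds hq)] with p hp1
    rw [zero_add]
    exact (ex_transfer h hp h' hp' hc.ne' hW hp1).2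
  rw [(h1.iteratedFDeriv ℝ j).eq_of_nhds]
  simpa using norm_scale (dev A' χ' s') 0 hc (inv_pos.2 hc) j q

end Gen

variable {M : Type*} {T : TD M} {A : Atl T.Car T.S} {act : T.V → Prop} {lam : T.V → T.V → ℝ}

open TD in
theorem str_tr (hA : T.Str A act lam) (h : T.Ok) {a b : T.S} {v : T.V} (hv : act v) {x : E4}
    {F : E4 → E4} (hF : (T.base v).Tr a b (sc lam a v • x) F) :
    A.Tr a b x fun z => (sc lam b v)⁻¹ • F (sc lam a v • z) := by
  have hb := (hA.sc_pos b v).ne'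
  have hc : Continuous fun z : E4 => sc lam a v • z := continuous_const_smul _
  have h0 : sc lam b v • (sc lam b v)⁻¹ • F (sc lam a v • x) ∈ (T.base v).U b := by
    rw [smul_inv_smul₀ hb]; exact hF.mem'
  refine ⟨(hA.conv' hv hF.mem).1, (hA.conv' hv h0).1, ?_, ?_⟩
  · filter_upwards [hc.continuousAt.eventually hF.sm] with z hz
    exact (hz.comp z (contDiff_const_smul _).contDiffAt).const_smul _
  · have h3 := (hF.sm.self_of_nhds.continuousAt.comp (f := fun z : E4 => sc lam a v • z)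
      hc.continuousAt).eventually (((h.base v).isOpen b).mem_nhds hF.mem')
    filter_upwards [hc.continuousAt.eventually hF.eq, h3, hA.conv_ev h hv hF.mem] with z h4 h5 h6
    have h7 : sc lam b v • (sc lam b v)⁻¹ • F (sc lam a v • z) ∈ (T.base v).U b := by
      rw [smul_inv_smul₀ hb]; exact h5
    rw [(hA.conv' hv h7).2, smul_inv_smul₀ hb, h4, h6.2]

open TD in
theorem acc_str (hA : T.Str A act lam) (h : T.Ok) {s : T.S} {v : T.V} (hv : act v) {x : E4}
    (hx : sc lam s v • x ∈ (T.base v).U s) (u : E4) :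
    acc A T.χ s x u = (sc lam s v)⁻¹ • acc (T.base v) (fun a p => T.χ a (Sum.inl (v, p))) s
      (sc lam s v • x) (sc lam s v • u) := by
  unfold acc
  rw [(hA.conv' hv hx).2, smul_neg, Finset.smul_sum]
  congr 1
  refine Finset.sum_congr rfl fun a _ => ?_
  by_cases e : T.χ a (Sum.inl (v, (T.base v).c s (sc lam s v • x))) = 0
  · simp [e]
  · obtain ⟨y, hy, e'⟩ := h.th_ne (v := v) (s := a) (p := (T.base v).c s (sc lam s v • x))
      fun e1 => e (by rw [χ_inl, e1, zero_div])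
    obtain ⟨F, hF, -⟩ := (h.base v).loc s a _ hx y (bK_sub v a hy) e'.symm
    rw [cn_eq (hA.ok h) (str_tr hA h hv hF), cn_eq (h.base v) hF,
      cnF_scale (hA.sc_pos s v).ne' (inv_ne_zero (hA.sc_pos a v).ne') hF.sm.self_of_nhds
        (tr_inv (h.base v) hF), smul_comm]

variable {L : T.V → ℝ}

open TD in
/-- ball charts -/
theorem acc_ball (h : T.Ok) (hL : T.Long L) {a : T.B} {x : E4} (hx : ‖x‖ < 2) (u : E4) :
    acc (T.glob L) T.χ (Sum.inl a) x u = acc (T.core (T.vx a)) T.χ (Sum.inl a) x u := by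
  have h1 : x ∈ (T.base (T.vx a)).U (Sum.inl a) := mem_base_inl.2 ⟨rfl, hx⟩
  rw [acc_str (h.str_glob hL) h (v := T.vx a) trivial (by simpa [sc] using h1),
    acc_str (h.str_core (T.vx a)) h (v := T.vx a) rfl (by simpa [sc] using h1)]
  simp [sc]

open TD in
/-- the middle of the necks -/
theorem acc_mid (h : T.Ok) (hL : T.Long L) {w : T.V} {x : E4} (hx : 3 ≤ ‖x‖)
    (hx' : w ≠ T.root → ‖x‖ ≤ T.r / 3 * Real.exp (L w)) (u : E4) :
    acc (T.glob L) T.χ (Sum.inr w) x u = 0 := by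
  have he := mul_pos h.r_pos (Real.exp_pos (L w))
  exact acc_flat (h.glob_ok hL) (mem_glob_inr.2 ⟨by linarith, fun hw => by linarith [hx' hw]⟩)
    (h.glob_χ_mid hL hx hx') u

open TD in
/-- the outer half of the necks -/
theorem acc_out (h : T.Ok) (hL : T.Long L) {w : T.V} {x : E4} (hx : 1 < ‖x‖)
    (hx' : w ≠ T.root → ‖x‖ ≤ T.r / 3 * Real.exp (L w)) (u : E4) :
    acc (T.glob L) T.χ (Sum.inr w) x u = acc (T.core w) T.χ (Sum.inr w) x u := by
  by_cases h4 : ‖x‖ < 4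
  · have h1 : x ∈ (T.base w).U (Sum.inr w) := mem_base_out.2 ⟨hx, h4⟩
    rw [acc_str (h.str_glob hL) h (v := w) trivial (by simpa [sc, lm] using h1),
      acc_str (h.str_core w) h (v := w) rfl (by simpa [sc] using h1)]
    simp [sc, lm]
  · rw [acc_mid h hL (by linarith) hx',
      acc_flat (h.core_ok w) (mem_core_out.2 hx) (h.core_χ_out w (by linarith))]

open TD in
/-- the inner half of the necks -/
theorem acc_inn (h : T.Ok) (hL : T.Long L) {w : T.V} (hw : w ≠ T.root) {x : E4} (hx : 3 ≤ ‖x‖)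
    (hx' : ‖x‖ < T.r * Real.exp (L w)) (u : E4) :
    acc (T.glob L) T.χ (Sum.inr w) x u = (Real.exp (-L w))⁻¹ •
      acc (T.core (T.par w)) T.χ (Sum.inr w) (Real.exp (-L w) • x) (Real.exp (-L w) • u) := by
  have hne := h.par_ne hw
  have hk : T.kid (T.par w) w := ⟨hw, rfl⟩
  have hr := h.r_pos
  have he := Real.exp_pos (L w)
  by_cases h4 : T.r / 4 < ‖Real.exp (-L w) • x‖
  · have h1 : Real.exp (-L w) • x ∈ (T.base (T.par w)).U (Sum.inr w) :=
      (mem_base_inn hne).2 ⟨hk, h4, nrm_exp_lt.2 hx'⟩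
    rw [acc_str (h.str_glob hL) h (v := T.par w) trivial (by simpa [sc, lm, hne] using h1),
      acc_str (h.str_core (T.par w)) h (v := T.par w) rfl (by simpa [sc] using h1)]
    simp [sc, lm, hne]
  · have h5 := not_lt.1 h4
    have h0 : 0 < ‖Real.exp (-L w) • x‖ := lt_nrm_exp.2 (by linarith)
    have h6 := nrm_exp_le.1 h5
    rw [acc_mid h hL hx fun _ => by nlinarith, acc_flat (h.core_ok _)
      ((mem_core_inn hne).2 ⟨hk, h0, by linarith⟩) (h.core_χ_inn hk h0 (by linarith)), smul_zero]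

end Crest.Agent.N207.M

end
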