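import Crest.Agent.N207.M.Defs
import Crest.Agent.N207.Ga.Met3

/-!
# Row 207 (helper18): **GBC**
-/

set_option autoImplicit false

open Metric Set
open Crest.GeometryTopology.CoordMetric Crest.Agent.R202.Tens
open Crest.Agent.N207.I Crest.Agent.N207.CB Crest.Agent.N207.Jt Crest.Agent.N207.Ga

noncomputable section

namespace Crest.Agent.N207.M

variable {M : Type*} {T : TD M} {g : T.V → Fam T} {γ : ℝ}

/-- **GBC** -/
theorem gbc (h : T.Ok) (hL : T.Lim g γ) : GBC T g γ := by
  obtain ⟨C, h0, hC⟩ := gbL_sj h hL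
  obtain ⟨D, c, h1, hc, hD⟩ := ball_bd hL
  have h2 := h1 0
  have h3 := inv_pos.2 hc
  refine ⟨fun k => C k + D k, 2 + c⁻¹ + 16 * D 0, 4 / T.r, by linarith, fun T0 hT =>
    ⟨2 * T0 + 1, fun L hl => ⟨gR_met h hL hT hl, fun w k p q x hx => ?_, fun w x hx => ?_,
      fun a k p q x hx => ((hD a x hx).2 k p q).trans (by linarith [h0 k]), fun a x hx => ?_⟩⟩⟩
  · refine ((hC T0 L w x hx p q).le (glob_ne hx) k).trans ?_
    have := wt_nonneg (T := T) (γ := γ) (L := L) (w := w) (x := x)
    gcongr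
    linarith [h1 k]
  · refine ell_of (by simpa using gbL_pos h hL hx) fun v => ?_
    have := (abs_le.1 (TR.bil_sub_inner (gbL_small (T0 := T0) h hL hx) v v)).2
    rw [real_inner_self_eq_norm_sq] at this
    nlinarith [norm_nonneg v]
  · refine ell_of ((hD a x hx).1.mono ?_) fun v => ?_
    · rw [inv_le_comm₀ (by linarith) hc]; linarith
    · have := (abs_le.1 (abs_bil_le (A := g (T.vx a) (Sum.inl a) x) (C := D 0) (fun p q => by
        simpa [norm_iteratedFDeriv_zero] using (hD a x hx).2 0 p q) v v)).2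
      push_cast at this
      refine this.trans ?_
      nlinarith [mul_nonneg h3.le (sq_nonneg ‖v‖)]

end Crest.Agent.N207.M

end
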