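import Crest.Agent.N207.K.Hd4

/-!
# Row 207, X3 (helper10): the flat Hardy inequality with constant `4` and a small collar error
-/

set_option autoImplicit false
open MeasureTheory Set Filter Topology Metric
open scoped ContDiff
open Crest.GeometryTopology.CoordMetric
open Crest.Agent.N207.Hd

noncomputable section

namespace Crest.Agent.N207.M

theorem h4_collars {f : E4 → ℝ} {a c : ℝ} {K : ℕ} (hc : 0 < c) (hac : a ≤ c)
    (hi : IntegrableOn f (An a (4 ^ K * c))) (h0 : ∀ x ∈ An a (4 ^ K * c), 0 ≤ f x) :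
    ∑ j ∈ Finset.range K, ∫ x in An (4 ^ j * c) (2 * (4 ^ j * c)), f x ≤
      ∫ x in An a (4 ^ K * c), f x := by
  have p1 : ∀ j : ℕ, c ≤ 4 ^ j * c := fun j =>
    le_mul_of_one_le_left hc.le (one_le_pow₀ (by norm_num))
  have p2 : ∀ i j : ℕ, i < j → 2 * (4 ^ i * c) < 4 ^ j * c := fun i j hij => by
    have : (4 : ℝ) ^ (i + 1) ≤ 4 ^ j := pow_le_pow_right₀ (by norm_num) hij
    rw [pow_succ] at this
    have : (0 : ℝ) < 4 ^ i := by positivity
    nlinarith
  have sub : ∀ j ∈ Finset.range K, An (4 ^ j * c) (2 * (4 ^ j * c)) ⊆ An a (4 ^ K * c) :=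
    fun j hj => An_mono (hac.trans (p1 j)) (p2 j K (Finset.mem_range.1 hj)).le
  rw [← integral_biUnion_finset _ (fun j _ => measurableSet_An _ _) ?_
    fun j hj => hi.mono_set (sub j hj)]
  · exact setIntegral_mono_set hi ((ae_restrict_mem (measurableSet_An _ _)).mono h0)
      (iUnion₂_subset sub).eventuallyLE
  · intro i _ j _ hij
    refine disjoint_left.2 fun x hx hy => ?_
    rcases lt_or_gt_of_ne hij with k | k
    · linarith [p2 i j k, hx.2, hy.1]
    · linarith [p2 j i k, hx.1, hy.2]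

theorem h4_flat : ∃ C : ℝ, 0 ≤ C ∧ ∀ (K : ℕ) (U : Set E4) (u : E4 → ℝ) (a c : ℝ), 0 < K →
    IsOpen U → ContDiffOn ℝ 1 u U → 0 < a → 2 * a ≤ c → An a (4 ^ K * c) ⊆ U →
    (∀ r ∈ Icc a (4 ^ K * c), M0 u r) →
    4 * ∫ x in An (2 * a) c, u x ^ 2 / ‖x‖ ^ 2 ≤ (∫ x in An a (4 ^ K * c), g2 u x) +
      C / K * ∫ x in An a (4 ^ K * c), u x ^ 2 / ‖x‖ ^ 2 := by
  obtain ⟨C, hC, H⟩ := hardy_M0 (κ := 2) one_lt_two
  refine ⟨C, hC, fun K U u a c hK hU hu ha hac hs h0 => ?_⟩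
  have hc : 0 < c := by linarith
  have cP : ContinuousOn (fun x => u x ^ 2 / ‖x‖ ^ 2) (An a (4 ^ K * c)) :=
    ((hu.continuousOn.mono hs).pow 2).div (continuous_norm.pow 2).continuousOn
      fun x hx => (pow_pos (pos_of_An ha hx) 2).ne'
  have iP := cP.integrableOn_compact (μ := volume) (isCompact_An _ _)
  have iQ := ((contOn_g2 hU hu).mono hs).integrableOn_compact (μ := volume) (isCompact_An _ _)
  have nP : ∀ x : E4, 0 ≤ u x ^ 2 / ‖x‖ ^ 2 := fun x => by positivity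
  have key : ∀ j ∈ Finset.range K, 4 * ∫ x in An (2 * a) c, u x ^ 2 / ‖x‖ ^ 2 ≤
      (∫ x in An a (4 ^ K * c), g2 u x) +
        C * ∫ x in An (4 ^ j * c) (2 * (4 ^ j * c)), u x ^ 2 / ‖x‖ ^ 2 := fun j hj => by
    have p1 : c ≤ 4 ^ j * c := le_mul_of_one_le_left hc.le (one_le_pow₀ (by norm_num))
    have p2 : 2 * (4 ^ j * c) ≤ 4 ^ K * c := by
      have : (4 : ℝ) ^ (j + 1) ≤ 4 ^ K := pow_le_pow_right₀ (by norm_num) (Finset.mem_range.1 hj)
      rw [pow_succ] at this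
      have : (0 : ℝ) < 4 ^ j := by positivity
      nlinarith
    have s1 : An a (2 * (4 ^ j * c)) ⊆ An a (4 ^ K * c) := An_mono le_rfl p2
    have k := H U u a (2 * (4 ^ j * c)) 0 hU hu ha (by linarith) (s1.trans hs)
      fun r hr => h0 r ⟨hr.1, hr.2.trans p2⟩
    simp only [add_zero, one_pow, one_mul, zero_sub, Real.rpow_neg_one, Real.rpow_zero, abs_one,
      mul_one, Left.neg_nonpos_iff, zero_le_one, if_true, ← div_eq_inv_mul,
      mul_div_cancel_left₀ _ (two_ne_zero (α := ℝ))] at k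
    have m : ∀ a' c', An (2 * a) c ⊆ An a' c' → An a' c' ⊆ An a (4 ^ K * c) →
        ∫ x in An (2 * a) c, u x ^ 2 / ‖x‖ ^ 2 ≤ ∫ x in An a' c', u x ^ 2 / ‖x‖ ^ 2 :=
      fun a' c' e1 e2 => setIntegral_mono_set (iP.mono_set e2) (Eventually.of_forall nP)
        e1.eventuallyLE
    have m1 := m (2 * a) (4 ^ j * c) (An_mono le_rfl p1) (An_mono (by linarith) (by linarith))
    have m2 := m a (2 * (4 ^ j * c)) (An_mono (by linarith) (by linarith)) s1
    have m3 := setIntegral_mono_set iQ (Eventually.of_forall (g2_nonneg u)) s1.eventuallyLE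
    linarith
  have s := Finset.sum_le_sum key
  rw [Finset.sum_add_distrib, ← Finset.mul_sum, ← Finset.mul_sum, Finset.sum_const,
    Finset.sum_const, Finset.card_range, nsmul_eq_mul, nsmul_eq_mul] at s
  have s2 := mul_le_mul_of_nonneg_left (h4_collars hc (by linarith) iP fun x _ => nP x) hC
  have hK' : (0 : ℝ) < K := by exact_mod_cast hK
  refine le_of_mul_le_mul_left ?_ hK'
  rw [mul_add, ← mul_assoc (K : ℝ) (C / K), mul_div_cancel₀ _ hK'.ne']
  linarith

/-- `∑ⱼ oⱼ² / |x|²` -/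
def h4P (o : Tn 4 1) (x : E4) : ℝ := (∑ j, o x ![j] ^ 2) / ‖x‖ ^ 2

/-- `∑ⱼ |D oⱼ|²` -/
def h4Q (o : Tn 4 1) (x : E4) : ℝ := ∑ j, g2 (fun y => o y ![j]) x

/-- one neck -/
theorem h4_neck : ∃ C : ℝ, 0 ≤ C ∧ ∀ (K : ℕ) (U : Set E4) (o : Tn 4 1) (a c κ τ : ℝ)
    (f e w : E4 → ℝ), 0 < K → IsOpen U → SmT o U → 0 < a → 2 * a ≤ c → An a (4 ^ K * c) ⊆ U →
    (∀ r ∈ Icc a (4 ^ K * c), ∀ j, M0 (fun y => o y ![j]) r) → 0 ≤ κ → 0 ≤ τ → C / K ≤ τ →
    IntegrableOn e U → IntegrableOn w U → (∀ x ∈ U, 0 ≤ f x ∧ 0 ≤ e x ∧ 0 ≤ w x) →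
    (∀ x ∈ U, x ∉ An (2 * a) c → f x = 0) →
    (∀ x ∈ An a (4 ^ K * c), κ * h4Q o x ≤ (1 + τ) * e x + τ * (κ * h4P o x) ∧
      κ * h4P o x ≤ (1 + τ) * w x ∧ f x ≤ (1 + τ) ^ 3 * (κ * h4P o x)) →
    4 * ∫ x in U, f x ≤ (1 + τ) ^ 4 * ((∫ x in U, e x) + 2 * τ * ∫ x in U, w x) := by
  obtain ⟨C, hC, H⟩ := h4_flat
  refine ⟨C, hC, fun K U o a c κ τ f e w hK hU ho ha hac hs h0 hκ hτ hCK ie iw hn hz hp => ?_⟩
  have hc : 0 < c := by linarith
  set B := An a (4 ^ K * c) with hB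
  have mB : MeasurableSet B := measurableSet_An _ _
  have s1 : An (2 * a) c ⊆ B :=
    An_mono (by linarith) (le_mul_of_one_le_left hc.le (one_le_pow₀ (by norm_num)))
  have ho1 : ∀ j, ContDiffOn ℝ 1 (fun y => o y ![j]) U := fun j => (ho _).of_le (by simp)
  have iP : ∀ j, IntegrableOn (fun x => o x ![j] ^ 2 / ‖x‖ ^ 2) B := fun j =>
    ((((ho1 j).continuousOn.mono hs).pow 2).div (continuous_norm.pow 2).continuousOn
      fun x hx => (pow_pos (pos_of_An ha hx) 2).ne').integrableOn_compact (isCompact_An _ _)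
  have iQ : ∀ j, IntegrableOn (g2 fun y => o y ![j]) B := fun j =>
    ((contOn_g2 hU (ho1 j)).mono hs).integrableOn_compact (isCompact_An _ _)
  have eP : h4P o = fun x => ∑ j, o x ![j] ^ 2 / ‖x‖ ^ 2 := funext fun x => Finset.sum_div _ _ _
  have jP : IntegrableOn (h4P o) B := eP ▸ integrable_finsetSum _ fun j _ => iP j
  have jQ : IntegrableOn (h4Q o) B := integrable_finsetSum _ fun j _ => iQ j
  have nP : ∀ x, 0 ≤ h4P o x := fun x => by rw [eP]; positivity
  have k0 : 4 * ∫ x in An (2 * a) c, h4P o x ≤ (∫ x in B, h4Q o x) + C / K * ∫ x in B, h4P o x := by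
    simp only [eP, h4Q]
    rw [integral_finsetSum _ fun j _ => iP j, integral_finsetSum _ fun j _ => iQ j,
      integral_finsetSum _ fun j _ => (iP j).mono_set s1, Finset.mul_sum, Finset.mul_sum,
      ← Finset.sum_add_distrib]
    exact Finset.sum_le_sum fun j _ => H K U _ a c hK hU (ho1 j) ha hac hs fun r hr => h0 r hr j
  have k1 : ∫ x in U, f x ≤ (1 + τ) ^ 3 * (κ * ∫ x in An (2 * a) c, h4P o x) := by
    rw [setIntegral_eq_of_subset_of_forall_sdiff_eq_zero hU.measurableSet (s1.trans hs)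
      fun x hx => hz x hx.1 hx.2, ← integral_const_mul, ← integral_const_mul]
    refine integral_mono_of_nonneg ?_ (((jP.mono_set s1).const_mul _).const_mul _) ?_
    · filter_upwards [ae_restrict_mem (measurableSet_An _ _)] with x hx using (hn x (hs (s1 hx))).1
    · filter_upwards [ae_restrict_mem (measurableSet_An _ _)] with x hx using (hp x (s1 hx)).2.2
  have k2 : κ * ∫ x in B, h4Q o x ≤ (1 + τ) * (∫ x in B, e x) + τ * (κ * ∫ x in B, h4P o x) := by
    have i1 := (ie.mono_set hs).const_mul (1 + τ)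
    have i2 := (jP.const_mul κ).const_mul τ
    rw [← integral_const_mul, ← integral_const_mul, ← integral_const_mul, ← integral_const_mul,
      ← integral_add i1 i2]
    exact setIntegral_mono_on (jQ.const_mul κ) (i1.add i2) mB fun x hx => (hp x hx).1
  have k3 : κ * ∫ x in B, h4P o x ≤ (1 + τ) * ∫ x in B, w x := by
    rw [← integral_const_mul, ← integral_const_mul]
    exact setIntegral_mono_on (jP.const_mul κ) ((iw.mono_set hs).const_mul _) mB
      fun x hx => (hp x hx).2.1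
  have k4 : ∫ x in B, e x ≤ ∫ x in U, e x := setIntegral_mono_set ie
    ((ae_restrict_mem hU.measurableSet).mono fun x hx => (hn x hx).2.1) hs.eventuallyLE
  have k5 : ∫ x in B, w x ≤ ∫ x in U, w x := setIntegral_mono_set iw
    ((ae_restrict_mem hU.measurableSet).mono fun x hx => (hn x hx).2.2) hs.eventuallyLE
  have k6 : 0 ≤ κ * ∫ x in B, h4P o x := mul_nonneg hκ (integral_nonneg nP)
  have k7 := mul_le_mul_of_nonneg_left k0 hκ
  have k8 := mul_le_mul_of_nonneg_right hCK k6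
  have k9 := mul_le_mul_of_nonneg_left k3 hτ
  have hτ1 : 0 ≤ 1 + τ := by linarith
  have k10 := mul_le_mul_of_nonneg_left k4 hτ1
  have k11 := mul_le_mul_of_nonneg_left k5 (mul_nonneg hτ hτ1)
  have k12 : 4 * (κ * ∫ x in An (2 * a) c, h4P o x) ≤
      (1 + τ) * ((∫ x in U, e x) + 2 * τ * ∫ x in U, w x) := by nlinarith
  have k13 := mul_le_mul_of_nonneg_left k12 (pow_nonneg hτ1 3)
  rw [pow_succ _ 3]
  linarith

end Crest.Agent.N207.M

end
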