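import Crest.Agent.N207.M.Df2
import Crest.Agent.N207.M.H4a
import Crest.Agent.N207.K.Hd8

/-!
# Row 207, X3 (helper10): the leaf `H4`
-/

set_option autoImplicit false

open scoped ContDiff
open Metric Set Filter Topology MeasureTheory
open Crest.GeometryTopology.CoordMetric
open Crest.Agent.N207.I Crest.Agent.N207.CB Crest.Agent.N207.N Crest.Agent.N207.Ga
  Crest.Agent.N207.Hd

noncomputable section

namespace Crest.Agent.N207.M

theorem h4_tau {σ c : ℝ} (hσ : |σ| < 2) :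
    ∃ τ : ℝ, 0 < τ ∧ σ ^ 2 / 4 * ((1 + τ) ^ 4 * (1 + 2 * τ * c⁻¹)) < 1 := by
  have h1 : ContinuousAt (fun τ : ℝ => σ ^ 2 / 4 * ((1 + τ) ^ 4 * (1 + 2 * τ * c⁻¹))) 0 := by
    fun_prop
  have h2 : σ ^ 2 < 2 ^ 2 := sq_lt_sq' (abs_lt.1 hσ).1 (abs_lt.1 hσ).2
  have h3 := h1.eventually (gt_mem_nhds (a := 1) (by simp only; linarith))
  obtain ⟨τ, a, b⟩ := ((h3.filter_mono (nhdsWithin_le_nhds (s := Ioi 0))).and
    self_mem_nhdsWithin).exists
  exact ⟨τ, b, a⟩

theorem h4_A {γ ε : ℝ} (hγ : 0 < γ) (hε : 0 < ε) (B q A0 : ℝ) :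
    ∃ A : ℝ, A0 ≤ A ∧ B * ((A / 2) ^ (-γ) + (q / A) ^ γ) ≤ ε := by
  have h1 : Tendsto (fun A : ℝ => (A / 2) ^ (-γ)) atTop (𝓝 0) :=
    (tendsto_rpow_neg_atTop hγ).comp (tendsto_id.atTop_div_const two_pos)
  have h2 : Tendsto (fun A : ℝ => (q / A) ^ γ) atTop (𝓝 0) := by
    have := (tendsto_id.const_div_atTop q).rpow_const (p := γ) (Or.inr hγ.le)
    rwa [Real.zero_rpow hγ.ne'] at this
  have h3 := (h1.add h2).const_mul B
  rw [add_zero, mul_zero] at h3
  exact ((eventually_ge_atTop A0).and (h3.eventually (ge_mem_nhds hε))).exists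

theorem h4_zero {l : E4 → ℝ} {x : E4} (h : g2 l x = 0) (G : MetricField 4) :
    nsq G (dT l) x = 0 := by
  have : dT l x = 0 := funext fun I => pow_eq_zero_iff two_ne_zero |>.1
    ((Finset.sum_eq_zero_iff_of_nonneg fun _ _ => sq_nonneg _).1 h (I 0) (Finset.mem_univ _))
  simp [nsq, ip, this, ipA]

variable {M : Type*} {T : TD M}

/-- smallness of the metric coefficients where the weight is small -/
theorem Cls.h4_small {γ Λ ε : ℝ} {C : ℕ → ℝ} {L : T.V → ℝ} {H : Fam T} (hH : Cls T γ C Λ L H)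
    {w : T.V} {x : E4} (hx : x ∈ (T.glob L).U (Sum.inr w))
    (hw : (|C 0| + |C 1|) * T.wt γ L w x ≤ ε) :
    (∀ a b, |TD.dv (H (Sum.inr w)) a b x| ≤ ε) ∧
      ∀ a b c, ‖x‖ * |pderiv c (fun y => H (Sum.inr w) y a b) x| ≤ ε := by
  have hp : 0 < ‖x‖ := zero_lt_one.trans hx.1
  have w0 : 0 ≤ T.wt γ L w x := add_nonneg (by positivity) (by split_ifs <;> positivity)
  have a0 := mul_le_mul_of_nonneg_right (le_abs_self (C 0)) w0
  have a1 := mul_le_mul_of_nonneg_right (le_abs_self (C 1)) w0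
  have b0 := mul_nonneg (abs_nonneg (C 0)) w0
  have b1 := mul_nonneg (abs_nonneg (C 1)) w0
  refine ⟨fun a b => ?_, fun a b c => ?_⟩
  · have := hH.neck w 0 a b x hx
    rw [norm_iteratedFDeriv_zero, pow_zero, inv_one, mul_one, Real.norm_eq_abs] at this
    linarith
  · have k := hH.neck w 1 a b x hx
    rw [norm_iteratedFDeriv_one, pow_one] at k
    have e : |pderiv c (fun y => H (Sum.inr w) y a b) x| ≤
        ‖fderiv ℝ (TD.dv (H (Sum.inr w)) a b) x‖ := by
      have : fderiv ℝ (TD.dv (H (Sum.inr w)) a b) x = fderiv ℝ (fun y => H (Sum.inr w) y a b) x :=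
        fderiv_sub_const _
      rw [this]
      simpa [pderiv] using (fderiv ℝ (fun y => H (Sum.inr w) y a b) x).le_opNorm
        (EuclideanSpace.single c 1)
    have := mul_le_mul_of_nonneg_left (e.trans k) hp.le
    rw [show ‖x‖ * (C 1 * ‖x‖⁻¹ * T.wt γ L w x) = C 1 * T.wt γ L w x by field_simp] at this
    linarith

/-- **H4** -/
theorem h4 (h : T.Ok) (pw : PW) (hg : HG T) : H4 T := by
  intro γ C Λ σ hγ hΛ hσ
  have hr := h.r_pos
  obtain ⟨c, hc, hg⟩ := hg γ C Λ hΛ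
  obtain ⟨CH, hCH, HN⟩ := h4_neck
  obtain ⟨τ, hτ, hθ⟩ := h4_tau (c := c) hσ
  obtain ⟨ε, hε, pw⟩ := pw τ hτ
  obtain ⟨K, hK⟩ := exists_nat_gt (CH / τ)
  have hK0 : (0 : ℝ) < K := (div_nonneg hCH hτ.le).trans_lt hK
  have hK1 : CH / K ≤ τ := by
    rw [div_lt_iff₀ hτ] at hK
    rw [div_le_iff₀ hK0]; linarith
  obtain ⟨A, hA, hAε⟩ := h4_A hγ hε (|C 0| + |C 1|) (4 ^ K) (max 6 (4 * 4 ^ K / T.r))
  have hA6 : 6 ≤ A := (le_max_left _ _).trans hA
  have hAr : 4 * 4 ^ K ≤ A * T.r := (div_le_iff₀ hr).1 ((le_max_right _ _).trans hA)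
  have q1 : (1 : ℝ) ≤ 4 ^ K := one_le_pow₀ (by norm_num)
  obtain ⟨D, l0, hD, HS⟩ := exists_scf h (A := A) (by rw [div_le_iff₀ hr]; linarith) hτ
  refine ⟨_, A, τ, D, max l0 (Real.log (A * A)), hθ, hD, fun L hL => ?_⟩
  obtain ⟨l, hl⟩ := HS L ⟨hL.1, fun w hw => (le_max_left _ _).trans (hL.2 w hw)⟩
  refine ⟨l, hl, fun H hH U hU => ?_⟩
  obtain ⟨hU, R, hR⟩ := hU
  obtain ⟨S, hS, hV⟩ := exists_cs h hL.1 hU.compat hR
  have hO := h.glob_ok hL.1
  have hχ := h.glob_pou hL.1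
  have hb := hH.met
  obtain ⟨S', s1, s2, s3⟩ := hS.exists_cl hO
  have n1 : ∀ s, ∀ x ∈ (T.glob L).U s, 0 ≤ nsq (rt T L H s) (U s) x / Sk.rw T L s x ^ 2 :=
    fun s x hx => div_nonneg (nsq_nonneg (hb.riem s) hx _) (sq_nonneg _)
  have n2 : ∀ s, ∀ x ∈ (T.glob L).U s, 0 ≤ nsq (rt T L H s) (cov (rt T L H s) (U s)) x :=
    fun s x hx => nsq_nonneg (hb.riem s) hx _
  have i1 : (T.glob L).Intg T.χ (rt T L H)
      fun s x => nsq (rt T L H s) (U s) x / Sk.rw T L s x ^ 2 :=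
    Atl.intg_of_cs hO hb hχ hS (fun s => (hU.ct_ip hb hU s).div ((cont_rw s).pow 2).continuousOn
      fun x hx => (pow_pos (Hd.rw_pos s hx) 2).ne')
      ((hV.ip_left (G := rt T L H) U).of_imp fun s y _ e => by
        rw [show nsq (rt T L H s) (U s) y = 0 from e, zero_div])
  have i2 : (T.glob L).Intg T.χ (rt T L H) fun s => nsq (rt T L H s) (cov (rt T L H s) (U s)) :=
    Atl.intg_of_cs hO hb hχ s2 ((hU.cov hO hb).ct_ip hb (hU.cov hO hb))
      (((hV.mono s1).cov hO s3).ip_left _)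
  have dn := fun s x => Atl.den_nonneg (G := rt T L H) hχ s x
  have key : ∀ s, 4 * ∫ x in (T.glob L).U s, (T.glob L).den T.χ (rt T L H) s x *
      (nsq (rt T L H s) (dT (l s)) x * nsq (rt T L H s) (U s) x) ≤ (1 + τ) ^ 4 *
      ((∫ x in (T.glob L).U s, (T.glob L).den T.χ (rt T L H) s x *
        nsq (rt T L H s) (cov (rt T L H s) (U s)) x) + 2 * τ *
      ∫ x in (T.glob L).U s, (T.glob L).den T.χ (rt T L H) s x *
        (nsq (rt T L H s) (U s) x / Sk.rw T L s x ^ 2)) := by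
    rintro (a | w)
    · simp only [h4_zero (hl.ball a _), zero_mul, mul_zero, integral_zero]
      have m := (hO.isOpen (Sum.inl a)).measurableSet
      exact mul_nonneg (by positivity) (add_nonneg
        (setIntegral_nonneg m fun x hx => mul_nonneg (dn _ x) (n2 _ x hx)) (mul_nonneg (by positivity)
          (setIntegral_nonneg m fun x hx => mul_nonneg (dn _ x) (n1 _ x hx))))
    obtain ⟨c0, c1, c2, c3⟩ : ∃ c0 : ℝ, A ≤ c0 ∧ (w ≠ T.root → A * c0 = Real.exp (L w)) ∧
        (w = T.root → R ≤ c0) := by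
      by_cases hw : w = T.root
      · exact ⟨max A R, le_max_left _ _, fun k => absurd hw k, fun _ => le_max_right _ _⟩
      · refine ⟨Real.exp (L w) / A, ?_, fun _ => mul_div_cancel₀ _ (by linarith),
          fun k => absurd k hw⟩
        rw [le_div_iff₀ (by linarith), ← Real.log_le_iff_le_exp (by positivity)]
        exact (le_max_right _ _).trans (hL.2 w hw)
    have mid : ∀ x : E4, ‖x‖ ≤ 4 ^ K * c0 → w ≠ T.root → ‖x‖ ≤ T.r / 4 * Real.exp (L w) :=
      fun x hx hw => by rw [← c2 hw]; nlinarith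
    have ex := mul_pos hr (Real.exp_pos (L w))
    have sub : ∀ x : E4, A / 2 ≤ ‖x‖ → ‖x‖ ≤ 4 ^ K * c0 → x ∈ (T.glob L).U (Sum.inr w) :=
      fun x h1 h2 => ⟨by linarith, fun hw => by linarith [mid x h2 hw]⟩
    obtain ⟨g, hg1, hg2⟩ := exists_free (h.ne_bot w) (h.free w)
    refine HN K _ (U (Sum.inr w)) (A / 2) c0 (Nat.card ((T.glob L).Γ (Sum.inr w)) : ℝ)⁻¹ τ _ _ _
      (by exact_mod_cast hK0) (hO.isOpen _) (hU.sm _) (by linarith) (by linarith)
      (fun x hx => sub x hx.1 hx.2) (fun r hr' j => M0_of_sec hO hU hg1 hg2 (by linarith [hr'.1])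
        (fun x hx => sub x (hx ▸ hr'.1) (hx ▸ hr'.2)) _) (by positivity) hτ.le hK1 (i2 _) (i1 _)
      (fun x hx => ⟨mul_nonneg (dn _ x) (mul_nonneg (nsq_nonneg (hb.riem _) hx _)
        (nsq_nonneg (hb.riem _) hx _)), mul_nonneg (dn _ x) (n2 _ x hx),
        mul_nonneg (dn _ x) (n1 _ x hx)⟩) (fun x hx hn => ?_) fun x hx => ?_
    · by_cases h0 : g2 (l (Sum.inr w)) x = 0
      · rw [h4_zero h0, zero_mul, mul_zero]
      obtain ⟨o1, o2⟩ := hl.out w x hx h0
      have o3 : c0 < ‖x‖ := not_le.1 fun k => hn ⟨by linarith, k⟩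
      by_cases hw : w = T.root
      · subst hw
        simp [nsq, ip, hR x ((c3 rfl).trans o3.le), ipA]
      · have := o2 hw
        rw [← c2 hw] at this
        nlinarith
    · have hx' := sub x hx.1 hx.2
      have hp : 0 < ‖x‖ := by linarith [hx.1]
      have hwt : T.wt γ L w x ≤ (A / 2) ^ (-γ) + (4 ^ K / A) ^ γ := by
        refine add_le_add (Real.rpow_le_rpow_of_nonpos (by linarith) hx.1 (by linarith)) ?_
        split_ifs with hw
        · positivity
        · refine Real.rpow_le_rpow (by positivity) ?_ hγ.le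
          rw [Real.exp_neg, ← c2 hw, inv_mul_le_iff₀ (by nlinarith)]
          refine hx.2.trans_eq ?_
          field_simp
      obtain ⟨m0, m1⟩ := hH.h4_small hx'
        ((mul_le_mul_of_nonneg_left hwt (by positivity)).trans hAε)
      have e2 := eps2_ne L w
      have pd : (H (Sum.inr w) x).PosDef := by
        have := ((hb.riem (Sum.inr w)).posDef x hx').smul
          (inv_pos.2 (pow_pos (TD.eps_pos L w) 2))
        rwa [rt_eq, smul_smul, show T.un (Sum.inr w) = w from rfl, inv_mul_cancel₀ e2,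
          one_smul] at this
      obtain ⟨p1, p2, p3⟩ := pw _ (U (Sum.inr w)) (l (Sum.inr w)) x _ hp pd m0 m1
      have p4 := hl.neck w x hx'
      have e1 := (TD.eps_pos L w).ne'
      set κ := (Nat.card ((T.glob L).Γ (Sum.inr w)) : ℝ)⁻¹ with hκ
      have hκ0 : 0 ≤ κ := by positivity
      set G := H (Sum.inr w) with hG
      have r0 : rt T L H (Sum.inr w) = fun y => T.eps L w ^ 2 • G y := rfl
      have d0 : (T.glob L).den T.χ (rt T L H) (Sum.inr w) x =
          κ * ((T.eps L w ^ 2) ^ 2 * √(G x).det) := by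
        rw [Atl.den, h.glob_χ_mid hL.1 (by linarith [hx.1])
          (fun hw => by linarith [mid x hx.2 hw]), if_pos rfl, one_mul, r0, sqrt_det_smul]
      have r1 : Sk.rw T L (Sum.inr w) x = T.eps L w * ‖x‖ := rfl
      rw [d0, r0, r1, cov_smul_met e2, nsq_smul_met e2, nsq_smul_met e2, nsq_smul_met e2]
      have P0 : 0 ≤ h4P (U (Sum.inr w)) x := by unfold h4P; positivity
      refine ⟨?_, ?_, ?_⟩
      · have := mul_le_mul_of_nonneg_left p1 hκ0
        refine this.trans_eq ?_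
        unfold h4P
        rw [pow_add, pow_one]
        field_simp
      · have := mul_le_mul_of_nonneg_left (div_le_div_of_nonneg_right p2 (sq_nonneg ‖x‖)) hκ0
        refine this.trans_eq ?_
        field_simp
      · have p5 := mul_le_mul_of_nonneg_right p4 P0
        rw [show ‖x‖ ^ 2 * g2 (l (Sum.inr w)) x * h4P (U (Sum.inr w)) x =
          g2 (l (Sum.inr w)) x * ∑ j, U (Sum.inr w) x ![j] ^ 2 by unfold h4P; field_simp] at p5
        have := mul_le_mul_of_nonneg_left (p3.trans (mul_le_mul_of_nonneg_left p5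
          (by linarith))) hκ0
        refine le_of_eq_of_le ?_ (this.trans_eq (by ring))
        field_simp
  have s := Finset.sum_le_sum fun s (_ : s ∈ Finset.univ) => key s
  rw [← Finset.mul_sum, ← Finset.mul_sum, Finset.sum_add_distrib, ← Finset.mul_sum] at s
  have k := hg L H hL.1 hH U S hU hS hV
  rw [← le_inv_mul_iff₀ hc] at k
  have k2 := s.trans (mul_le_mul_of_nonneg_left (add_le_add_right
    (mul_le_mul_of_nonneg_left k (by positivity : 0 ≤ 2 * τ)) _) (by positivity))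
  have k3 := mul_le_mul_of_nonneg_left k2 (show 0 ≤ σ ^ 2 / 4 by positivity)
  refine le_of_eq_of_le ?_ (k3.trans_eq ?_)
  · unfold mu Atl.int; ring
  · unfold mu Atl.int; ring

end Crest.Agent.N207.M

end
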