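import Crest.Agent.N207.M.Defs
import Crest.Agent.N207.K.Hd8

/-!
# Row 207, X3 (helper5): the leaf `HG`
-/

set_option autoImplicit false

open scoped ContDiff ENNReal NNReal
open Metric Set Filter Topology MeasureTheory
open Crest.GeometryTopology.CoordMetric
open Crest.Agent.N207.I Crest.Agent.N207.CB Crest.Agent.N207.N Crest.Agent.N207.Hd

noncomputable section

namespace Crest.Agent.N207.M

variable {M : Type*} {T : TD M} {γ Λ θ : ℝ} {C : ℕ → ℝ} {L : T.V → ℝ} {H : Fam T}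

theorem Cls.ellG (h : T.Ok) (hH : Cls T γ C Λ L H) (hΛ : 2 ≤ Λ) (h0 : 0 < θ) (h1 : θ < 1) :
    EllG T θ Λ L (rt T L H) := fun s x hx => by
  refine ell_smul ?_ (sq_nonneg _)
  cases s with
  | inl a => exact hH.ellb a x ((mem_closedBall_zero_iff.1 hx).trans (by linarith))
  | inr w =>
    exact ell_mono (hH.elln w x (gKt_sub h h0 h1 _ hx)) (inv_anti₀ two_pos hΛ) hΛ

theorem hg (h : T.Ok) (hc : ∀ v, (T.base v).Conn) : HG T := by
  intro γ C Λ hΛ
  obtain ⟨θ, h1, h2, hθ⟩ := hardyG h hc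
  obtain ⟨D, hD⟩ := hθ Λ (by linarith)
  refine ⟨((D : ℝ) + 1)⁻¹, by positivity, fun L H hL hH U S hU hS hV => ?_⟩
  have hO := h.glob_ok hL
  have hχ := h.glob_pou hL
  have hb := hH.met
  obtain ⟨S', s1, s2, s3⟩ := hS.exists_cl hO
  have n1 : ∀ s, ∀ x ∈ (T.glob L).U s, 0 ≤ nsq (rt T L H s) (U s) x / Sk.rw T L s x ^ 2 :=
    fun s x hx => div_nonneg (nsq_nonneg (hb.riem s) hx _) (sq_nonneg _)
  have n2 : ∀ s, ∀ x ∈ (T.glob L).U s, 0 ≤ nsq (rt T L H s) (cov (rt T L H s) (U s)) x :=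
    fun s x hx => nsq_nonneg (hb.riem s) hx _
  have i1 : (T.glob L).Intg T.χ (rt T L H)
      fun s x => nsq (rt T L H s) (U s) x / Sk.rw T L s x ^ 2 :=
    Atl.intg_of_cs hO hb hχ hS (fun s => (hU.ct_ip hb hU s).div ((cont_rw s).pow 2).continuousOn
      fun x hx => (pow_pos (rw_pos s hx) 2).ne')
      ((hV.ip_left (G := rt T L H) U).of_imp fun s y _ e => by
        rw [show nsq (rt T L H s) (U s) y = 0 from e, zero_div])
  have i2 : (T.glob L).Intg T.χ (rt T L H) fun s => nsq (rt T L H s) (cov (rt T L H s) (U s)) :=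
    Atl.intg_of_cs hO hb hχ s2 ((hU.cov hO hb).ct_ip hb (hU.cov hO hb))
      (((hV.mono s1).cov hO s3).ip_left _)
  obtain ⟨K, k1, -, k3⟩ := hS.exists_cpt hO (hχ.sub (Sum.inr T.root)) (hχ.cl _)
  obtain ⟨R, hR⟩ := k1.isBounded.subset_closedBall 0
  have key := hD L _ hL hb (hH.ellG h hΛ (by linarith) h2) 1 U hU ⟨max (R + 1) 2, by
    rw [setLIntegral_congr_fun (measurableSet_le measurable_const measurable_norm)
      (g := fun _ => 0) fun x hx => ?_]
    · simp
    have x1 : R + 1 ≤ ‖x‖ := (le_max_left _ _).trans hx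
    have x2 : 2 ≤ ‖x‖ := (le_max_right _ _).trans hx
    have hx' : x ∈ (T.glob L).U (Sum.inr T.root) := ⟨by linarith, fun h => absurd rfl h⟩
    have : U (Sum.inr T.root) x = 0 := by
      by_contra h0
      have := mem_closedBall_zero_iff.1 (hR (k3 x hx' ⟨x, ⟨by linarith, fun h => absurd rfl h⟩, rfl⟩
        (hV _ x hx' h0)))
      linarith
    simp [nsq, ip, this, ipA_zero_left]⟩
  rw [← Atl.ofReal_int hO hχ i1 n1, ← Atl.ofReal_int hO hχ i2 n2, ENNReal.coe_nnreal_eq,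
    ← ENNReal.ofReal_mul D.coe_nonneg] at key
  have p := Atl.int_nonneg (G := rt T L H) hO hχ n2
  have := (ENNReal.ofReal_le_ofReal_iff (mul_nonneg D.coe_nonneg p)).1 key
  rw [inv_mul_le_iff₀ (by positivity)]
  linarith

end Crest.Agent.N207.M

end
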