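import Crest.Agent.N207.K.Ins3
import Crest.Agent.N207.K.Hd8
import Crest.Agent.N207.M.Rad

/-!
# Row 207, X3 (helper1): the leaf `LEX`
-/

set_option autoImplicit false

open Crest.Agent.N207.I Crest.Agent.N207.N

namespace Crest.Agent.N207.M

theorem lex {M : Type*} {T : TD M} (h : T.Ok) (hH : HG T) : LEX T := by
  intro γ C Λ L H hΛ hL hc F R' hF h0
  obtain ⟨c, c0, h1⟩ := hH γ C Λ hΛ
  obtain ⟨S, h2, h3⟩ := exists_cs h hL hF.compat h0
  exact K.lin_ex (h.glob_ok hL) (h.glob_pou hL) hc.met (fun s => (Hd.cont_rw s).continuousOn)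
    (fun s _ hx => Hd.rw_pos s hx) c0 (h1 L H hL hc) hF
    (Atl.intg_of_cs (h.glob_ok hL) hc.met (h.glob_pou hL) h2
      (fun s => ((Hd.cont_rw s).continuousOn.pow 2).mul (hF.ct_ip hc.met hF s))
      ((h3.ip_left F).of_imp fun b y _ e => by rw [nsq, e, mul_zero]))

end Crest.Agent.N207.M
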