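import Crest.Agent.N207.M.Df2
import Crest.Agent.N207.K.Pop3

/-!
# Row 207, X3 (helper91): expansion of the rough Laplacian on 1-forms, the leaves `M1`, `M2W`
-/

set_option autoImplicit false

open scoped ContDiff
open Metric Set Filter Topology MeasureTheory
open Crest.GeometryTopology.CoordMetric
open Crest.Agent.NLib.Ell Crest.Agent.N207.I Crest.Agent.N207.CB
open Crest.Agent.R238 (Ell)

noncomputable section

namespace Crest.Agent.N207.M

namespace Lx

/-- first order coefficients -/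
def lB (G : MetricField 4) (i j q : Fin 4) (y : E4) : ℝ :=
  -(∑ b, (G y)⁻¹ i b * christoffel G y q b j) - (∑ a, (G y)⁻¹ a i * christoffel G y q a j) -
    (if q = j then 1 else 0) * ∑ a, ∑ b, (G y)⁻¹ a b * christoffel G y i a b

/-- zero order coefficients -/
def lC (G : MetricField 4) (j q : Fin 4) (y : E4) : ℝ :=
  ∑ a, ∑ b, (G y)⁻¹ a b * (∑ m, christoffel G y m a b * christoffel G y q m j +
    ∑ m, christoffel G y m a j * christoffel G y q b m -
      pderiv a (fun z => christoffel G z q b j) y)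

theorem alg (H : Fin 4 → Fin 4 → ℝ) (Γ : Fin 4 → Fin 4 → Fin 4 → ℝ) (X : Fin 4 → Fin 4 → ℝ)
    (dX : Fin 4 → Fin 4 → Fin 4 → ℝ) (u pj : Fin 4 → ℝ) (p s : Fin 4 → Fin 4 → ℝ) :
    ∑ a, ∑ b, H a b * (s a b - ∑ m, (dX a m b * u m + X m b * p a m) -
      ∑ m, Γ m a b * (pj m - ∑ n, X n m * u n) - ∑ m, X m a * (p b m - ∑ n, Γ n b m * u n)) =
    ∑ a, ∑ b, H a b * s a b +
      (∑ i, ∑ q, (-(∑ b, H i b * X q b) - ∑ a, H a i * X q a) * p i q -
        ∑ i, (∑ a, ∑ b, H a b * Γ i a b) * pj i) +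
      ∑ q, (∑ a, ∑ b, H a b * (∑ m, Γ m a b * X q m + ∑ m, X m a * Γ q b m - dX a q b)) * u q := by
  simp only [Fin.sum_univ_four]
  ring

theorem lap_exp {G : MetricField 4} {o : Tn 4 1} {U : Set E4} (hG : IsRiemannianOn G U)
    (ho : SmT o U) {y : E4} (hy : y ∈ U) (j : Fin 4) :
    lapT G o y ![j] = ∑ a, ∑ b, (G y)⁻¹ a b * pderiv a (pderiv b fun z => o z ![j]) y +
      ∑ i, ∑ q, lB G i j q y * pderiv i (fun z => o z ![q]) y + ∑ q, lC G j q y * o y ![q] := by
  have hn := hG.isOpen.mem_nhds hy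
  have df : ∀ {f : E4 → ℝ}, ContDiffOn ℝ ∞ f U → DifferentiableAt ℝ f y := fun h =>
    (h.contDiffAt hn).differentiableAt (by simp)
  have d1 := fun m a b => df (sm_chr hG m a b)
  have d2 := fun m : Fin 4 => df (ho ![m])
  have d3 := fun b => df (sm_pd hG.isOpen (ho ![j]) b)
  have e : ∀ a b, cov G (cov G o) y ![a, b, j] = pderiv a (pderiv b fun z => o z ![j]) y -
      ∑ m, (pderiv a (fun z => christoffel G z m b j) y * o y ![m] +
        christoffel G y m b j * pderiv a (fun z => o z ![m]) y) -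
      ∑ m, christoffel G y m a b * (pderiv m (fun z => o z ![j]) y -
        ∑ n, christoffel G y n m j * o y ![n]) -
      ∑ m, christoffel G y m a j * (pderiv b (fun z => o z ![m]) y -
        ∑ n, christoffel G y n b m * o y ![n]) := fun a b => by
    simp only [cov_two, cov_one]
    rw [pd_sub a (d3 b) (DifferentiableAt.fun_sum fun m _ => (d1 m b j).fun_mul (d2 m)),
      pd_sum a _ fun m _ => (d1 m b j).fun_mul (d2 m)]
    simp only [fun m => pd_mul a (d1 m b j) (d2 m)]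
  have e0 : lapT G o y ![j] = ∑ a, ∑ b, (G y)⁻¹ a b * cov G (cov G o) y ![a, b, j] := rfl
  simp only [e0, e]
  refine (alg _ (christoffel G y) (fun m b => christoffel G y m b j)
    (fun a m b => pderiv a (fun z => christoffel G z m b j) y) (fun m => o y ![m])
    (fun m => pderiv m (fun z => o z ![j]) y) (fun a m => pderiv a (fun z => o z ![m]) y) _).trans ?_
  refine congrArg₂ (· + ·) (congrArg₂ (· + ·) rfl ?_) rfl
  simp only [lB, sub_mul, Finset.sum_sub_distrib, ite_mul, one_mul, zero_mul,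
    Finset.sum_ite_eq', Finset.mem_univ, if_true]

/-- `f d = O(w d)` in `C^{k,1/2}(U d)`, uniformly in `d` -/
def Og {D : Type*} (U : D → Set E4) (k : ℕ) (w : D → ℝ) (f : D → E4 → ℝ) : Prop :=
  ∃ C, 0 ≤ C ∧ ∀ d, CKA (1 / 2) (U d) k (C * w d) (f d)

namespace Og

variable {D : Type*} {U : D → Set E4} {k : ℕ} {w w' : D → ℝ} {f g : D → E4 → ℝ}

theorem of (h : ∀ d, CKA (1 / 2) (U d) k (w d) (f d)) : Og U k w f :=
  ⟨1, zero_le_one, fun d => by simpa only [one_mul] using h d⟩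

theorem of1 {C : ℝ} (h : ∀ d, CKA (1 / 2) (U d) k C (f d)) : Og U k 1 f :=
  ⟨|C|, abs_nonneg C, fun d => (h d).mono (by simpa using le_abs_self C)⟩

theorem const (c : ℝ) : Og U k 1 fun _ _ => c := of1 fun _ => CKA.const c

theorem pred (h : Og U (k + 1) w f) : Og U k w f := h.imp fun _ h => ⟨h.1, fun d => (h.2 d).pred⟩

theorem pd (h : Og U (k + 1) w f) (i : Fin 4) : Og U k w fun d => pderiv i (f d) :=
  h.imp fun _ h => ⟨h.1, fun d => (h.2 d).pd i⟩

theorem one {W : ℝ} (hw : ∀ d, w d ≤ W) (h : Og U k w f) : Og U k 1 f :=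
  let ⟨C, h0, h1⟩ := h
  of1 (C := C * W) fun d => (h1 d).mono (mul_le_mul_of_nonneg_left (hw d) h0)

variable (hU : ∀ d, IsOpen (U d))
include hU

theorem congr (h : Og U k w f) (e : ∀ d, ∀ y ∈ U d, g d y = f d y) : Og U k w g :=
  h.imp fun _ h => ⟨h.1, fun d => (h.2 d).congr (hU d) (e d)⟩

theorem add (hf : Og U k w f) (hg : Og U k w g) : Og U k w fun d y => f d y + g d y :=
  let ⟨C, h0, h1⟩ := hf
  let ⟨C', h2, h3⟩ := hg
  ⟨C + C', add_nonneg h0 h2, fun d => add_mul C C' (w d) ▸ (h1 d).add (hU d) (h3 d)⟩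

theorem neg (hf : Og U k w f) : Og U k w fun d y => -f d y :=
  hf.imp fun _ h => ⟨h.1, fun d => (h.2 d).neg (hU d)⟩

theorem sub (hf : Og U k w f) (hg : Og U k w g) : Og U k w fun d y => f d y - g d y := by
  simpa only [sub_eq_add_neg] using add hU hf (neg hU hg)

theorem mul (hf : Og U k w f) (hg : Og U k w' g) :
    Og U k (fun d => w d * w' d) fun d y => f d y * g d y :=
  let ⟨C, h0, h1⟩ := hf
  let ⟨C', h2, h3⟩ := hg
  ⟨2 ^ (k + 1) * (C * C'), by positivity, fun d =>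
    ((h1 d).mul (hU d) (h3 d)).mono (le_of_eq (by ring))⟩

theorem mul1 (hf : Og U k 1 f) (hg : Og U k w g) : Og U k w fun d y => f d y * g d y := by
  simpa only [Pi.one_apply, one_mul] using mul hU hf hg

theorem sum {ι : Type*} [Fintype ι] {F : ι → D → E4 → ℝ} (h : ∀ i, Og U k w (F i)) :
    Og U k w fun d y => ∑ i, F i d y := by
  choose C h0 h1 using h
  exact ⟨∑ i, C i, Finset.sum_nonneg fun i _ => h0 i, fun d =>
    Finset.sum_mul Finset.univ C (w d) ▸ CKA.sum (hU d) _ fun i _ => h1 i d⟩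

variable {G : D → MetricField 4} (hi : ∀ a b, Og U (k + 1) 1 fun d y => (G d y)⁻¹ a b)
  (hd : ∀ c a b, Og U (k + 1) w fun d => pderiv c fun y => G d y a b)
include hi hd

theorem chr (m a b : Fin 4) : Og U (k + 1) w fun d y => christoffel (G d) y m a b :=
  mul1 hU (const (1 / 2)) (sum hU fun l => mul1 hU (hi m l)
    (sub hU (add hU (hd a b l) (hd b a l)) (hd l a b)))

theorem lB (i j q : Fin 4) : Og U k w fun d => lB (G d) i j q :=
  have c := fun m a b => (chr hU hi hd m a b).pred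
  sub hU (sub hU (neg hU (sum hU fun b => mul1 hU (hi i b).pred (c q b j)))
    (sum hU fun a => mul1 hU (hi a i).pred (c q a j)))
    (mul1 hU (const _) (sum hU fun a => sum hU fun b => mul1 hU (hi a b).pred (c i a b)))

theorem lC {W : ℝ} (hw : ∀ d, w d ≤ W) (j q : Fin 4) : Og U k w fun d => lC (G d) j q :=
  have c := fun m a b => (chr hU hi hd m a b).pred
  sum hU fun a => sum hU fun b => mul1 hU (hi a b).pred (sub hU (add hU
    (sum hU fun m => mul1 hU ((c m a b).one hw) (c q m j))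
    (sum hU fun m => mul1 hU ((c m a j).one hw) (c q b m))) ((chr hU hi hd q b j).pd a))

end Og

end Lx

open Lx

theorem m2w : M2W := by
  intro k W
  obtain ⟨C0, -, h0⟩ := K.cka_inv (k + 1) (lo := 2⁻¹) (by norm_num) 2 (W + 1)
  let D := {p : Set E4 × MetricField 4 × Tn 4 1 × ℝ × ℝ // p.2.2.2.1 ≤ W ∧
    IsRiemannianOn p.2.1 p.1 ∧ SmT p.2.2.1 p.1 ∧
    (∀ a b, CKA (1 / 2) p.1 (k + 2) p.2.2.2.1 (TD.dv p.2.1 a b)) ∧ (∀ y ∈ p.1, Ell 2⁻¹ 2 (p.2.1 y)) ∧
    ∀ j, CKA (1 / 2) p.1 (k + 2) p.2.2.2.2 fun y => p.2.2.1 y ![j]}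
  have hU : ∀ d : D, IsOpen d.1.1 := fun d => d.2.2.1.isOpen
  have hv : ∀ a b, Og (fun d : D => d.1.1) (k + 2) (fun d => d.1.2.2.2.1)
      fun d => TD.dv d.1.2.1 a b := fun a b => .of fun d => d.2.2.2.2.1 a b
  have ho : ∀ j, Og (fun d : D => d.1.1) (k + 2) (fun d => d.1.2.2.2.2)
      fun d y => d.1.2.2.1 y ![j] := fun j => .of fun d => d.2.2.2.2.2.2 j
  have eG : ∀ (G : MetricField 4) a b, (fun y => G y a b) =
      fun y => TD.dv G a b y + (1 : Matrix (Fin 4) (Fin 4) ℝ) a b := fun G a b => by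
    funext y; simp [TD.dv]
  have hi : ∀ a b, Og (fun d : D => d.1.1) (k + 1) 1 fun d y => (d.1.2.1 y)⁻¹ a b := fun a b =>
    .of1 fun d => h0 _ _ (hU d) d.2.2.2.2.2.1 (fun a b => by
      rw [eG]
      refine ((d.2.2.2.2.1 a b).pred.add (hU d) (CKA.const _)).mono (add_le_add d.2.1 ?_)
      rw [Matrix.one_apply]; split_ifs <;> simp) a b
  have hd : ∀ c a b, Og (fun d : D => d.1.1) (k + 1) (fun d => d.1.2.2.2.1)
      fun d => pderiv c fun y => d.1.2.1 y a b := fun c a b => by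
    refine ((hv a b).pd c).congr hU fun d y _ => ?_
    rw [eG]; simp only [pderiv, fderiv_add_const]
  have key : ∀ j, Og (fun d : D => d.1.1) k (fun d => d.1.2.2.2.1 * d.1.2.2.2.2) fun d y =>
      lapT d.1.2.1 d.1.2.2.1 y ![j] - lap0 (fun z => d.1.2.2.1 z ![j]) y := fun j =>
    Og.congr hU (Og.add hU (Og.add hU (Og.sum hU fun a => Og.sum hU fun b => Og.mul hU
      (Og.neg hU (Og.sum hU fun c => Og.mul1 hU (hi a c).pred (hv c b).pred.pred))
      (((ho j).pd b).pd a)) (Og.sum hU fun i => Og.sum hU fun q => Og.mul hU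
        (Og.lB hU hi hd i j q) ((ho q).pd i).pred)) (Og.sum hU fun q => Og.mul hU
        (Og.lC hU hi hd (fun d => d.2.1) j q) (ho q).pred.pred)) fun d y hy => by
      rw [lap_exp d.2.2.1 d.2.2.2.1 hy]
      have e : ∀ a b, -∑ c, (d.1.2.1 y)⁻¹ a c * TD.dv d.1.2.1 c b y =
          (d.1.2.1 y)⁻¹ a b - (1 : Matrix (Fin 4) (Fin 4) ℝ) a b := fun a b => by
        have h1 := Matrix.nonsing_inv_mul _ (d.2.2.1.posDef y hy).det_pos.ne'.isUnit
        have h2 := congrFun (congrFun (Matrix.mul_sub (d.1.2.1 y)⁻¹ (d.1.2.1 y) 1) a) b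
        rw [h1, Matrix.mul_one, Matrix.mul_apply] at h2
        simp only [Matrix.sub_apply] at h2
        simp only [TD.dv, h2, neg_sub]
      simp only [e, sub_mul, Finset.sum_sub_distrib, Matrix.one_apply, ite_mul, one_mul, zero_mul,
        Finset.sum_ite_eq, Finset.mem_univ, if_true, lap0]
      ring
  choose C h1 h2 using key
  refine ⟨∑ j, C j + 1, by have := Finset.sum_nonneg fun j (_ : j ∈ Finset.univ) => h1 j; linarith,
    fun U G o w Mo hw hG hs hv' he ho' j => ?_⟩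
  rcases U.eq_empty_or_nonempty with rfl | ⟨x, hx⟩
  · exact CKA.empty _
  refine (h2 j ⟨(U, G, o, w, Mo), hw, hG, hs, hv', he, ho'⟩).mono (mul_le_mul_of_nonneg_right ?_
    (mul_nonneg ((hv' 0 0).nonneg hx) ((ho' 0).nonneg hx)))
  linarith [Finset.single_le_sum (fun j _ => h1 j) (Finset.mem_univ j)]

theorem m2 : M2 := fun k => m2w k 1

theorem m1 : M1 := by
  intro k Kc hK
  have K0 : 0 < Kc := by linarith
  obtain ⟨C0, -, h0⟩ := K.cka_inv (k + 1) (lo := Kc⁻¹) (by positivity) Kc Kc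
  let D := {G : MetricField 4 // (∀ a b, CKA (1 / 2) BB (k + 2) Kc fun y => G y a b) ∧
    ∀ y ∈ BB, Ell Kc⁻¹ Kc (G y)}
  have hU : ∀ _ : D, IsOpen BB := fun _ => isOpen_ball
  have hi : ∀ a b, Og (fun _ : D => BB) (k + 1) 1 fun d y => (d.1 y)⁻¹ a b := fun a b =>
    .of1 fun d => h0 _ _ isOpen_ball d.2.2 (fun a b => (d.2.1 a b).pred) a b
  have hd : ∀ c a b, Og (fun _ : D => BB) (k + 1) 1 fun d => pderiv c fun y => d.1 y a b :=
    fun c a b => (Og.of1 fun d : D => d.2.1 a b).pd c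
  have un : ∀ {f : D → E4 → ℝ}, Og (fun _ : D => BB) k 1 f →
      ∃ C, 0 ≤ C ∧ ∀ d, CKA (1 / 2) BB k C (f d) := fun h => by simpa [Og] using h
  obtain ⟨C1, c1, h1⟩ := K.ex_unif (V := fun _ : D => BB)
    (f := fun (i : Fin 4 × Fin 4) d y => (d.1 y)⁻¹ i.1 i.2) fun i => un (hi i.1 i.2).pred
  obtain ⟨C2, c2, h2⟩ := K.ex_unif (V := fun _ : D => BB)
    (f := fun (i : Fin 4 × Fin 4 × Fin 4) d => lB d.1 i.1 i.2.1 i.2.2)
    fun i => un (Og.lB hU hi hd _ _ _)
  obtain ⟨C3, c3, h3⟩ := K.ex_unif (V := fun _ : D => BB)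
    (f := fun (i : Fin 4 × Fin 4) d => lC d.1 i.1 i.2)
    fun i => un (Og.lC hU hi hd (W := 1) (fun _ => le_rfl) _ _)
  obtain ⟨C, hC, H⟩ := K.sys_radii 4 k (Fin 4) (a := 1 / 2) (lo := 1 / Kc) (hi := 1 / Kc⁻¹)
    (by norm_num) (by norm_num) (by positivity)
    (one_div_le_one_div_of_le (by positivity) ((inv_le_one_of_one_le₀ hK).trans hK))
    (M := C1 + C2 + C3) (by positivity) (r := 1 / 4) (R := 1 / 2) (by norm_num) (by norm_num)
    (by norm_num)
  refine ⟨8 * C, by positivity, fun G o N S hN hS hG ho hM he hf hI j => ?_⟩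
  refine (CKA.of_local (δ := 1 / 4) (M := C * (N + S)) (by norm_num) (by norm_num) (by norm_num)
    (by norm_num) fun x hx => ?_).mono (le_of_eq (by ring))
  have s1 : closedBall x (1 / 2) ⊆ BB := closedBall_subset_ball' (by
    have := mem_ball.1 hx; linarith)
  have s2 : ball x (1 / 2) ⊆ BB := ball_subset_closedBall.trans s1
  obtain ⟨V, hV⟩ := K.exists_cka (a := 1 / 2) (x0 := x) (R := 1 / 2) hG.isOpen
    (contDiffOn_pi.2 fun q : Fin 4 => ho ![q]) s1 (by norm_num) (by norm_num) 2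
  refine H x (fun y => (G y)⁻¹) (lB G) (lC G) (fun q y => o y ![q]) (fun q y => lapT G o y ![q])
    N S hN ⟨fun y hy => R238.Ell.inv (by positivity) ((inv_le_one_of_one_le₀ hK).trans hK) (he y (s2 hy)),
      fun a b => ((h1 (a, b) ⟨G, hM, he⟩).subset s2).mono (by linarith),
      fun i p q => ((h2 (i, p, q) ⟨G, hM, he⟩).subset s2).mono (by linarith),
      fun p q => ((h3 (p, q) ⟨G, hM, he⟩).subset s2).mono (by linarith),
      fun p => (hf p).subset s2, ⟨V, fun p => hV.apply isOpen_ball p⟩, hS,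
      fun p => (setIntegral_mono_set (hI p).1 (Eventually.of_forall fun _ => sq_nonneg _)
        (LE.le.eventuallyLE s2)).trans (hI p).2, fun p y hy => ?_⟩ j
  rw [lap_exp hG ho (s2 hy)]
  refine congrArg₂ (· + ·) (congrArg₂ (· + ·) (Finset.sum_congr rfl fun a _ =>
    Finset.sum_congr rfl fun b _ => ?_) rfl) rfl
  exact congrArg _ (K.D2_pd (c2At (ho _) hG.isOpen (s2 hy)) a b)

end Crest.Agent.N207.M

end
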