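import Crest.Agent.N207.M.Ce

/-!
# Row 207, X3 (helper16): neck decay in the cells (`NC`)
-/

set_option autoImplicit false

open scoped ContDiff ENNReal
open Metric Set Filter Topology MeasureTheory
open Crest.GeometryTopology.CoordMetric
open Crest.Agent.NLib.Ell Crest.Agent.N207.I Crest.Agent.N207.CB Crest.Agent.N207.N
  Crest.Agent.N207.Ga
open Crest.Agent.R238 (Ell)

noncomputable section

namespace Crest.Agent.N207.M

namespace Nc

theorem pd_sc (c r : ℝ) (x : E4) (f : E4 → ℝ) (i : Fin 4) :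
    pderiv i (fun y => c * f (x + r • y)) = fun y => c * r * pderiv i f (x + r • y) := by
  funext y
  have := fderiv_comp_smul (𝕜 := ℝ) (f := fun z => f (x + z)) (x := y) r
  rw [fderiv_comp_add_left] at this
  rw [pd_cmul, pderiv, this]
  simp [pderiv, mul_assoc]

theorem lap0_sc (c r : ℝ) (x : E4) (f : E4 → ℝ) :
    lap0 (fun y => c * f (x + r • y)) = fun y => c * r * r * lap0 f (x + r • y) := by
  funext y
  simp only [lap0, pd_sc, Finset.mul_sum]

theorem pd1_bdd {f : E4 → ℝ} {m : ℝ} (h : CKA (1 / 2) B1 1 m f) (i : Fin 4) :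
    |pderiv i f 0| ≤ m := (h.pd i).bdd (mem_ball_self one_pos)

theorem pd2_bdd {f : E4 → ℝ} {m : ℝ} (h : CKA (1 / 2) B1 2 m f) (i j : Fin 4) :
    |pderiv i (pderiv j f) 0| ≤ m := pd1_bdd (h.pd j) i

theorem prof_mul (a b g c P Q r : ℝ) : prof a b g (c * P) (c * Q) r = c * prof a b g P Q r := by
  unfold prof; ring

theorem prof_cell {a b g P Q r s : ℝ} (ha : 0 < a) (hb : 0 < b) (hg0 : 0 ≤ g) (hg : g ≤ 1)
    (hP : 0 ≤ P) (hQ : 0 ≤ Q) (hr : 0 < r) (h1 : r / 2 ≤ s) (h2 : s ≤ 2 * r) :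
    prof a b g P Q s ≤ 2 * prof a b g P Q r := by
  rcases le_total s r with h | h
  · exact prof_half ha hb hg0 hg hP hQ hr h1 h
  have hs : 0 < s := by linarith
  have e1 : (a / s) ^ g ≤ (a / r) ^ g := Real.rpow_le_rpow (by positivity) (by gcongr) hg0
  have e2 : (s / b) ^ g ≤ (2 * (r / b)) ^ g :=
    Real.rpow_le_rpow (by positivity) (by rw [← mul_div_assoc]; gcongr) hg0
  rw [Real.mul_rpow (by norm_num) (by positivity)] at e2
  have e3 : (2 : ℝ) ^ g ≤ 2 := by
    simpa using Real.rpow_le_rpow_of_exponent_le (by norm_num : (1 : ℝ) ≤ 2) hg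
  have e4 : 0 ≤ (a / r) ^ g := by positivity
  have e5 : 0 ≤ (r / b) ^ g := by positivity
  have e6 := mul_le_mul_of_nonneg_right e3 e5
  unfold prof
  nlinarith [mul_le_mul_of_nonneg_left e1 hQ, mul_le_mul_of_nonneg_left (e2.trans e6) hP,
    mul_nonneg hQ e4]

theorem lb_of_bd {o : Tn 4 1} (ho : SmT o BB) {B : ℝ} (hB : ∀ y ∈ BB, ∀ j, |o y ![j]| ≤ B) :
    LB ((volume.real BB + 1) * B) o := fun j => by
  have hv : volume BB < ⊤ := measure_ball_lt_top
  have h1 : ∀ y ∈ BB, ‖o y ![j] ^ 2‖ ≤ B ^ 2 := fun y hy => by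
    rw [norm_pow]; exact pow_le_pow_left₀ (norm_nonneg _) (hB y hy j) 2
  refine ⟨IntegrableOn.of_bound hv (((ho _).continuousOn.pow 2).aestronglyMeasurable
    measurableSet_ball) _ ((ae_restrict_iff' measurableSet_ball).2 (ae_of_all _ h1)),
    (le_abs_self _).trans ((norm_setIntegral_le_of_norm_le_const hv h1).trans ?_)⟩
  have : 0 ≤ volume.real BB := measureReal_nonneg
  rw [mul_pow, mul_comm]
  exact mul_le_mul_of_nonneg_right (by nlinarith) (sq_nonneg _)

theorem lb_mono {o : Tn 4 1} {S S' : ℝ} (h : LB S o) (h0 : 0 ≤ S) (h1 : S ≤ S') : LB S' o :=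
  fun j => ⟨(h j).1, (h j).2.trans (pow_le_pow_left₀ h0 h1 2)⟩

variable {M : Type*} {T : TD M} {L : T.V → ℝ} {om : T.S → Tn 4 1} {w : T.V}

/-- the components of `om` on the neck `w` -/
def vc (T : TD M) (L : T.V → ℝ) (om : T.S → Tn 4 1) (w : T.V) (j : Fin 4) (x : E4) : ℝ :=
  (T.eps L w ^ 2)⁻¹ * om (Sum.inr w) x ![j]

/-- the vector field of `om` on the neck `w` -/
def vf (T : TD M) (L : T.V → ℝ) (om : T.S → Tn 4 1) (w : T.V) (x : E4) : E4 :=
  WithLp.toLp 2 fun j => vc T L om w j x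

theorem vf_cmp (j : Fin 4) : (fun z => vf T L om w z j) = vc T L om w j := rfl

theorem clX_eq (x : E4) (j : Fin 4) : (fun y => clX T L om (Sum.inr w) x y ![j]) =
    fun y => (‖x‖ / 8)⁻¹ * vc T L om w j (x + (‖x‖ / 8) • y) := by
  funext y
  simp only [clX, vc, pt, rad, TD.un, Sum.elim_inr, id, Pi.smul_apply, smul_eq_mul, mul_inv]
  ring

theorem vf_sm (ho : (T.glob L).Sec om) :
    ContDiffOn ℝ ∞ (vf T L om w) ((T.glob L).U (Sum.inr w)) :=
  contDiffOn_euclidean.2 fun _ => contDiffOn_const.mul (ho.sm _ _)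

theorem vf_eqv (h : T.Ok) (hL : T.Long L) (ho : (T.glob L).Sec om) {γ : Iso4} (hγ : γ ∈ T.Γ w)
    {x : E4} (hx : x ∈ (T.glob L).U (Sum.inr w)) : vf T L om w (γ x) = γ (vf T L om w x) := by
  have e := ho.compat _ _ x γ ((h.glob_ok hL).tr_deck (a := Sum.inr w) hγ hx)
  refine γ.symm.injective ?_
  rw [γ.symm_apply_apply]
  ext i
  have h1 : γ.symm (vf T L om w (γ x)) i =
      inner ℝ (γ (EuclideanSpace.single i 1)) (vf T L om w (γ x)) := by
    rw [← γ.symm.inner_map_map, γ.symm_apply_apply, EuclideanSpace.inner_single_left]; simp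
  have h2 : fderiv ℝ γ x = (γ.toContinuousLinearEquiv : E4 →L[ℝ] E4) :=
    γ.toContinuousLinearEquiv.hasFDerivAt.fderiv
  have h3 : ∀ j : Fin 4, (fun _ : Fin 1 => j) = ![j] := fun j => by
    funext s; fin_cases s; rfl
  rw [h1, PiLp.inner_apply]
  simp only [vf, vc]
  rw [e]
  simp only [pullT, evT, Hd.sum_fin1, h2, h3, Finset.mul_sum]
  exact Finset.sum_congr rfl fun j _ => by simp; ring

end Nc

open Ce Nc

variable {M : Type*} {T : TD M}

theorem nc (h : T.Ok) (hM2 : M2W) (hC : CEL T) : NC T := by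
  intro γ γ' C Λ h0 h1 h2 h3 h4
  obtain ⟨K, hK, HC⟩ := hC γ C Λ h2 h3 h4
  have hK0 : 0 < K := by linarith
  obtain ⟨C2, c2, H2⟩ := hM2 2 (K * 2)
  obtain ⟨c, hc⟩ : ∃ c : ℝ, c = 1024 * (1 + C2 * K) := ⟨_, rfl⟩
  obtain ⟨D, hD⟩ : ∃ D : ℝ, D = (16 + γ'⁻¹) * c := ⟨_, rfl⟩
  have hc0 : 0 < C2 * K := by positivity
  have hc1 : 1024 ≤ c := by linarith
  have hD1 : 1 ≤ D := by nlinarith [inv_pos.2 h0]
  have hv : 0 ≤ volume.real BB := measureReal_nonneg
  refine ⟨(volume.real BB + 1) * (40960 * D), by positivity,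
    fun L H F om N hL hH hS w b P Q m hb hb' hP hQ hm => ?_⟩
  have hN := hS.nn
  have gk : ∀ x ∈ Hd.An (3 / 2) b, x ∈ T.gK L (Sum.inr w) := fun x hx =>
    ⟨hx.1, fun hw => hx.2.trans (hb' hw)⟩
  have hsub : Hd.An (3 / 2) b ⊆ (T.glob L).U (Sum.inr w) := fun x hx => by
    simpa [pt] using (HC L H hL hH _ x (gk x hx)).1 0 (mem_ball_self two_pos)
  have pos : ∀ x ∈ Hd.An (3 / 2) b, 0 < ‖x‖ := fun x hx => lt_of_lt_of_le (by norm_num) hx.1
  have hU := (h.glob_ok hL).isOpen (Sum.inr w)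
  have d2 : ∀ x ∈ Hd.An (3 / 2) b, ∀ i j k,
      ‖x‖ * |pderiv i (pderiv j (vc T L om w k)) x| ≤ 8 * m x := fun x hx i j k => by
    have e := pd2_bdd (((hm x hx).1 k).of_le (by norm_num)) i j
    have hp := pos x hx
    simp only [clX_eq, pd_sc, smul_zero, add_zero] at e
    rw [inv_mul_cancel₀ (by positivity), one_mul, abs_mul, abs_of_pos (by positivity)] at e
    linarith
  have d4 : ∀ x ∈ Hd.An (3 / 2) b, ∀ i j k, ‖x‖ ^ 3 * |pderiv i (pderiv j (lap0 (vc T L om w k))) x| ≤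
      (1 - γ' ^ 2) * prof (3 / 2) b γ' (c * P) (c * Q) ‖x‖ := fun x hx i j k => by
    obtain ⟨a1, a2, -, -, a5, a6⟩ := HC L H hL hH _ x (gk x hx)
    obtain ⟨b1, b2⟩ := a5 w rfl
    obtain ⟨m1, m2, -, -⟩ := hm x hx
    have hB : B1 ⊆ BB := ball_subset_ball (by norm_num)
    have hp := pos x hx
    have w0 := wt_nn (L := L) γ w x
    have w1 := wt_nn (L := L) γ' w x
    have m0 := (m1 0).nonneg (mem_ball_self one_pos)
    have k2 := H2 B1 _ _ _ _ (mul_le_mul_of_nonneg_left (wt_le2 h h2.le (hsub hx)) hK0.le)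
      (riemOn_mono a2 isOpen_ball hB) (sm_clX hS.sec fun y hy => a1 y (hB hy))
      (fun a b => (b2 a b).subset hB) (fun y hy => b1 y (hB hy)) m1 k
    have k3 := ((hS.yn _ x (gk x hx) k).sub isOpen_ball k2).congr
      (g := lap0 fun y => clX T L om (Sum.inr w) x y ![k]) isOpen_ball fun y hy => by
        rw [a6 om y (hB hy)]
        simp only [clY, hS.eq _ _ (a1 y (hB hy)), sub_sub_cancel]
    have e := pd2_bdd k3 i j
    simp only [clX_eq, lap0_sc, pd_sc, smul_zero, add_zero, kap, Sum.elim_inr] at e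
    rw [inv_mul_cancel₀ (by positivity), one_mul, abs_mul, abs_of_pos (by positivity)] at e
    have e1 : 0 ≤ N * T.wt γ' L w x := by positivity
    have e2 : 0 ≤ T.wt γ L w x * m x := by positivity
    have e3 := mul_le_mul_of_nonneg_left m2 (by positivity : 0 ≤ 1 + C2 * K)
    have e4 : 0 ≤ c * prof (3 / 2) b γ' P Q ‖x‖ := mul_nonneg (by linarith) (by linarith)
    have e5 : 1 / 2 ≤ 1 - γ' ^ 2 := by nlinarith
    rw [prof_mul]
    refine le_trans ?_ (mul_le_mul_of_nonneg_right e5 e4)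
    rw [hc]
    nlinarith [mul_nonneg hc0.le e1]
  haveI := h.fin w
  obtain ⟨A, a1, -, a2, a3⟩ := nd (V := vf T L om w) (P := c * P) (Q := c * Q) (h.ne_bot w) (h.free w)
    (by norm_num : (0 : ℝ) < 3 / 2) (by linarith) h0 (by linarith) (by positivity) (by positivity) hU
    hsub (vf_sm hS.sec) (fun g hg x hx => vf_eqv h hL hS.sec hg hx) d4
    (fun x hx e i j k => by
      have := d2 x hx i j k
      rw [e] at this
      rw [vf_cmp]
      nlinarith [(hm x hx).2.2.1 e])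
    fun x hx e i j k => by
      have := d2 x hx i j k
      rw [e] at this
      rw [vf_cmp]
      nlinarith [(hm x hx).2.2.2 e]
  have p0 : ∀ r, 0 ≤ r → 0 ≤ prof (3 / 2) b γ' P Q r := fun r hr =>
    prof_nonneg (by norm_num) (by linarith) hP hQ hr
  refine ⟨A, a1, ?_, fun x0 b1 b2 => ?_⟩
  · set x : E4 := EuclideanSpace.single 0 b with hx
    have nx : ‖x‖ = b := by rw [hx, EuclideanSpace.norm_single, Real.norm_of_nonneg (by linarith)]
    have hx1 : x ∈ Hd.An (3 / 2) b := ⟨by linarith, nx.le⟩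
    have e1 := a2 x ⟨by linarith, nx.le⟩
    have hd := ((vf_sm hS.sec (w := w)).contDiffAt (hU.mem_nhds (hsub hx1))).differentiableAt
      (by simp)
    have e2 : ‖fderiv ℝ (vf T L om w) x‖ ≤ ∑ _i : Fin 4, ∑ _k : Fin 4, P := by
      refine (opNorm_le_sum _).trans (Finset.sum_le_sum fun i _ => (norm_le_sum _).trans
        (Finset.sum_le_sum fun k _ => ?_))
      have e := pd1_bdd (((hm x hx1).1 k).of_le (by norm_num)) i
      have hp := pos x hx1
      simp only [clX_eq, pd_sc, smul_zero, add_zero] at e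
      rw [inv_mul_cancel₀ (by positivity), one_mul, ← vf_cmp, pd_cmp hd] at e
      exact e.trans ((hm x hx1).2.2.2 nx)
    have e3 : P ≤ prof (3 / 2) b γ' P Q b := by
      rw [prof, div_self (by linarith), Real.one_rpow, mul_one]
      exact le_add_of_nonneg_right (by positivity)
    have e4 := norm_sub_norm_le A (fderiv ℝ (vf T L om w) x)
    rw [norm_sub_rev] at e4
    rw [nx, prof_mul, mul_assoc, ← mul_assoc _ c, ← hD] at e1
    simp only [Finset.sum_const, Finset.card_univ, Fintype.card_fin, nsmul_eq_mul,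
      Nat.cast_ofNat] at e2
    have e5 := p0 b (by linarith)
    have e6 : 0 ≤ D * prof (3 / 2) b γ' P Q b := by positivity
    have e7 := mul_le_mul_of_nonneg_right hD1 e5
    nlinarith [mul_nonneg hv e6]
  · have hx1 : x0 ∈ Hd.An (3 / 2) b := ⟨by linarith, by linarith⟩
    have hp := pos x0 hx1
    rw [mul_assoc]
    refine lb_of_bd ((sm_clX hS.sec (HC L H hL hH _ x0 (gk x0 hx1)).1).sub
      (sm_lin A (norm_pos_iff.1 hp) _)) fun y hy j => ?_
    set z := x0 + (‖x0‖ / 8) • y with hz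
    have n1 : ‖(‖x0‖ / 8) • y‖ ≤ ‖x0‖ / 4 := by
      rw [norm_smul, Real.norm_of_nonneg (by positivity)]
      nlinarith [mem_ball_zero_iff.1 hy]
    have n2 : ‖z‖ ≤ 5 / 4 * ‖x0‖ := (norm_add_le _ _).trans (by linarith)
    have n3 : 3 / 4 * ‖x0‖ ≤ ‖z‖ := by
      have := norm_sub_le z ((‖x0‖ / 8) • y)
      rw [hz, add_sub_cancel_right] at this
      linarith
    have e1 := a3 z ⟨by linarith, by linarith⟩
    have e2 := prof_cell (P := P) (Q := Q) (by norm_num : (0 : ℝ) < 3 / 2) (by linarith : 0 < b)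
      h0.le (by linarith) hP hQ hp (by linarith : ‖x0‖ / 2 ≤ ‖z‖) (by linarith)
    have e3 : (clX T L om (Sum.inr w) x0 - lin A x0) y ![j] =
        (‖x0‖ / 8)⁻¹ * (vf T L om w z - A z) j := by
      have := congrFun (clX_eq (T := T) (L := L) (om := om) (w := w) x0 j) y
      simp only [Pi.sub_apply, this, lin, PiLp.sub_apply, mul_sub, Matrix.cons_val_zero, hz]
      rfl
    have e4 : |(vf T L om w z - A z) j| ≤ ‖vf T L om w z - A z‖ :=
      PiLp.norm_apply_le (vf T L om w z - A z) j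
    have e5 : ‖z‖ * prof (3 / 2) b γ' P Q ‖z‖ ≤ 5 / 4 * ‖x0‖ * (2 * prof (3 / 2) b γ' P Q ‖x0‖) :=
      mul_le_mul n2 e2 (p0 _ (norm_nonneg _)) (by positivity)
    rw [e3, abs_mul, abs_of_pos (by positivity), inv_mul_le_iff₀ (by positivity)]
    rw [prof_mul] at e1
    have e6 : 2048 * (16 + γ'⁻¹) * (‖z‖ * (c * prof (3 / 2) b γ' P Q ‖z‖)) =
        2048 * D * (‖z‖ * prof (3 / 2) b γ' P Q ‖z‖) := by rw [hD]; ring
    have e7 := mul_le_mul_of_nonneg_left e5 (by positivity : 0 ≤ 2048 * D)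
    linarith

end Crest.Agent.N207.M

end
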