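import Crest.Agent.N207.M.Nd1
import Crest.Agent.N207.I.Defs

/-!
# Row 207, gauge block (helper50): neck decay of equivariant vector fields (`nd`)
-/

set_option autoImplicit false
open Set Filter Topology Metric
open scoped ContDiff RealInnerProductSpace
open Crest.GeometryTopology.CoordMetric

noncomputable section

namespace Crest.Agent.N207.M

open Hd I

variable {F : Type*} [NormedAddCommGroup F] [NormedSpace ℝ F] {f : E4 → F} {x y : E4}
  {a b g P Q ρ K : ℝ}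

theorem seg_le (hρ : 0 < ρ) (hd : ∀ z ∈ An (ρ / 2) ρ, DifferentiableAt ℝ f z)
    (hK : ∀ z ∈ An (ρ / 2) ρ, ‖fderiv ℝ f z‖ ≤ K) (hx : ‖x‖ = ρ) (hy : ‖y‖ = ρ)
    (hxy : 0 ≤ ⟪x, y⟫) : ‖f x - f y‖ ≤ 2 * ρ * K := by
  have hs : segment ℝ x y ⊆ An (ρ / 2) ρ := by
    rintro z ⟨s, t, hs, ht, hst, rfl⟩
    refine ⟨?_, ?_⟩
    · have e : ‖s • x + t • y‖ ^ 2 = s ^ 2 * ρ ^ 2 + 2 * (s * t * ⟪x, y⟫) + t ^ 2 * ρ ^ 2 := by
        rw [norm_add_sq_real, norm_smul, norm_smul, hx, hy, real_inner_smul_left,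
          real_inner_smul_right, Real.norm_of_nonneg hs, Real.norm_of_nonneg ht]
        ring
      refine (pow_le_pow_iff_left₀ (by positivity) (norm_nonneg _) two_ne_zero).1 ?_
      · have h1 : 0 ≤ s * t * ⟪x, y⟫ := by positivity
        have h2 : 1 / 4 ≤ s ^ 2 + t ^ 2 := by nlinarith [sq_nonneg (s - t)]
        nlinarith [mul_le_mul_of_nonneg_right h2 (sq_nonneg ρ)]
    · refine (norm_add_le _ _).trans ?_
      rw [norm_smul, norm_smul, hx, hy, Real.norm_of_nonneg hs, Real.norm_of_nonneg ht, ← add_mul,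
        hst, one_mul]
  have h := (convex_segment x y).norm_image_sub_le_of_norm_fderiv_le (fun z hz => hd z (hs hz))
    (fun z hz => hK z (hs hz)) (right_mem_segment ℝ x y) (left_mem_segment ℝ x y)
  have hK0 : 0 ≤ K := (norm_nonneg _).trans (hK x (hs (left_mem_segment ℝ x y)))
  have h2 : ‖x - y‖ ≤ 2 * ρ := by linarith [norm_sub_le x y]
  nlinarith [mul_le_mul_of_nonneg_left h2 hK0]

theorem exists_mid (hρ : 0 < ρ) (hx : ‖x‖ = ρ) (hy : ‖y‖ = ρ) :
    ∃ z : E4, ‖z‖ = ρ ∧ 0 ≤ ⟪x, z⟫ ∧ 0 ≤ ⟪z, y⟫ := by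
  by_cases h : x + y = 0
  · refine ⟨!₂[-x 1, x 0, -x 3, x 2], ?_, ?_, ?_⟩
    · rw [← hx, ← sq_eq_sq₀ (norm_nonneg _) (norm_nonneg _), norm_sq_eq, norm_sq_eq]
      simp [Fin.sum_univ_four]; ring
    · simp [PiLp.inner_apply, Fin.sum_univ_four]; linarith
    · rw [eq_neg_of_add_eq_zero_right h]
      simp [PiLp.inner_apply, Fin.sum_univ_four]; linarith
  · have hp : 0 < ‖x + y‖ := norm_pos_iff.2 h
    have h1 : -(ρ * ρ) ≤ ⟪x, y⟫ := by
      have := abs_real_inner_le_norm x y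
      rw [hx, hy] at this
      exact (abs_le.1 this).1
    refine ⟨(ρ / ‖x + y‖) • (x + y), ?_, ?_, ?_⟩
    · rw [norm_smul, Real.norm_of_nonneg (by positivity), div_mul_cancel₀ _ hp.ne']
    · rw [real_inner_smul_right, inner_add_right, real_inner_self_eq_norm_mul_norm, hx]
      exact mul_nonneg (by positivity) (by linarith)
    · rw [real_inner_smul_left, inner_add_left, real_inner_self_eq_norm_mul_norm, hy]
      exact mul_nonneg (by positivity) (by linarith)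

/-- oscillation on a sphere -/
theorem sph_le (hρ : 0 < ρ) (hd : ∀ z ∈ An (ρ / 2) ρ, DifferentiableAt ℝ f z)
    (hK : ∀ z ∈ An (ρ / 2) ρ, ‖fderiv ℝ f z‖ ≤ K) (hx : ‖x‖ = ρ) (hy : ‖y‖ = ρ) :
    ‖f x - f y‖ ≤ 4 * ρ * K := by
  obtain ⟨z, hz, h1, h2⟩ := exists_mid hρ hx hy
  linarith [seg_le hρ hd hK hx hz h1, seg_le hρ hd hK hz hy h2, norm_sub_le_norm_sub_add_norm_sub
    (f x) (f z) (f y)]

theorem prof_half (ha : 0 < a) (hb : 0 < b) (hg0 : 0 ≤ g) (hg : g ≤ 1) (hP : 0 ≤ P) (hQ : 0 ≤ Q)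
    {r s : ℝ} (hr : 0 < r) (h1 : r / 2 ≤ s) (h2 : s ≤ r) :
    prof a b g P Q s ≤ 2 * prof a b g P Q r := by
  have hs : 0 < s := by linarith
  have e1 : (s / b) ^ g ≤ (r / b) ^ g := Real.rpow_le_rpow (by positivity) (by gcongr) hg0
  have e2 : (a / s) ^ g ≤ (2 * (a / r)) ^ g := by
    refine Real.rpow_le_rpow (by positivity) ?_ hg0
    rw [← mul_div_assoc, div_le_div_iff₀ hs hr]; nlinarith
  rw [Real.mul_rpow (by norm_num) (by positivity)] at e2
  have e3 : (2 : ℝ) ^ g ≤ 2 := by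
    simpa using Real.rpow_le_rpow_of_exponent_le (by norm_num : (1 : ℝ) ≤ 2) hg
  have e4 : 0 ≤ (a / r) ^ g := by positivity
  have e5 : 0 ≤ (r / b) ^ g := by positivity
  have e6 := mul_le_mul_of_nonneg_right e3 e4
  unfold prof
  nlinarith [mul_le_mul_of_nonneg_left e1 hP, mul_le_mul_of_nonneg_left (e2.trans e6) hQ,
    mul_nonneg hP e5]

/-- the radial step -/
theorem rad_le (ha : 0 < a) (hg0 : 0 < g) (hP : 0 ≤ P) (hQ : 0 ≤ Q)
    (hd : ∀ z ∈ An a b, DifferentiableAt ℝ f z)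
    (hK : ∀ z ∈ An a b, ‖z‖ * ‖fderiv ℝ f z‖ ≤ prof a b g P Q ‖z‖) (hx : x ∈ An a b) {T : ℝ}
    (hT : 0 ≤ T) (hy : Real.exp T * ‖x‖ ≤ b) :
    ‖f (Real.exp T • x) - f x‖ ≤
      g⁻¹ * (prof a b g P Q ‖x‖ + prof a b g P Q (Real.exp T * ‖x‖)) := by
  have hp := pos_of_An ha hx
  have hb : 0 < b := hp.trans_le hx.2
  have hn : ∀ t : ℝ, ‖Real.exp t • x‖ = Real.exp t * ‖x‖ := fun t => by
    rw [norm_smul, Real.norm_of_nonneg (Real.exp_pos t).le]
  have hm : ∀ t ∈ Icc 0 T, Real.exp t • x ∈ An a b := fun t ht => by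
    refine ⟨?_, ?_⟩ <;> rw [hn]
    · nlinarith [Real.one_le_exp ht.1, hx.1]
    · nlinarith [Real.exp_le_exp.2 ht.2]
  have hder : ∀ t ∈ Icc 0 T, HasDerivAt (fun s => f (Real.exp s • x) - f x)
      (fderiv ℝ f (Real.exp t • x) (Real.exp t • x)) t := fun t ht =>
    ((hd _ (hm t ht)).hasFDerivAt.comp_hasDerivAt t
      ((Real.hasDerivAt_exp t).smul_const x)).sub_const _
  set p := P * (‖x‖ / b) ^ g with hp'
  set q := Q * (a / ‖x‖) ^ g with hq'
  have e1 : ∀ t : ℝ, prof a b g P Q (Real.exp t * ‖x‖) =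
      p * Real.exp (g * t) + q * Real.exp (-(g * t)) := fun t => by
    have h1 : Real.exp t ^ g = Real.exp (g * t) := by rw [mul_comm, Real.exp_mul]
    unfold prof
    rw [mul_div_assoc, Real.mul_rpow (Real.exp_pos t).le (by positivity), h1,
      show a / (Real.exp t * ‖x‖) = a / ‖x‖ / Real.exp t by field_simp,
      Real.div_rpow (by positivity) (Real.exp_pos t).le, h1, Real.exp_neg, hp', hq']
    ring
  have hB : ∀ t : ℝ, HasDerivAt
      (fun s => g⁻¹ * (p * (Real.exp (g * s) - 1) + q * (1 - Real.exp (-(g * s)))))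
      (p * Real.exp (g * t) + q * Real.exp (-(g * t))) t := fun t => by
    have h1 : HasDerivAt (fun s => g * s) g t := by simpa using (hasDerivAt_id t).const_mul g
    have h2 := ((((h1.exp.sub_const 1).const_mul p).add
      ((h1.neg.exp.const_sub 1).const_mul q)).const_mul g⁻¹)
    refine h2.congr_deriv ?_
    simp only [Pi.neg_apply]
    field_simp
  have key := image_norm_le_of_norm_deriv_right_le_deriv_boundary
    (fun t ht => (hder t ht).continuousAt.continuousWithinAt)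
    (fun t ht => (hder t (Ico_subset_Icc_self ht)).hasDerivWithinAt) (by simp) hB
    (fun t ht => by
      have h1 := hK _ (hm t (Ico_subset_Icc_self ht))
      rw [← e1, ← hn]
      refine ((fderiv ℝ f _).le_opNorm _).trans ?_
      linarith) (right_mem_Icc.2 hT)
  refine key.trans (mul_le_mul_of_nonneg_left ?_ (by positivity))
  have e0 := e1 0
  simp only [Real.exp_zero, one_mul, mul_zero, neg_zero, mul_one] at e0
  have p0 : 0 ≤ p := by positivity
  have q0 : 0 ≤ q := by positivity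
  rw [e0, e1]
  nlinarith [mul_nonneg q0 (Real.exp_pos (-(g * T))).le]

/-- two points of an annulus -/
theorem chain_le (ha : 0 < a) (hg0 : 0 < g) (hg : g ≤ 1) (hP : 0 ≤ P) (hQ : 0 ≤ Q)
    (hd : ∀ z ∈ An a b, DifferentiableAt ℝ f z)
    (hK : ∀ z ∈ An a b, ‖z‖ * ‖fderiv ℝ f z‖ ≤ prof a b g P Q ‖z‖) (hx : x ∈ An (2 * a) b)
    (hy : y ∈ An (2 * a) b) :
    ‖f x - f y‖ ≤ (16 + g⁻¹) * (prof a b g P Q ‖x‖ + prof a b g P Q ‖y‖) := by
  wlog h : ‖x‖ ≤ ‖y‖ generalizing x y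
  · rw [norm_sub_rev, add_comm (prof a b g P Q ‖x‖)]
    exact this hy hx (not_le.1 h).le
  have hx0 : 0 < ‖x‖ := pos_of_An (by linarith) hx
  have hy0 : 0 < ‖y‖ := pos_of_An (by linarith) hy
  have hb : 0 < b := hy0.trans_le hy.2
  have hT : Real.exp (Real.log (‖y‖ / ‖x‖)) * ‖x‖ = ‖y‖ := by
    rw [Real.exp_log (by positivity), div_mul_cancel₀ _ hx0.ne']
  have h1 := rad_le ha hg0 hP hQ hd hK (An_mono (by linarith) le_rfl hx)
    (Real.log_nonneg ((one_le_div hx0).2 h)) (hT.le.trans hy.2)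
  rw [hT] at h1
  have hs : An (‖y‖ / 2) ‖y‖ ⊆ An a b := An_mono (by linarith [hy.1]) hy.2
  have h2 := sph_le (K := 4 * prof a b g P Q ‖y‖ / ‖y‖) (x := Real.exp (Real.log (‖y‖ / ‖x‖)) • x)
    hy0 (fun z hz => hd z (hs hz)) (fun z hz => by
      have a1 := hK z (hs hz)
      have a2 := prof_half ha hb hg0.le hg hP hQ hy0 hz.1 hz.2
      rw [le_div_iff₀ hy0]
      nlinarith [hz.1, norm_nonneg (fderiv ℝ f z)])
    (by rw [norm_smul, Real.norm_of_nonneg (Real.exp_pos _).le, hT]) rfl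
  rw [show 4 * ‖y‖ * (4 * prof a b g P Q ‖y‖ / ‖y‖) = 16 * prof a b g P Q ‖y‖ by field_simp; ring]
    at h2
  have h3 := prof_nonneg (g := g) ha.le hb.le hP hQ hx0.le
  rw [norm_sub_rev] at h1
  linarith [norm_sub_le_norm_sub_add_norm_sub (f x) (f (Real.exp (Real.log (‖y‖ / ‖x‖)) • x)) (f y)]

theorem opNorm_le_sum (T : E4 →L[ℝ] F) : ‖T‖ ≤ ∑ i, ‖T (EuclideanSpace.single i 1)‖ := by
  refine T.opNorm_le_bound (Finset.sum_nonneg fun _ _ => norm_nonneg _) fun v => ?_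
  have h : v = ∑ j, v j • EuclideanSpace.single j (1 : ℝ) := by
    ext l; simp [Pi.single_apply]
  conv_lhs => rw [h, map_sum]
  rw [Finset.sum_mul]
  refine (norm_sum_le _ _).trans (Finset.sum_le_sum fun i _ => ?_)
  rw [map_smul, norm_smul, mul_comm]
  exact mul_le_mul_of_nonneg_left (PiLp.norm_apply_le v i) (norm_nonneg _)

theorem norm_le_sum (v : E4) : ‖v‖ ≤ ∑ k, |v k| := by
  have h : v = ∑ j, v j • EuclideanSpace.single j (1 : ℝ) := by
    ext l; simp [Pi.single_apply]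
  conv_lhs => rw [h]
  refine (norm_sum_le _ _).trans (Finset.sum_le_sum fun i _ => ?_)
  simp [norm_smul]

theorem pd_cmp {V : E4 → E4} (hV : DifferentiableAt ℝ V x) (j k : Fin 4) :
    pderiv j (fun y => V y k) x = fderiv ℝ V x (EuclideanSpace.single j 1) k := by
  have h := ((EuclideanSpace.proj k : E4 →L[ℝ] ℝ).hasFDerivAt.comp x hV.hasFDerivAt).fderiv
  exact congrArg (fun T : E4 →L[ℝ] ℝ => T (EuclideanSpace.single j 1)) h

theorem norm_D2_le {V : E4 → E4} (hV : ContDiffAt ℝ 2 V x) {m : ℝ}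
    (h : ∀ i j k, |pderiv i (pderiv j fun y => V y k) x| ≤ m) :
    ‖fderiv ℝ (fderiv ℝ V) x‖ ≤ 64 * m := by
  have hd : DifferentiableAt ℝ (fderiv ℝ V) x :=
    (hV.fderiv_right (m := 1) (by norm_num)).differentiableAt (by norm_num)
  have e : ∀ i j k, pderiv i (pderiv j fun y => V y k) x =
      fderiv ℝ (fderiv ℝ V) x (EuclideanSpace.single i 1) (EuclideanSpace.single j 1) k := by
    intro i j k
    have e1 : (pderiv j fun y => V y k) =ᶠ[𝓝 x] fun y => fderiv ℝ V y (EuclideanSpace.single j 1) k :=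
      ((hV.eventually (by simp)).mono fun y hy => pd_cmp (hy.differentiableAt (by norm_num)) j k)
    rw [pd_congr i e1, pd_cmp (hd.clm_apply (differentiableAt_const _)),
      fderiv_clm_apply hd (differentiableAt_const _)]
    simp
  refine (opNorm_le_sum _).trans ?_
  calc _ ≤ ∑ _i : Fin 4, ∑ _j : Fin 4, ∑ _k : Fin 4, m :=
        Finset.sum_le_sum fun i _ => (opNorm_le_sum _).trans (Finset.sum_le_sum fun j _ =>
          (norm_le_sum _).trans (Finset.sum_le_sum fun k _ => e i j k ▸ h i j k))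
    _ = 64 * m := by simp; ring

end Crest.Agent.N207.M

end
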