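import Crest.Agent.N207.M.Defs
import Crest.Agent.N207.A.Arr
import Crest.Agent.N207.A.Co2
import Crest.Agent.N207.T.Lo1
import Crest.Agent.N207.GE.Rad
import Crest.Agent.R238.HBMat

/-!
# Row 207, X3 (helper16): the pointwise leaves `PW`, `PE`
-/

set_option autoImplicit false

open Finset
open Crest.GeometryTopology.CoordMetric Crest.GeometryTopology.ChartCurvature
open Crest.Agent.R238 (Ell)
open Crest.Agent.R202.Tens

noncomputable section

namespace Crest.Agent.N207.M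

theorem pw_sum1 (f : (Fin 1 → Fin 4) → ℝ) : ∑ I, f I = ∑ j, f ![j] := by
  rw [AI.sum_cons]
  simp only [Fintype.sum_unique]
  rfl

theorem pw_sum2 (f : (Fin 2 → Fin 4) → ℝ) : ∑ I, f I = ∑ i, ∑ j, f ![i, j] := by
  rw [AI.sum_cons]
  simp only [pw_sum1]
  rfl

theorem pe : PE := by
  intro Λ hΛ
  have h0 : 0 < Λ⁻¹ := by positivity
  obtain ⟨L, hL⟩ : ∃ L, L = ((4 : ℕ) : ℝ) ^ 2 * (|Λ| + 1) / min Λ⁻¹ 1 := ⟨_, rfl⟩
  have L0 : 0 ≤ L := by rw [hL]; positivity
  have e1 := Real.one_le_exp L0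
  refine ⟨Λ * Real.exp L, one_le_mul_of_one_le_of_one_le hΛ e1, fun G o x h => ?_⟩
  have hA := h.posDef h0
  have hd := Real.sqrt_pos.2 (h.det_pos h0)
  have h1 := abs_le.1 (hL ▸ h.abs_logdet_le h0)
  have h2 : Real.log √(G x).det = Real.log (G x).det / 2 := Real.log_sqrt (h.det_pos h0).le
  have d1 : √(G x).det ≤ Real.exp L := (Real.log_le_iff_le_exp hd).1 (by linarith [h1.2])
  have d2 : 1 ≤ Real.exp L * √(G x).det := by
    have := (Real.le_log_iff_exp_le hd).1 (show -L ≤ _ by linarith [h1.1])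
    rwa [Real.exp_neg, inv_le_iff_one_le_mul₀' (Real.exp_pos L)] at this
  have n1 := Ar.sum_sq_le_ipA hA (c := Λ) (by linarith) (fun v => by
    rw [bil_apply, EuclideanSpace.real_norm_sq_eq]; exact (h.2 v).2) (o x)
  have n2 := Ar.ipA_le_sum_sq hA (c := Λ) (by linarith) (fun v => by
    rw [bil_apply, EuclideanSpace.real_norm_sq_eq, ← inv_mul_le_iff₀ (by linarith)]
    exact (h.2 v).1) (o x)
  have n0 := Ar.ipA_nonneg hA (o x)
  rw [pow_one, pw_sum1] at n1 n2
  unfold nsq ip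
  refine ⟨n1.trans ?_, (mul_le_mul d1 n2 n0 (Real.exp_pos L).le).trans_eq (by ring)⟩
  nlinarith [mul_le_mul_of_nonneg_left d2 (mul_nonneg (zero_le_one.trans hΛ) n0)]

theorem pw : PW := by
  intro τ hτ
  obtain ⟨δ, d0, d1, d2⟩ : ∃ δ : ℝ, 0 < δ ∧ δ ≤ 1 / 100 ∧ 100 * δ ≤ τ :=
    ⟨min τ 1 / 100, by positivity, by linarith [min_le_right τ 1], by linarith [min_le_left τ 1]⟩
  obtain ⟨η, hη, hd⟩ := T.near_one d0
  refine ⟨min η (δ / 100), by positivity, fun G o f x ρ hρ hA h1 h2 => ?_⟩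
  have N : Sk.Near (G x) δ := fun a b => (h1 a b).trans ((min_le_right _ _).trans (by linarith))
  have lo := (hd (G x) fun a b => (h1 a b).trans (min_le_left _ _)).1
  have hi : √(G x).det ≤ 1 + 9 * δ := N.sqrt_det_le.trans (by nlinarith)
  have b1 : ∀ v : E4, bil (G x) v v ≤ (1 + 9 * δ) * ‖v‖ ^ 2 := fun v =>
    (N.bil_le v).trans (mul_le_mul_of_nonneg_right (by nlinarith) (sq_nonneg _))
  have b2 : ∀ v : E4, ‖v‖ ^ 2 ≤ (1 + 9 * δ) * bil (G x) v v := fun v => by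
    have := mul_le_mul_of_nonneg_left (N.le_bil (by linarith) v) (by linarith : 0 ≤ 1 + 9 * δ)
    have k : 1 ≤ (1 + 9 * δ) * (1 - 4 * δ) ^ 2 := by nlinarith [mul_pos d0 d0, pow_pos d0 3]
    nlinarith [mul_le_mul_of_nonneg_right k (sq_nonneg ‖v‖)]
  have k0 : 0 ≤ 1 + 9 * δ := by linarith
  have hE : Ell 2⁻¹ 2 (G x) := ⟨fun i j => by simpa using hA.isHermitian.apply j i, fun z => by
    have c1 := b1 (WithLp.toLp 2 z)
    have c2 := b2 (WithLp.toLp 2 z)
    have c3 := Ar.bil_nonneg hA (WithLp.toLp 2 z)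
    rw [bil_apply] at c1 c2 c3
    rw [EuclideanSpace.real_norm_sq_eq] at c1 c2
    have c4 : 0 ≤ ∑ i, z i ^ 2 := sum_nonneg fun _ _ => sq_nonneg _
    constructor <;> nlinarith⟩
  have s1 := Ar.sum_sq_le_ipA hA k0 b1 (o x)
  have s2 := Ar.sum_sq_le_ipA hA k0 b1 (cov G o x)
  have s3 := Ar.ipA_le_sum_sq hA k0 b2 (o x)
  have s4 := Ar.ipA_le_sum_sq hA k0 b2 (dT f x)
  have z1 := Ar.ipA_nonneg hA (o x)
  have z2 := Ar.ipA_nonneg hA (cov G o x)
  have z3 := Ar.ipA_nonneg hA (dT f x)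
  rw [pow_one, pw_sum1] at s1 s3 s4
  rw [pw_sum2] at s2
  have o0 : 0 ≤ ∑ j, o x ![j] ^ 2 := sum_nonneg fun _ _ => sq_nonneg _
  have g0 : 0 ≤ Hd.g2 f x := sum_nonneg fun _ _ => sq_nonneg _
  unfold nsq ip
  have w : ∀ {c y : ℝ}, 0 ≤ y → c ≤ 1 + 90 * δ → c * y ≤ (1 + τ) * (√(G x).det * y) :=
    fun {c y} hy hc => by
      rw [← mul_assoc]
      exact mul_le_mul_of_nonneg_right (hc.trans (le_trans (by nlinarith)
        (mul_le_mul (by linarith : 1 + 100 * δ ≤ 1 + τ) lo (by linarith) (by linarith)))) hy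
  refine ⟨?_, s1.trans (w z1 (by linarith)), ?_⟩
  · have Γ : ∀ m a b, |christoffel G x m a b| ≤ 12 * (δ / 100 / ρ) := fun m a b => by
      have p : ∀ a b c, |pderiv c (fun y => G y a b) x| ≤ δ / 100 / ρ := fun a b c => by
        rw [le_div_iff₀' hρ]; exact (h2 a b c).trans (min_le_right _ _)
      unfold christoffel
      rw [abs_mul, abs_of_pos (by norm_num : (0 : ℝ) < 1 / 2)]
      have := (abs_sum_le_sum_abs _ _).trans (sum_le_card_nsmul univ (fun l =>
        |inverseField G x m l * (pderiv a (fun y => G y b l) x + pderiv b (fun y => G y a l) x -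
          pderiv l (fun y => G y a b) x)|) (2 * (3 * (δ / 100 / ρ))) fun l _ => by
        rw [abs_mul]
        refine mul_le_mul (by simpa [inverseField] using hE.abs_inv_le (by norm_num) m l) (abs_le.2 ?_)
          (abs_nonneg _) zero_le_two
        constructor <;> linarith [abs_le.1 (p b l a), abs_le.1 (p a l b), abs_le.1 (p a b l)])
      simp only [card_univ, Fintype.card_fin, nsmul_eq_mul, Nat.cast_ofNat] at this
      linarith
    have q : ∀ a b, pderiv a (fun y => o y ![b]) x ^ 2 ≤ (1 + δ) * cov G o x ![a, b] ^ 2 +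
        δ / 8 * ((∑ j, o x ![j] ^ 2) / ρ ^ 2) := fun a b => by
      rw [cov_one]
      have c1 := sum_mul_sq_le_sq_mul_sq univ (fun m => christoffel G x m a b) fun m => o x ![m]
      have c2 := sum_le_card_nsmul univ (fun m => christoffel G x m a b ^ 2)
        ((12 * (δ / 100 / ρ)) ^ 2) fun m _ => sq_le_sq' (abs_le.1 (Γ m a b)).1 (abs_le.1 (Γ m a b)).2
      simp only [card_univ, Fintype.card_fin, nsmul_eq_mul, Nat.cast_ofNat] at c2
      have c3 := c1.trans (mul_le_mul_of_nonneg_right c2 o0)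
      rw [show 4 * (12 * (δ / 100 / ρ)) ^ 2 * ∑ j, o x ![j] ^ 2 =
        576 / 10000 * δ ^ 2 * ((∑ j, o x ![j] ^ 2) / ρ ^ 2) by field_simp; ring] at c3
      have y0 : 0 ≤ (∑ j, o x ![j] ^ 2) / ρ ^ 2 := by positivity
      generalize (∑ j, o x ![j] ^ 2) / ρ ^ 2 = y at *
      generalize ∑ m, christoffel G x m a b * o x ![m] = u at *
      generalize pderiv a (fun y => o y ![b]) x = v
      refine le_of_mul_le_mul_left ?_ d0
      nlinarith [sq_nonneg (δ * (v - u) - u), mul_le_mul_of_nonneg_left c3 d0.le,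
        mul_nonneg (mul_nonneg (sq_nonneg δ) y0) (by linarith : 0 ≤ 1 / 100 - δ)]
    have := sum_le_sum fun a (_ : a ∈ univ) => sum_le_sum fun b (_ : b ∈ univ) => q a b
    simp only [sum_add_distrib, ← mul_sum, sum_const, card_univ, Fintype.card_fin, nsmul_eq_mul,
      Nat.cast_ofNat] at this
    unfold Hd.g2
    rw [sum_comm]
    have y0 : 0 ≤ (∑ j, o x ![j] ^ 2) / ρ ^ 2 := by positivity
    have := w (c := (1 + δ) * (1 + 9 * δ) ^ 2) z2 (by nlinarith [mul_pos d0 d0, pow_pos d0 3])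
    nlinarith [mul_le_mul_of_nonneg_left s2 (by linarith : 0 ≤ 1 + δ),
      mul_le_mul_of_nonneg_right (by linarith : 2 * δ ≤ τ) y0]
  · have := mul_le_mul hi (mul_le_mul s4 s3 z1 (mul_nonneg k0 g0)) (mul_nonneg z3 z1) k0
    have k : (1 + 9 * δ) ^ 3 ≤ 1 + τ := by nlinarith [mul_pos d0 d0, pow_pos d0 3]
    exact this.trans ((by unfold Hd.g2 dT; simp only [Matrix.cons_val_zero]; ring :
      _ = (1 + 9 * δ) ^ 3 * (Hd.g2 f x * ∑ j, o x ![j] ^ 2)).trans_le
        (mul_le_mul_of_nonneg_right k (mul_nonneg g0 o0)))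

end Crest.Agent.N207.M

end
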