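import Crest.Agent.N207.M.Defs
import Crest.Agent.N207.K.Trf

/-!
# Row 207, X3 (helper97): the leaf `TRF`
-/

set_option autoImplicit false

open scoped ContDiff
open Metric Set Filter Topology
open Crest.GeometryTopology.CoordMetric
open Crest.Agent.NLib.Ell Crest.Agent.N207.I Crest.Agent.N207.I.TD Crest.Agent.N207.CB
  Crest.Agent.N207.Ga Crest.Agent.N207.K Crest.Agent.R273.SchA_152

noncomputable section

namespace Crest.Agent.N207.M

namespace Tf

section atl

variable {X : Type*} {α : Type} {A : Atl X α} {m : ℕ}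

/-- transfer of a cell bound through one change of charts -/
theorem one_tr (h : A.Ok) {s s' : α} {z0 : E4} {H : E4 → E4} (t : A.Tr s s' z0 H) {ρ : ℝ}
    (hρ : 0 < ρ) (k m : ℕ) : ∃ R C : ℝ, 0 < R ∧ 0 < C ∧ ∀ (F : α → Tn 4 m) (N : ℝ), 0 ≤ N →
      A.Compat F → (∀ I, CKA (1 / 2) B1 k N fun y => ρ * F s' (H z0 + ρ • y) I) →
      ∀ I, CKA (1 / 2) (ball z0 R) k (C * N) fun z => F s z I := by
  have hc : ContinuousAt (fun z => ρ⁻¹ • (H z - H z0)) z0 :=
    (t.sm.self_of_nhds.continuousAt.sub continuousAt_const).const_smul ρ⁻¹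
  obtain ⟨ε, hε, hb⟩ := Metric.eventually_nhds_iff_ball.1 ((tr_evt h t).and
    (hc.eventually (isOpen_ball.mem_nhds (x := ρ⁻¹ • (H z0 - H z0)) (s := ball 0 1) (by simp))))
  have hH : ContDiffOn ℝ ∞ H (ball z0 ε) := fun z hz =>
    (hb z hz).1.sm.self_of_nhds.contDiffWithinAt
  have hR : closedBall z0 (ε / 2) ⊆ ball z0 ε := closedBall_subset_ball (half_lt_self hε)
  obtain ⟨C, hC, hp⟩ := precomp (Φ := fun z => ρ⁻¹ • (H z - H z0)) (a := 1 / 2) isOpen_ball
    (isOpen_ball (x := (0 : E4)) (ε := 1)) ((hH.sub contDiffOn_const).const_smul _) hR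
    (fun z hz => (hb z (hR (ball_subset_closedBall hz))).2) (by norm_num) (by norm_num) k
  have hD : ContDiffOn ℝ ∞ (fderiv ℝ H) (ball z0 ε) :=
    hH.fderiv_of_isOpen isOpen_ball (by exact_mod_cast le_rfl)
  obtain ⟨V, hV⟩ := exists_cka (a := 1 / 2) (g := fun z (I J : Fin m → Fin 4) =>
      ρ⁻¹ * ∏ p, fderiv ℝ H z (EuclideanSpace.single (I p) 1) (J p)) isOpen_ball
    (contDiffOn_pi.2 fun I => contDiffOn_pi.2 fun J => contDiffOn_const.mul
      (contDiffOn_prod fun p _ => (EuclideanSpace.proj (𝕜 := ℝ) (J p)).contDiff.comp_contDiffOn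
        (hD.clm_apply contDiffOn_const))) hR (by norm_num) (by norm_num) k
  have hV0 : 0 ≤ V := hV.nonneg (mem_ball_self (half_pos hε))
  refine ⟨ε / 2, Fintype.card (Fin m → Fin 4) * (2 ^ (k + 1) * (V * C)) + 1, half_pos hε,
    by positivity, fun F N hN0 hF hN I => ?_⟩
  refine ((CKA.sum_le isOpen_ball fun J : Fin m → Fin 4 => CKA.mul isOpen_ball
    ((hV.apply isOpen_ball I).apply isOpen_ball J) (hp _ _ _ (hN J))).congr
    isOpen_ball fun z hz => ?_).mono (by nlinarith)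
  have e := congrFun (hF s s' z H (hb z (hR (ball_subset_closedBall hz))).1) I
  refine e.trans ?_
  rw [smul_inv_smul₀ hρ.ne', add_sub_cancel, pullT, evT]
  refine Finset.sum_congr rfl fun J _ => ?_
  field_simp

/-- cell bounds give bounds on the balls of radius `t` around the points of `K0` -/
def Loc (A : Atl X α) (K : α → Set E4) (ρ : α → E4 → ℝ) (k m : ℕ) (s : α) (K0 : Set E4) (t : ℝ) :
    Prop :=
  ∀ z ∈ K0, 0 < t → ∀ (F : α → Tn 4 m) (N : ℝ), 0 ≤ N → A.Compat F →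
    (∀ s, ∀ x ∈ K s, ∀ I, CKA (1 / 2) B1 k N fun y => ρ s x * F s (x + ρ s x • y) I) →
    ∀ I, CKA (1 / 2) (ball z t) k (t⁻¹ * N) fun z => F s z I

theorem loc_cpt {K : α → Set E4} (h : A.Ok) {ρ : α → E4 → ℝ} (hρ : ∀ s, ∀ x ∈ K s, 0 < ρ s x)
    (hc : ∀ s, ∀ z ∈ A.U s, ∃ s', ∃ x ∈ K s', x ∈ A.U s' ∧ A.c s' x = A.c s z) (k m : ℕ) {s : α}
    {K0 : Set E4} (hK : IsCompact K0) (hU : K0 ⊆ A.U s) :
    ∀ᶠ t in 𝓝 (0 : ℝ), Loc A K ρ k m s K0 t := by
  refine hK.eventually_forall_of_forall_eventually fun z0 hz0 => ?_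
  obtain ⟨s', x', hx', hx'', e⟩ := hc s z0 (hU hz0)
  obtain ⟨H, t, rfl⟩ := h.loc s s' z0 (hU hz0) x' hx'' e.symm
  obtain ⟨R, C, hR, hC, hb⟩ := one_tr h t (hρ s' _ hx') k m
  have c1 : Continuous fun p : ℝ × E4 => p.1 + dist p.2 z0 := by fun_prop
  have c2 : Continuous fun p : ℝ × E4 => p.1 * C := by fun_prop
  filter_upwards [c1.continuousAt.eventually (gt_mem_nhds (a := R) (by simpa using hR)),
    c2.continuousAt.eventually (gt_mem_nhds (a := 1) (by simp))] with p h1 h2 h0 F N hN0 hF hN I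
  refine ((hb F N hN0 hF (hN s' _ hx') I).subset (ball_subset_ball' h1.le)).mono
    (mul_le_mul_of_nonneg_right ?_ hN0)
  rw [← one_div, le_div_iff₀' h0]
  exact h2.le

end atl

variable {M : Type*} {T : TD M} {L : T.V → ℝ} {F : T.S → Tn 4 1} {γ N : ℝ}

/-- the family read in the charts of `base v` -/
def fb (L : T.V → ℝ) (F : T.S → Tn 4 1) (v : T.V) : T.S → Tn 4 1 := fun s u =>
  (sc (lm L) s v)⁻¹ • F s ((sc (lm L) s v)⁻¹ • u)

theorem fb_compat (h : T.Ok) (hL : T.Long L) (hF : (T.glob L).Compat F) (v : T.V) :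
    (T.base v).Compat (fb L F v) := by
  intro a b u H t
  have S := h.str_glob hL
  have pa := S.sc_pos a v
  have pb := S.sc_pos b v
  set p := sc (lm L) a v with hp
  set q := sc (lm L) b v with hq
  have e0 : p • p⁻¹ • u = u := smul_inv_smul₀ pa.ne' u
  have hc : Tendsto (fun z : E4 => p • z) (𝓝 (p⁻¹ • u)) (𝓝 u) := by
    have := (continuous_const_smul p).tendsto (p⁻¹ • u)
    rwa [e0] at this
  have t' : (T.glob L).Tr a b (p⁻¹ • u) fun z => q⁻¹ • H (p • z) := by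
    refine ⟨(S.conv' trivial (e0.symm ▸ t.mem)).1,
      (S.conv' (v := v) trivial (by rw [smul_inv_smul₀ pb.ne', e0]; exact t.mem')).1, ?_, ?_⟩
    · exact (hc.eventually t.sm).mono fun z hz =>
        (hz.comp z (contDiff_const_smul p).contDiffAt).const_smul _
    · filter_upwards [hc.eventually (tr_evt (h.base v) t)] with z hz
      rw [(S.conv' (v := v) trivial hz.mem).2,
        (S.conv' (v := v) trivial (by rw [smul_inv_smul₀ pb.ne']; exact hz.mem')).2,
        smul_inv_smul₀ pb.ne', hz.eq.self_of_nhds]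
  have hd : fderiv ℝ (fun z => q⁻¹ • H (p • z)) (p⁻¹ • u) = (q⁻¹ * p) • fderiv ℝ H u := by
    have h1 : HasFDerivAt H (fderiv ℝ H u) (p • p⁻¹ • u) :=
      e0.symm ▸ (t.sm.self_of_nhds.differentiableAt (by simp)).hasFDerivAt
    refine (((h1.comp _ ((hasFDerivAt_id _).const_smul p)).const_smul q⁻¹).fderiv).trans ?_
    ext w
    simp [mul_assoc]
  funext I
  have e := congrFun (hF a b _ _ t') I
  simp only [pullT, evT, hd, e0, fb, ← hp, ← hq, Pi.smul_apply, smul_eq_mul, e, Finset.mul_sum,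
    Finset.univ_unique, Finset.prod_singleton, ContinuousLinearMap.smul_apply, PiLp.smul_apply]
  refine Finset.sum_congr rfl fun J _ => ?_
  field_simp

/-- the cells which cover `base v` -/
def kc (T : TD M) (v : T.V) : T.S → Set E4 :=
  Sum.elim (fun b => {y | T.vx b = v ∧ ‖y‖ < 1}) fun w =>
    {y | (w = v ∧ 2 ≤ ‖y‖ ∧ ‖y‖ < 4) ∨ (T.kid v w ∧ T.r / 4 < ‖y‖ ∧ ‖y‖ ≤ T.r / 2)}

theorem kc_cov (h : T.Ok) (v : T.V) (s : T.S) (z : E4) (hz : z ∈ (T.base v).U s) :
    ∃ s', ∃ x ∈ kc T v s', x ∈ (T.base v).U s' ∧ (T.base v).c s' x = (T.base v).c s z := by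
  have hr := h.r_pos
  rcases h.cover v s z hz with ⟨b, hb, y, hy, e⟩ | ⟨y, h1, h2, e⟩ | ⟨w, hw, y, h1, h2, e⟩
  · rw [mem_ball_zero_iff] at hy
    exact ⟨Sum.inl b, y, ⟨hb, hy⟩, mem_base_inl.2 ⟨hb, by linarith⟩, e⟩
  · exact ⟨Sum.inr v, y, Or.inl ⟨rfl, h1, h2⟩, mem_base_out.2 ⟨by linarith, h2⟩,
      by rw [base_c_out, e]⟩
  · exact ⟨Sum.inr w, y, Or.inr ⟨hw, h1, h2⟩, (mem_base_inn (h.kid_ne hw)).2 ⟨hw, h1, by linarith⟩,
      by rw [base_c_inn (h.kid_ne hw), e]⟩

theorem kc_rad (h : T.Ok) (v : T.V) (s : T.S) (x : E4) (hx : x ∈ kc T v s) : 0 < rad T s x := by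
  have hr := h.r_pos
  cases s with
  | inl a => norm_num [rad]
  | inr w =>
    have : 0 < ‖x‖ := by rcases hx with h1 | h1 <;> linarith [h1.2.1]
    simpa [rad] using this

theorem kap_le (h : T.Ok) (hγ : 0 < γ) {s : T.S} {x : E4} (hx : x ∈ T.gK L s) :
    kap T γ L s x ≤ 2 := by
  cases s with
  | inl a => norm_num [kap]
  | inr w =>
    have h1 : ‖x‖ ^ (-γ) ≤ 1 :=
      Real.rpow_le_one_of_one_le_of_nonpos (by linarith [hx.1]) (by linarith)
    simp only [kap, Sum.elim_inr, wt]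
    split_ifs with hw
    · linarith
    · have h2 := hx.2 hw
      have h3 : Real.exp (-L w) * ‖x‖ ≤ 1 := by
        rw [Real.exp_neg, inv_mul_le_iff₀ (Real.exp_pos _)]
        nlinarith [h.r_lt, Real.exp_pos (L w)]
      linarith [Real.rpow_le_one (by positivity) h3 hγ.le]

theorem one_idx (I : Fin 1 → Fin 4) : I = ![I 0] := by
  funext i; fin_cases i; rfl

theorem fb_cell (h : T.Ok) (hL : T.Long L) (hγ : 0 < γ) (hN : 0 ≤ N) (hY : YN T γ L N F) (v : T.V)
    (s : T.S) (x : E4) (hx : x ∈ kc T v s) (I : Fin 1 → Fin 4) :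
    CKA (1 / 2) B1 2 (2 * N) fun y => rad T s x * fb L F v s (x + rad T s x • y) I := by
  have hr := h.r_pos
  have hp := (h.str_glob hL).sc_pos s v
  have h1 : (sc (lm L) s v)⁻¹ • x ∈ T.gK L s ∧
      rad T s ((sc (lm L) s v)⁻¹ • x) = (sc (lm L) s v)⁻¹ * rad T s x := by
    cases s with
    | inl a => exact ⟨mem_gK_inl.2 (by simp only [sc, Sum.elim_inl, inv_one, one_smul]; linarith [hx.2]),
        by simp [sc, rad]⟩
    | inr w =>
      refine ⟨?_, by
        simp only [rad, Sum.elim_inr, norm_smul, norm_inv, Real.norm_of_nonneg hp.le]; ring⟩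
      rcases hx with ⟨rfl, h1, h2⟩ | ⟨hw, h1, h2⟩
      · simp only [sc, Sum.elim_inr, lm, if_true, inv_one, one_smul]
        exact ⟨by linarith, fun hw => by linarith [hL w hw]⟩
      · simp only [sc, Sum.elim_inr, lm, if_neg (h.kid_ne hw), Real.exp_neg, inv_inv]
        have h3 := hL w hw.1
        have h4 := Real.exp_pos (L w)
        rw [mem_gK_inr, norm_smul, Real.norm_of_nonneg h4.le]
        exact ⟨by nlinarith, fun _ => by nlinarith⟩
  refine ((hY s _ h1.1 (I 0)).congr isOpen_ball fun y _ => ?_).mono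
    (by nlinarith [kap_le h hγ h1.1])
  rw [← one_idx I]
  simp only [clY, pt, fb, h1.2, smul_add, smul_smul, Pi.smul_apply, smul_eq_mul]
  ring

theorem nrm_bb (x : E4) {y : E4} (hy : y ∈ BB) {r : ℝ} (hr : 0 ≤ r) :
    ‖x‖ - 2 * r ≤ ‖x + r • y‖ ∧ ‖x + r • y‖ ≤ ‖x‖ + 2 * r := by
  have h1 : ‖r • y‖ ≤ 2 * r := by
    rw [norm_smul, Real.norm_of_nonneg hr, mul_comm]
    exact mul_le_mul_of_nonneg_right (mem_ball_zero_iff.1 hy).le hr
  have h2 := norm_sub_le (x + r • y) (r • y)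
  rw [add_sub_cancel_right] at h2
  exact ⟨by linarith, (norm_add_le _ _).trans (by linarith)⟩

theorem rad_gK {s : T.S} {x : E4} (hx : x ∈ T.gK L s) : 0 < rad T s x := by
  cases s with
  | inl a => norm_num [rad]
  | inr w =>
    have : 0 < ‖x‖ := by linarith [hx.1]
    simpa [rad] using this

/-- points in the collars -/
theorem far (h : T.Ok) (hL : T.Long L) (hγ : 0 < γ) (hN : 0 ≤ N) (hF : (T.glob L).Compat F)
    (hY : YN T γ L N F) {v : T.V} {s : T.S} {K0 : Set E4} {t : ℝ} (ht : 0 < t)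
    (P : Loc (T.base v) (kc T v) (rad T) 2 1 s K0 t) {x0 y0 : E4} (hx : x0 ∈ T.gK L s)
    (hz : sc (lm L) s v • pt T s x0 y0 ∈ K0) (h1 : sc (lm L) s v * rad T s x0 ≤ 1) (j : Fin 4) :
    CKA (1 / 2) (ball y0 t) 2 (t⁻¹ * (2 * N)) fun y => clY T F s x0 y ![j] := by
  have hp := (h.str_glob hL).sc_pos s v
  have hρ := mul_pos hp (rad_gK hx)
  have h4 := (P _ hz ht _ _ (by positivity) (fb_compat h hL hF v) (fb_cell h hL hγ hN hY v)
    ![j]).dilate isOpen_ball (by norm_num) (by norm_num) (sc (lm L) s v • x0)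
    (r := sc (lm L) s v * rad T s x0) (by rwa [abs_of_pos hρ])
  refine (((h4.subset fun y hy => ?_).const_mul isOpen_ball
    (sc (lm L) s v * rad T s x0)).congr isOpen_ball fun y _ => ?_).mono ?_
  · rw [mem_preimage, mem_ball_iff_norm, pt, smul_add, smul_smul, add_sub_add_left_eq_sub,
      ← smul_sub, norm_smul, Real.norm_of_nonneg hρ.le]
    exact (mul_le_of_le_one_left (norm_nonneg _) h1).trans_lt (mem_ball_iff_norm.1 hy)
  · simp only [clY, pt, fb, smul_add, smul_smul, Pi.smul_apply, smul_eq_mul,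
      inv_mul_cancel₀ hp.ne', inv_mul_cancel_left₀ hp.ne', one_smul]
    field_simp
  · rw [abs_of_pos hρ]
    exact mul_le_of_le_one_left (by positivity) h1

theorem rpow_cmp {a b : ℝ} (ha : 0 ≤ a) (hb : 0 ≤ b) (hγ : 0 < γ) (hγ1 : γ ≤ 1) (h : a ≤ 2 * b) :
    a ^ γ ≤ 2 * b ^ γ := by
  refine (Real.rpow_le_rpow ha h hγ.le).trans ?_
  rw [Real.mul_rpow zero_le_two hb]
  refine mul_le_mul_of_nonneg_right ?_ (Real.rpow_nonneg hb _)
  simpa using Real.rpow_le_rpow_of_exponent_le one_le_two hγ1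

theorem wt_cmp (hγ : 0 < γ) (hγ1 : γ ≤ 1) (w : T.V) {x z : E4} (hx : 0 < ‖x‖) (hz : 0 < ‖z‖)
    (h1 : ‖x‖ ≤ 2 * ‖z‖) (h2 : ‖z‖ ≤ 2 * ‖x‖) : T.wt γ L w z ≤ 2 * T.wt γ L w x := by
  have h3 : ‖z‖ ^ (-γ) ≤ 2 * ‖x‖ ^ (-γ) := by
    rw [Real.rpow_neg hz.le, Real.rpow_neg hx.le, ← Real.inv_rpow hz.le, ← Real.inv_rpow hx.le]
    refine rpow_cmp (by positivity) (by positivity) hγ hγ1 ?_
    rw [← div_eq_mul_inv, le_div_iff₀ hx, inv_mul_le_iff₀ hz]
    linarith
  have h4 : (Real.exp (-L w) * ‖z‖) ^ γ ≤ 2 * (Real.exp (-L w) * ‖x‖) ^ γ :=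
    rpow_cmp (by positivity) (by positivity) hγ hγ1 (by nlinarith [Real.exp_pos (-L w)])
  simp only [wt]
  split_ifs <;> linarith

/-- points in the support of the same chart -/
theorem near (hN : 0 ≤ N) (hY : YN T γ L N F) {s : T.S} {x0 y0 : E4} (hx : x0 ∈ T.gK L s)
    (hz : pt T s x0 y0 ∈ T.gK L s) (h2 : rad T s x0 ≤ 2 * rad T s (pt T s x0 y0))
    (h3 : kap T γ L s (pt T s x0 y0) ≤ 2 * kap T γ L s x0) (j : Fin 4) :
    CKA (1 / 2) (ball y0 (1 / 8)) 2 (32 * (N * kap T γ L s x0)) fun y => clY T F s x0 y ![j] := by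
  have hρ := rad_gK hx
  have hρ' := rad_gK hz
  have h0 := hY s _ hz j
  have h5 := h0.nonneg (mem_ball_self one_pos)
  have h4 := resc (w := fun p => rad T s (pt T s x0 y0) * F s p ![j]) (L := 2)
    (by norm_num) (by norm_num) (h0.subset (ball_subset_ball (by norm_num : (1 / 4 : ℝ) ≤ 1)))
    hρ hρ' (by norm_num) h2 rfl
  refine (((h4.subset (ball_subset_ball (by norm_num))).const_mul isOpen_ball
    (rad T s x0 / rad T s (pt T s x0 y0))).congr isOpen_ball fun y _ => ?_).mono ?_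
  · simp only [clY, pt, Pi.smul_apply, smul_eq_mul] at hρ' ⊢
    field_simp
  · rw [abs_of_pos (by positivity)]
    calc _ ≤ 2 * (2 ^ (2 + 1) * (N * (2 * kap T γ L s x0))) := by
          gcongr
          exact (div_le_iff₀ hρ').2 h2
      _ = _ := by ring

end Tf

open Tf in
theorem trf {M : Type*} {T : TD M} (h : T.Ok) : TRF T := by
  intro γ hγ hγ1
  have hr := h.r_pos
  have hr1 := h.r_lt
  have lc := fun v s => @loc_cpt _ _ _ (kc T v) (h.base v) (rad T) (kc_rad h v) (kc_cov h v) 2 1 s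
  have h1 := eventually_all.2 fun a => lc (T.vx a) (Sum.inl a) (cpt_ann 0 (7 / 4))
    fun z hz => mem_base_inl.2 ⟨rfl, by linarith [hz.2]⟩
  have h2 := eventually_all.2 fun w => lc w (Sum.inr w) (cpt_ann (9 / 8) (3 / 2))
    fun z hz => mem_base_out.2 ⟨by linarith [hz.1], by linarith [hz.2]⟩
  have h3 := eventually_all.2 fun w : {w // w ≠ T.root} => lc (T.par w) (Sum.inr w)
    (cpt_ann (3 / 4 * T.r) (15 / 16 * T.r)) fun z hz => (mem_base_inn (h.par_ne w.2)).2
      ⟨⟨w.2, rfl⟩, by linarith [hz.1], by linarith [hz.2]⟩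
  obtain ⟨t, ⟨⟨⟨a1, a2⟩, a3⟩, ht8⟩, ht⟩ := (((((h1.and h2).and h3).and
    (Iio_mem_nhds (by norm_num : (0 : ℝ) < 1 / 8))).filter_mono
    (nhdsWithin_le_nhds (s := Ioi 0))).and self_mem_nhdsWithin).exists
  have ht : 0 < t := ht
  have ht8 : t < 1 / 8 := ht8
  refine ⟨2 / t * (32 + t⁻¹ * (4 / T.r)), 0, by positivity, fun L hL F N hN hF hY s x0 hx j => ?_⟩
  have hρ := rad_gK hx
  rw [mul_assoc, mul_assoc]
  refine CKA.of_local (by norm_num) (by norm_num) ht (by linarith) fun y0 hy => ?_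
  have hn := nrm_bb x0 hy hρ.le
  have k0 : 0 ≤ N * kap T γ L s x0 := (hY s x0 hx j).nonneg (mem_ball_self one_pos)
  have nr := fun a b c => ((near hN hY hx (y0 := y0) a b c j).subset
    (ball_subset_ball ht8.le)).mono (mul_le_mul_of_nonneg_right
      (le_add_of_nonneg_right (by positivity : 0 ≤ t⁻¹ * (4 / T.r))) k0)
  have fr : T.r / 2 ≤ kap T γ L s x0 →
      t⁻¹ * (2 * N) ≤ (32 + t⁻¹ * (4 / T.r)) * (N * kap T γ L s x0) := fun hk => by
    have h4 : 2 * N ≤ 4 / T.r * (N * kap T γ L s x0) :=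
      calc 2 * N = 4 / T.r * (N * (T.r / 2)) := by field_simp; ring
        _ ≤ _ := by gcongr
    have h5 := mul_le_mul_of_nonneg_left h4 (inv_pos.2 ht).le
    nlinarith
  by_cases hz : pt T s x0 y0 ∈ T.gK L s
  · cases s with
    | inl a => exact nr hz (by norm_num [rad]) (by norm_num [kap])
    | inr w =>
      simp only [rad, Sum.elim_inr] at hn hρ
      refine nr hz (by simp only [rad, pt, Sum.elim_inr]; linarith [hn.1])
        (wt_cmp hγ hγ1 w (by linarith) ?_ ?_ ?_) <;>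
        simp only [rad, pt, Sum.elim_inr] <;> linarith [hn.1, hn.2]
  · cases s with
    | inl a =>
      have h4 := mem_gK_inl.1 hx
      simp only [rad, Sum.elim_inl] at hn
      refine (far h hL.1 hγ hN hF.compat hY ht (a1 a) hx ⟨norm_nonneg _, ?_⟩
        (by norm_num [sc, rad]) j).mono (fr (by simp only [kap, Sum.elim_inl]; linarith))
      simp only [sc, rad, pt, Sum.elim_inl, one_smul]
      linarith [hn.2]
    | inr w =>
      obtain ⟨h4, h5⟩ := mem_gK_inr.1 hx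
      have hE := Real.exp_pos (L w)
      have w0 : 0 ≤ ‖x0‖ ^ (-γ) := by positivity
      have w1 : 0 ≤ (Real.exp (-L w) * ‖x0‖) ^ γ := by positivity
      simp only [rad, Sum.elim_inr] at hn
      simp only [mem_gK_inr, pt, rad, Sum.elim_inr, not_and_or, not_le, Classical.not_imp] at hz
      rcases hz with hz | ⟨hw, hz⟩
      · refine (far h hL.1 hγ hN hF.compat hY ht (a2 w) hx ?_ ?_ j).mono (fr ?_)
        · simp only [sc, lm, rad, pt, Sum.elim_inr, if_true, one_smul]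
          exact ⟨by linarith [hn.1], hz.le⟩
        · simp only [sc, lm, rad, Sum.elim_inr, if_true]
          linarith [hn.1]
        · have h6 := rpow_cmp (a := 1) (b := ‖x0‖⁻¹) zero_le_one (by positivity) hγ hγ1 (by
            rw [← div_eq_mul_inv, le_div_iff₀ (by linarith)]; linarith [hn.1])
          rw [Real.one_rpow, Real.inv_rpow (norm_nonneg _), ← Real.rpow_neg (norm_nonneg _)] at h6
          simp only [kap, Sum.elim_inr, wt]
          split_ifs <;> linarith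
      · have h6 := h5 hw
        have e : sc (lm L) (Sum.inr w) (T.par w) = (Real.exp (L w))⁻¹ := by
          simp only [sc, lm, Sum.elim_inr, if_neg (h.par_ne hw), Real.exp_neg]
        refine (far h hL.1 hγ hN hF.compat hY ht (a3 ⟨w, hw⟩) hx ?_ ?_ j).mono (fr ?_)
        · rw [e]
          simp only [rad, pt, Sum.elim_inr, mem_setOf_eq, norm_smul, norm_inv,
            Real.norm_of_nonneg hE.le]
          rw [le_inv_mul_iff₀ hE, inv_mul_le_iff₀ hE]
          constructor <;> linarith [hn.2]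
        · rw [e, inv_mul_le_iff₀ hE]
          simp only [rad, Sum.elim_inr]
          nlinarith
        · have h7 : T.r / 2 ≤ Real.exp (-L w) * ‖x0‖ := by
            rw [Real.exp_neg, le_inv_mul_iff₀ hE]
            nlinarith [hn.2]
          have h8 := (Real.self_le_rpow_of_le_one (by positivity) (by linarith) hγ1).trans
            (Real.rpow_le_rpow (by positivity) h7 hγ.le)
          simp only [kap, Sum.elim_inr, wt, if_neg hw]
          linarith

end Crest.Agent.N207.M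

end
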