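import Crest.Agent.N207.I.Cal4
import Crest.Agent.N207.A.Arr

/-!
# Row 207, X3 (helper99): the weighted energy identity on an atlas
-/

set_option autoImplicit false

open scoped ContDiff
open Set Filter Topology MeasureTheory
open Crest.GeometryTopology.CoordMetric
open Crest.Agent.N207.I

noncomputable section

namespace Crest.Agent.N207.M.We

section pt

variable {n k : ℕ} {G : MetricField n} {U : Set (En n)} {y : En n} {f : En n → ℝ} {T : Tn n k}

theorem slA_smT (hf : DifferentiableAt ℝ f y) (hT : DfT T y) (a : Fin n) :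
    slA a (cov G (smT f T) y) = pderiv a f y • T y + f y • slA a (cov G T y) := by
  funext I
  exact cov_smT_cons hf hT a I

theorem nsq_smT (f : En n → ℝ) (T : Tn n k) : nsq G (smT f T) y = f y ^ 2 * nsq G T y := by
  have h : smT f T y = f y • T y := rfl
  simp only [nsq, ip, h, ipA_smul_left, ipA_smul_right]
  ring

theorem ip_smT (f : En n → ℝ) (T S : Tn n k) : ip G (smT f T) S y = f y * ip G T S y := by
  have h : smT f T y = f y • T y := rfl
  simp only [ip, h, ipA_smul_left]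

theorem nsq_cov_smT (hG : IsRiemannianOn G U) (hy : y ∈ U) (hf : DifferentiableAt ℝ f y)
    (hT : DfT T y) : nsq G (cov G (smT f T)) y =
      ip G (cov G (smT (fun z => f z * f z) T)) (cov G T) y + nsq G (dT f) y * nsq G T y := by
  have hs := ginv_symm hG hy
  have e1 : nsq G (dT f) y = ∑ a, ∑ b, (G y)⁻¹ a b * (pderiv a f y * pderiv b f y) := by
    rw [nsq, ip, ipA_one]; rfl
  have e2 : ∑ a, ∑ b, (G y)⁻¹ a b * (f y * pderiv b f y * ipA (G y)⁻¹ (slA a (cov G T y)) (T y)) =
      ∑ a, ∑ b, (G y)⁻¹ a b * (f y * pderiv a f y * ipA (G y)⁻¹ (T y) (slA b (cov G T y))) := by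
    rw [Finset.sum_comm]
    exact Finset.sum_congr rfl fun a _ => Finset.sum_congr rfl fun b _ => by
      rw [hs b a, ipA_comm hs]
  rw [e1, nsq, ip, ip, ipA_succ, ipA_succ, nsq, ip, Finset.sum_mul, ← sub_eq_zero,
    ← sub_eq_zero.2 e2]
  simp only [slA_smT hf hT, slA_smT (f := fun z => f z * f z) (hf.mul hf) hT, pd_mul _ hf hf, ipA_add_left, ipA_add_right,
    ipA_smul_left, ipA_smul_right, Finset.sum_mul, ← Finset.sum_add_distrib,
    ← Finset.sum_sub_distrib]
  exact Finset.sum_congr rfl fun a _ => Finset.sum_congr rfl fun b _ => by ring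

theorem nsq_dT_exp (σ : ℝ) (hf : DifferentiableAt ℝ f y) :
    nsq G (dT fun z => Real.exp (σ * f z)) y = (σ * Real.exp (σ * f y)) ^ 2 * nsq G (dT f) y := by
  have e : (dT fun z => Real.exp (σ * f z)) y = (σ * Real.exp (σ * f y)) • dT f y := by
    funext I
    have h1 : HasDerivAt (fun t => Real.exp (σ * t)) (Real.exp (σ * f y) * σ) (f y) := by
      simpa using ((hasDerivAt_id (f y)).const_mul σ).exp
    simp only [dT, Pi.smul_apply, smul_eq_mul]
    rw [pd_comp (φ := fun t => Real.exp (σ * t)) _ h1.differentiableAt hf, h1.deriv]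
    ring
  simp only [nsq, ip, e, ipA_smul_left, ipA_smul_right]
  ring

theorem young (hG : IsRiemannianOn G U) (hy : y ∈ U) (S T : Tn n k) {e : ℝ} (he : 0 < e) :
    -ip G S T y ≤ e * nsq G S y + nsq G T y / (4 * e) := by
  have h := Ar.ipA_nonneg (hG.posDef y hy) ((2 * e) • S y + T y)
  simp only [ipA_add_left, ipA_add_right, ipA_smul_left, ipA_smul_right,
    ipA_comm (ginv_symm hG hy) (T y) (S y)] at h
  rw [neg_le_iff_add_nonneg', nsq, nsq, ip, ip, ip]
  refine (div_nonneg h (show 0 ≤ 4 * e by positivity)).trans (le_of_eq ?_)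
  field_simp
  ring

end pt

variable {X : Type*} {α : Type} [Fintype α] {A : Atl X α} {G : α → MetricField 4}
  {χ : α → X → ℝ} {K : α → Set E4} {k : ℕ} {T : α → Tn 4 k} {S : Set X} {f : α → E4 → ℝ}

theorem intg_w (h : A.Ok) (hG : A.IsMet G) (hχ : A.PoU χ K) (hS : A.CS S) (hT : A.Sec T)
    (hv : A.Van T S) {R : α → Tn 4 k} (hR : A.Sec R) (hf : A.Ct f) :
    A.Intg χ G fun a x => f a x * ip (G a) (T a) (R a) x :=
  Atl.intg_of_cs h hG hχ hS (fun a => (hf a).mul (hT.ct_ip hG hR a))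
    ((hv.ip_left (G := G) R).of_imp fun b y _ e => by rw [e, mul_zero])

/-- the weighted energy identity -/
theorem wid (h : A.Ok) (hG : A.IsMet G) (hχ : A.PoU χ K) (hS : A.CS S) (hT : A.Sec T)
    (hv : A.Van T S) (hc : A.CompF f) (hs : ∀ a, ContDiffOn ℝ ∞ (f a) (A.U a)) :
    A.int χ G (fun a x => nsq (G a) (cov (G a) (smT (f a) (T a))) x) =
      A.int χ G (fun a x => f a x ^ 2 * -ip (G a) (T a) (lapT (G a) (T a)) x) +
        A.int χ G fun a x => nsq (G a) (dT (f a)) x * nsq (G a) (T a) x := by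
  obtain ⟨S', h1, hS', hcl⟩ := hS.exists_cl h
  replace hv := hv.mono h1
  have s2 : A.Sec fun a => smT (fun z => f a z * f a z) (T a) :=
    hT.smT (hc.map fun t => t * t) fun a => (hs a).mul (hs a)
  have v2 := hv.smT_right fun a z => f a z * f a z
  have g := Atl.green_lap h hG hχ s2 hT hS' v2
  have i1 := Atl.intg_of_cs h hG hχ hS' ((s2.cov h hG).ct_ip hG (hT.cov h hG))
    ((v2.cov h hcl).ip_left fun a => cov (G a) (T a))
  have sd := Atl.Sec.dT h hG hc hs
  have i2 : A.Intg χ G fun a x => nsq (G a) (dT (f a)) x * nsq (G a) (T a) x :=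
    intg_w h hG hχ hS' hT hv hT (sd.ct_ip hG sd)
  rw [Atl.int_congr h (g := fun a x => ip (G a) (cov (G a) (smT (fun z => f a z * f a z) (T a)))
    (cov (G a) (T a)) x + nsq (G a) (dT (f a)) x * nsq (G a) (T a) x) fun a x hx =>
      nsq_cov_smT (hG.riem a) hx (dAt (hs a) (h.isOpen a) hx) (hT.dfT h hx), Atl.int_add i1 i2]
  congr 1
  refine g.trans ?_
  rw [← Atl.int_neg]
  exact Atl.int_congr h fun a x _ => by rw [ip_smT]; ring

/-- the weighted estimate from the two Hardy inequalities -/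
theorem west (h : A.Ok) (hG : A.IsMet G) (hχ : A.PoU χ K) (hS : A.CS S) (hT : A.Sec T)
    (hv : A.Van T S) (hc : A.CompF f) (hs : ∀ a, ContDiffOn ℝ ∞ (f a) (A.U a))
    {r : α → E4 → ℝ} (hr : A.Ct r) (hp : ∀ a, ∀ x ∈ A.U a, 0 < r a x) {θ c : ℝ} (hθ : θ < 1)
    (hc0 : 0 < c)
    (h4 : A.int χ G (fun a x => nsq (G a) (dT (f a)) x * nsq (G a) (T a) x) ≤
      θ * A.int χ G fun a x => nsq (G a) (cov (G a) (smT (f a) (T a))) x)
    (hh : c * A.int χ G (fun a x => f a x ^ 2 / r a x ^ 2 * nsq (G a) (T a) x) ≤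
      A.int χ G fun a x => nsq (G a) (cov (G a) (smT (f a) (T a))) x) :
    A.int χ G (fun a x => f a x ^ 2 / r a x ^ 2 * nsq (G a) (T a) x) ≤ (((1 - θ) * c) ^ 2)⁻¹ *
      A.int χ G fun a x => f a x ^ 2 * r a x ^ 2 * nsq (G a) (lapT (G a) (T a)) x := by
  have e := wid h hG hχ hS hT hv hc hs
  obtain ⟨S', h1, hS', hcl⟩ := hS.exists_cl h
  replace hv := hv.mono h1
  have sl := hT.lapT h hG
  have cf : A.Ct f := fun a => (hs a).continuousOn
  have i1 : A.Intg χ G fun a x => f a x ^ 2 / r a x ^ 2 * nsq (G a) (T a) x :=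
    intg_w h hG hχ hS' hT hv hT fun a => ((cf a).pow 2).div ((hr a).pow 2)
      fun x hx => (pow_pos (hp a x hx) 2).ne'
  have i2 : A.Intg χ G fun a x => f a x ^ 2 * r a x ^ 2 * nsq (G a) (lapT (G a) (T a)) x :=
    intg_w h hG hχ hS' sl (hv.lapT h hcl) sl fun a => ((cf a).pow 2).mul ((hr a).pow 2)
  have i3 : A.Intg χ G fun a x => f a x ^ 2 * -ip (G a) (T a) (lapT (G a) (T a)) x :=
    (intg_w h hG hχ hS' hT hv sl (f := fun a x => -f a x ^ 2) fun a => ((cf a).pow 2).neg).congr h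
      fun a x _ => by ring
  set η := (1 - θ) * c / 2 with hη
  have h0 : 0 < η := by rw [hη]; have := sub_pos.2 hθ; positivity
  have m := Atl.int_mono h hχ i3 ((i1.const_mul η).add (i2.const_mul (4 * η)⁻¹)) fun a x hx => by
    have p := hp a x hx
    have := mul_le_mul_of_nonneg_left (young (hG.riem a) hx (T a) (lapT (G a) (T a))
      (e := η / r a x ^ 2) (by positivity)) (sq_nonneg (f a x))
    refine this.trans (le_of_eq ?_)
    field_simp
  rw [Atl.int_add (i1.const_mul η) (i2.const_mul _), Atl.int_const_mul, Atl.int_const_mul] at m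
  set Y := A.int χ G fun a x => f a x ^ 2 / r a x ^ 2 * nsq (G a) (T a) x
  set Z := A.int χ G fun a x => f a x ^ 2 * r a x ^ 2 * nsq (G a) (lapT (G a) (T a)) x
  set W := A.int χ G fun a x => nsq (G a) (cov (G a) (smT (f a) (T a))) x
  have k1 : (1 - θ) * (c * Y) ≤ (1 - θ) * W := mul_le_mul_of_nonneg_left hh (sub_pos.2 hθ).le
  have k2 : η * Y ≤ (4 * η)⁻¹ * Z := by rw [hη] at m ⊢; nlinarith
  have k3 : (1 - θ) * c = 2 * η := by rw [hη]; ring
  rw [k3]
  refine le_of_mul_le_mul_left (k2.trans (le_of_eq ?_)) h0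
  field_simp
  ring

end Crest.Agent.N207.M.We

end
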