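import Crest.Agent.N207.M.As3
import Crest.Agent.N207.M.Cel
import Crest.Agent.N207.M.Ct
import Crest.Agent.N207.M.Cx
import Crest.Agent.N207.M.Gbc
import Crest.Agent.N207.M.H4
import Crest.Agent.N207.M.Hg
import Crest.Agent.N207.M.Lex
import Crest.Agent.N207.M.Lx
import Crest.Agent.N207.M.Nc
import Crest.Agent.N207.M.Pw
import Crest.Agent.N207.M.Rb
import Crest.Agent.N207.M.Trf
import Crest.Agent.N207.M.We

/-!
# Row 207, X3 (helper50): the uniform weighted estimate for the vector Laplacian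
-/

set_option autoImplicit false

open Crest.Agent.N207.I Crest.Agent.N207.CB Crest.Agent.N207.Ga

namespace Crest.Agent.N207.M

theorem x3_we {M : Type*} {T : TD M} (h : T.Ok) (hc : ∀ v, (T.base v).Conn) {g : T.V → Fam T}
    {γ γ' : ℝ} (hL : T.Lim g γ) (we : WE T) (h0 : 0 < γ') (h1 : 2 * γ' ≤ γ) (h2 : γ ≤ 1) :
    X3 T g γ' :=
  x3_of h m1 (cel T) (gbc h hL) (lex h (hg h hc)) we (cx h pe) (fl h pe) (rb h pe)
    (ce h m1 m2w (trf h) (cel T)) (nc h m2w (cel T)) (ct h m2w (cel T)) h0 h1 h2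

/-- **X3** -/
theorem x3 {M : Type*} {T : TD M} (h : T.Ok) (hc : ∀ v, (T.base v).Conn) {g : T.V → Fam T}
    {γ γ' : ℝ} (hL : T.Lim g γ) (h0 : 0 < γ') (h1 : 2 * γ' ≤ γ) (h2 : γ ≤ 1) : X3 T g γ' :=
  x3_we h hc hL (we h (h4 h pw (hg h hc)) (hg h hc)) h0 h1 h2

end Crest.Agent.N207.M
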